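import Vale.Agent.P331.Defs
import Vale.Agent.P331.Osel.Defs
import Vale.Agent.P331.Osel.SecDefs

set_option linter.all false

section

section

section

/-!
# Matroid lemmas: removal of later elements, greedy bases, optimum bound
-/

namespace Vale.Agent.P331

open Set

variable {E : Type*} {M : Matroid E}

theorem subset_cl (hM : M.E = univ) (X : Set E) : X ⊆ M.closure X :=
  M.subset_closure X (by rw [hM]; exact subset_univ X)

theorem cl_mono_cl {X Y : Set E} (h : X ⊆ M.closure Y) : M.closure X ⊆ M.closure Y :=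
  M.closure_subset_closure_of_subset_closure h

/-- Exchange: an element outside `cl F` does not help to span elements of `cl F` over `X`. -/
theorem mem_cl_of_mem_cl_insert {F X : Set E} {b e : E} (hX : X ⊆ M.closure F)
    (he : e ∈ M.closure F) (hb : b ∉ M.closure F) (h : e ∈ M.closure (insert b X)) :
    e ∈ M.closure X := by
  by_contra hne
  have h1 := M.closure_exchange ⟨h, hne⟩
  exact hb (cl_mono_cl (insert_subset he hX) h1.1)

/-- The generic greedy procedure: `e` is accepted iff `P e` and `e` is not spanned by `F e`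
together with the elements accepted before.  Lists are most recent first. -/
noncomputable def grun (M : Matroid E) (P : E → Prop) (F : E → Set E) : List E → Finset E
  | [] => ∅
  | e :: l => by
      classical
      exact if P e ∧ e ∉ M.closure (F e ∪ (grun M P F l : Set E)) then
        insert e (grun M P F l) else grun M P F l

section grun

variable {P : E → Prop} {F : E → Set E}

theorem grun_cons_pos {e : E} {l : List E} (h : P e ∧ e ∉ M.closure (F e ∪ (grun M P F l : Set E))) :
    (grun M P F (e :: l) : Set E) = insert e (grun M P F l : Set E) := by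
  classical
  rw [grun, if_pos h]
  ext x; simp

theorem grun_cons_neg {e : E} {l : List E}
    (h : ¬ (P e ∧ e ∉ M.closure (F e ∪ (grun M P F l : Set E)))) :
    grun M P F (e :: l) = grun M P F l := by
  classical
  rw [grun, if_neg h]

theorem grun_subset_cons (e : E) (l : List E) :
    (grun M P F l : Set E) ⊆ (grun M P F (e :: l) : Set E) := by
  by_cases h : P e ∧ e ∉ M.closure (F e ∪ (grun M P F l : Set E))
  · rw [grun_cons_pos h]; exact subset_insert _ _
  · rw [grun_cons_neg h]

theorem mem_grun {l : List E} {e : E} (h : e ∈ (grun M P F l : Set E)) : e ∈ l ∧ P e := by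
  induction l with
  | nil => simp [grun] at h
  | cons b l ih =>
    by_cases hb : P b ∧ b ∉ M.closure (F b ∪ (grun M P F l : Set E))
    · rw [grun_cons_pos hb] at h
      rcases h with h | h
      · subst h; exact ⟨List.mem_cons_self, hb.1⟩
      · exact ⟨List.mem_cons_of_mem _ (ih h).1, (ih h).2⟩
    · rw [grun_cons_neg hb] at h
      exact ⟨List.mem_cons_of_mem _ (ih h).1, (ih h).2⟩

/-- Accepted elements whose contraction set spans `G` can be removed when spanning elements of
`cl G`. -/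
theorem grun_removal (hM : M.E = univ) {G : Set E} (Q : E → Prop)
    (hQ : ∀ b, P b → Q b → G ⊆ M.closure (F b)) {X : Set E} (hX : X ⊆ M.closure G) {e : E}
    (he : e ∈ M.closure G) (l : List E)
    (h : e ∈ M.closure (X ∪ {b | b ∈ grun M P F l ∧ Q b})) : e ∈ M.closure X := by
  induction l with
  | nil =>
    have : X ∪ {b | b ∈ grun M P F [] ∧ Q b} = X := by
      ext x; simp [grun]
    rwa [this] at h
  | cons b l ih =>
    apply ih
    by_cases hb : P b ∧ b ∉ M.closure (F b ∪ (grun M P F l : Set E))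
    · by_cases hQb : Q b
      · have hset : X ∪ {c | c ∈ grun M P F (b :: l) ∧ Q c} =
            insert b (X ∪ {c | c ∈ grun M P F l ∧ Q c}) := by
          ext x
          have hx : x ∈ grun M P F (b :: l) ↔ x = b ∨ x ∈ grun M P F l := by
            have := grun_cons_pos hb
            rw [← Finset.mem_coe, this]; simp
          simp only [mem_union, mem_insert_iff, mem_ofPred_eq, hx]
          constructor
          · rintro (h1 | ⟨rfl | h1, h2⟩)
            · exact Or.inr (Or.inl h1)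
            · exact Or.inl rfl
            · exact Or.inr (Or.inr ⟨h1, h2⟩)
          · rintro (rfl | h1 | ⟨h1, h2⟩)
            · exact Or.inr ⟨Or.inl rfl, hQb⟩
            · exact Or.inl h1
            · exact Or.inr ⟨Or.inr h1, h2⟩
        rw [hset] at h
        have hsub1 : M.closure G ⊆ M.closure (G ∪ {c | c ∈ grun M P F l ∧ Q c}) :=
          M.closure_subset_closure subset_union_left
        refine mem_cl_of_mem_cl_insert (F := G ∪ {c | c ∈ grun M P F l ∧ Q c}) ?_
          (hsub1 he) ?_ h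
        · apply union_subset (hX.trans hsub1)
          exact subset_union_right.trans (subset_cl hM _)
        · intro hbc
          apply hb.2
          refine cl_mono_cl ?_ hbc
          apply union_subset
          · exact (hQ b hb.1 hQb).trans (M.closure_subset_closure subset_union_left)
          · intro c hc
            exact subset_cl hM _ (Or.inr hc.1)
      · have hset : {c | c ∈ grun M P F (b :: l) ∧ Q c} = {c | c ∈ grun M P F l ∧ Q c} := by
          ext x
          have hx : x ∈ grun M P F (b :: l) ↔ x = b ∨ x ∈ grun M P F l := by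
            have := grun_cons_pos hb
            rw [← Finset.mem_coe, this]; simp
          simp only [mem_ofPred_eq, hx]
          constructor
          · rintro ⟨rfl | h1, h2⟩
            · exact absurd h2 hQb
            · exact ⟨h1, h2⟩
          · rintro ⟨h1, h2⟩
            exact ⟨Or.inr h1, h2⟩
        rwa [hset] at h
    · rwa [grun_cons_neg hb] at h

/-- The common part of the analysis: at its arrival an element which is spanned is already
spanned by the accepted elements of its own level. -/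
theorem spanned_level (hM : M.E = univ) (lev : E → ℕ) (W : ℕ → Set E)
    (h1 : ∀ e, P e → e ∈ M.closure (W (lev e)))
    (h2 : ∀ e, P e → F e ⊆ M.closure (W (lev e)))
    (h3 : ∀ e b, P e → P b → lev b < lev e → W (lev b) ⊆ M.closure (F e))
    {e : E} (he : P e) (l : List E) (h : e ∈ M.closure (F e ∪ (grun M P F l : Set E))) :
    e ∈ M.closure (F e ∪ {b | b ∈ grun M P F l ∧ lev b = lev e}) := by
  have key : e ∈ M.closure (F e ∪ {b | b ∈ grun M P F l ∧ lev b ≤ lev e}) := by
    refine grun_removal (P := P) (F := F) hM (G := W (lev e)) (fun b => lev e < lev b)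
      (fun b hb hQ => h3 b e hb he hQ) ?_ (h1 e he) l ?_
    · apply union_subset (h2 e he)
      rintro b ⟨hb, hle⟩
      have hPb := (mem_grun (Finset.mem_coe.2 hb)).2
      rcases lt_or_eq_of_le hle with hlt | heq
      · have : W (lev b) ⊆ M.closure (W (lev e)) :=
          (h3 e b he hPb hlt).trans (cl_mono_cl (h2 e he))
        exact cl_mono_cl this (h1 b hPb)
      · rw [← heq]; exact h1 b hPb
    · refine M.closure_subset_closure ?_ h
      intro x hx
      rcases hx with hx | hx
      · exact Or.inl (Or.inl hx)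
      · rcases le_or_gt (lev x) (lev e) with hle | hlt
        · exact Or.inl (Or.inr ⟨hx, hle⟩)
        · exact Or.inr ⟨hx, hlt⟩
  refine cl_mono_cl ?_ key
  apply union_subset
  · exact subset_union_left.trans (subset_cl hM _)
  · rintro b ⟨hb, hle⟩
    have hPb := (mem_grun (Finset.mem_coe.2 hb)).2
    rcases lt_or_eq_of_le hle with hlt | heq
    · have : M.closure (W (lev b)) ⊆ M.closure (F e) := cl_mono_cl (h3 e b he hPb hlt)
      exact M.closure_subset_closure subset_union_left (this (h1 b hPb))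
    · exact subset_cl hM _ (Or.inr ⟨hb, heq⟩)

/-- Elements not spanned by their contraction set and the other candidates of their level are
accepted in every order. -/
theorem good_mem_grun (hM : M.E = univ) (lev : E → ℕ) (W : ℕ → Set E)
    (h1 : ∀ e, P e → e ∈ M.closure (W (lev e)))
    (h2 : ∀ e, P e → F e ⊆ M.closure (W (lev e)))
    (h3 : ∀ e b, P e → P b → lev b < lev e → W (lev b) ⊆ M.closure (F e))
    {e : E} (he : P e) (hgood : e ∉ M.closure (F e ∪ {b | b ≠ e ∧ P b ∧ lev b = lev e}))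
    {l : List E} (hl : l.Nodup) (hel : e ∈ l) : e ∈ grun M P F l := by
  induction l with
  | nil => simp at hel
  | cons b l ih =>
    rw [List.nodup_cons] at hl
    rcases List.mem_cons.1 hel with rfl | hel'
    · have hacc : P e ∧ e ∉ M.closure (F e ∪ (grun M P F l : Set E)) := by
        refine ⟨he, fun hcl => hgood ?_⟩
        have := spanned_level hM lev W h1 h2 h3 he l hcl
        refine M.closure_subset_closure ?_ this
        apply union_subset_union_right
        rintro c ⟨hc, hlev⟩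
        have hc' := mem_grun (Finset.mem_coe.2 hc)
        refine ⟨?_, hc'.2, hlev⟩
        rintro rfl
        exact hl.1 hc'.1
      rw [← Finset.mem_coe, grun_cons_pos hacc]
      exact mem_insert _ _
    · exact grun_subset_cons b l (ih hl.2 hel')

/-- Every candidate is spanned by its contraction set and the accepted elements of its level. -/
theorem spanned_grun (hM : M.E = univ) (lev : E → ℕ) (W : ℕ → Set E)
    (h1 : ∀ e, P e → e ∈ M.closure (W (lev e)))
    (h2 : ∀ e, P e → F e ⊆ M.closure (W (lev e)))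
    (h3 : ∀ e b, P e → P b → lev b < lev e → W (lev b) ⊆ M.closure (F e))
    {e : E} (he : P e) {l : List E} (hel : e ∈ l) :
    e ∈ M.closure (F e ∪ {b | b ∈ grun M P F l ∧ lev b = lev e}) := by
  induction l with
  | nil => simp at hel
  | cons b l ih =>
    have hmono : {c | c ∈ grun M P F l ∧ lev c = lev e} ⊆
        {c | c ∈ grun M P F (b :: l) ∧ lev c = lev e} :=
      fun c hc => ⟨grun_subset_cons b l hc.1, hc.2⟩
    rcases List.mem_cons.1 hel with rfl | hel'
    · by_cases hacc : P e ∧ e ∉ M.closure (F e ∪ (grun M P F l : Set E))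
      · apply subset_cl hM
        refine Or.inr ⟨?_, rfl⟩
        rw [← Finset.mem_coe, grun_cons_pos hacc]
        exact mem_insert _ _
      · have hcl : e ∈ M.closure (F e ∪ (grun M P F l : Set E)) := by
          by_contra hne; exact hacc ⟨he, hne⟩
        have := spanned_level hM lev W h1 h2 h3 he l hcl
        exact M.closure_subset_closure (union_subset_union_right _ hmono) this
    · exact M.closure_subset_closure (union_subset_union_right _ hmono) (ih hel')

end grun

section greedy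

variable {Λ : Type*} [LinearOrder Λ]

/-- Relative rank of a set every element of which is not spanned by `F` and the larger ones. -/
theorem eRk_union_eq (hM : M.E = univ) (k : E → Λ) (hk : Function.Injective k) (F : Set E)
    (G : Finset E) (hG : ∀ e ∈ G, e ∉ M.closure (F ∪ {f | f ∈ G ∧ k e < k f})) :
    M.eRk (F ∪ (G : Set E)) = M.eRk F + G.card := by
  classical
  induction G using Finset.induction_on_min_value k with
  | empty => simp
  | insert a s has hmin ih =>
    have hih := ih (fun e he hcl => hG e (Finset.mem_insert_of_mem he) (by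
      refine M.closure_subset_closure ?_ hcl
      apply union_subset_union_right
      rintro f ⟨hf, hlt⟩
      exact ⟨Finset.mem_insert_of_mem hf, hlt⟩))
    have ha : a ∉ M.closure (F ∪ (s : Set E)) := by
      intro hcl
      refine hG a (Finset.mem_insert_self _ _) (M.closure_subset_closure ?_ hcl)
      apply union_subset_union_right
      intro f hf
      refine ⟨Finset.mem_insert_of_mem hf, lt_of_le_of_ne (hmin f hf) ?_⟩
      intro heq
      exact has (hk heq ▸ hf)
    have hset : F ∪ ((insert a s : Finset E) : Set E) = insert a (F ∪ (s : Set E)) := by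
      ext x; simp
    rw [hset, Matroid.eRk_insert_eq_add_one ⟨by rw [hM]; trivial, ha⟩, hih,
      Finset.card_insert_of_notMem has]
    push_cast
    ring

/-- Cardinality comparison in a contraction. -/
theorem card_le_of_spanned [Finite E] (hM : M.E = univ) (k : E → Λ) (hk : Function.Injective k)
    (F : Set E) (G A : Finset E) (hG : ∀ e ∈ G, e ∉ M.closure (F ∪ {f | f ∈ G ∧ k e < k f}))
    (hGA : ∀ e ∈ G, e ∈ M.closure (F ∪ (A : Set E))) : G.card ≤ A.card := by
  have h1 := eRk_union_eq hM k hk F G hG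
  have h2 : M.eRk (F ∪ (G : Set E)) ≤ M.eRk (F ∪ (A : Set E)) := by
    rw [← M.eRk_closure_eq (F ∪ (A : Set E))]
    apply M.eRk_mono
    apply union_subset
    · exact subset_union_left.trans (subset_cl hM _)
    · intro e he; exact hGA e he
  have h3 : M.eRk (F ∪ (A : Set E)) ≤ M.eRk F + A.card := by
    have := M.eRk_union_le_eRk_add_encard F (A : Set E)
    rwa [encard_coe_eq_coe_finsetCard] at this
  have hfin : M.eRk F ≠ ⊤ := by
    have : M.eRk F ≤ F.encard := M.eRk_le_encard F
    have h4 : F.encard < ⊤ := (F.toFinite).encard_lt_top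
    exact (lt_of_le_of_lt this h4).ne
  rw [h1] at h2
  have h5 := h2.trans h3
  rw [ENat.add_le_add_iff_left hfin] at h5
  exact_mod_cast h5

/-- Every element above a level is spanned by the greedy basis elements above this level. -/
theorem spanned_greedy [Finite E] (hM : M.E = univ) (k : E → Λ) (Q : E → Prop)
    (hQ : ∀ e f, Q e → k e < k f → Q f) (e : E) (he : Q e) :
    e ∈ M.closure {g | g ∉ M.closure {f | k g < k f} ∧ Q g} := by
  have wf : WellFounded (fun a b : E => k b < k a) := by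
    have : IsTrans E (fun a b : E => k b < k a) := ⟨fun a b c h1 h2 => lt_trans h2 h1⟩
    have : Std.Irrefl (fun a b : E => k b < k a) := ⟨fun a => lt_irrefl _⟩
    exact Finite.wellFounded_of_trans_of_irrefl _
  induction e using wf.induction with
  | _ e ih =>
    by_cases hB : e ∈ M.closure {f | k e < k f}
    · refine cl_mono_cl ?_ hB
      intro f hf
      exact ih f hf (hQ e f he hf)
    · exact subset_cl hM _ ⟨hB, he⟩

/-- The number of greedy basis elements is at most the rank. -/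
theorem greedy_card_le [Finite E] (hM : M.E = univ) (k : E → Λ) (hk : Function.Injective k)
    (G : Finset E) (hG : ∀ e ∈ G, e ∉ M.closure {f | k e < k f}) : (G.card : ℕ∞) ≤ M.eRank := by
  have h1 := eRk_union_eq hM k hk ∅ G (fun e he hcl => hG e he (by
    refine M.closure_subset_closure ?_ hcl
    rw [empty_union]
    exact fun f hf => hf.2))
  rw [empty_union, M.eRk_empty, zero_add] at h1
  rw [← h1]
  exact M.eRk_le_eRank _

/-- Counting form of greedy optimality. -/
theorem indep_card_le_greedy [Finite E] (hM : M.E = univ) (k : E → Λ) (Q : E → Prop)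
    (hQ : ∀ e f, Q e → k e < k f → Q f) (I G : Finset E) (hI : M.Indep (I : Set E))
    (hIQ : ∀ e ∈ I, Q e) (hG : ∀ g, g ∉ M.closure {f | k g < k f} → Q g → g ∈ G) :
    I.card ≤ G.card := by
  have h1 : (I.card : ℕ∞) = M.eRk (I : Set E) := by
    rw [hI.eRk_eq_encard, encard_coe_eq_coe_finsetCard]
  have h2 : M.eRk (I : Set E) ≤ M.eRk (G : Set E) := by
    rw [← M.eRk_closure_eq (G : Set E)]
    apply M.eRk_mono
    intro e he
    have := spanned_greedy hM k Q hQ e (hIQ e he)
    refine M.closure_subset_closure ?_ this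
    rintro g ⟨hg1, hg2⟩
    exact hG g hg1 hg2
  have h3 : M.eRk (G : Set E) ≤ G.card := by
    have := M.eRk_le_encard (G : Set E)
    rwa [encard_coe_eq_coe_finsetCard] at this
  have h4 := h2.trans h3
  rw [← h1] at h4
  exact_mod_cast h4

/-- Layer cake: comparison of weights from comparison of all upper counts. -/
theorem sum_le_sum_of_card {v : E → NNReal} (I G : Finset E)
    (h : ∀ t : ℝ, 0 ≤ t → (I.filter fun e => t < v e).card ≤ (G.filter fun e => t < v e).card) :
    ∑ e ∈ I, (v e : ENNReal) ≤ ∑ e ∈ G, (v e : ENNReal) := by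
  classical
  have key : ∀ J : Finset E, ∑ e ∈ J, (v e : ENNReal) =
      MeasureTheory.lintegral MeasureTheory.volume
        (fun t : ℝ => ∑ e ∈ J, (Ico (0 : ℝ) (v e)).indicator (1 : ℝ → ENNReal) t) := by
    intro J
    rw [MeasureTheory.lintegral_finsetSum]
    · refine Finset.sum_congr rfl fun e _ => ?_
      rw [MeasureTheory.lintegral_indicator_one measurableSet_Ico, Real.volume_Ico, sub_zero,
        ENNReal.ofReal_coe_nnreal]
    · intro e _
      exact measurable_one.indicator measurableSet_Ico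
  rw [key, key]
  apply MeasureTheory.lintegral_mono
  intro t
  have hcount : ∀ J : Finset E, 0 ≤ t →
      ∑ e ∈ J, (Ico (0 : ℝ) (v e)).indicator (1 : ℝ → ENNReal) t =
        ((J.filter fun e => t < v e).card : ENNReal) := by
    intro J ht
    rw [Finset.card_filter]
    push_cast
    refine Finset.sum_congr rfl fun e _ => ?_
    by_cases hlt : t < v e
    · rw [indicator_of_mem (show t ∈ Ico (0 : ℝ) (v e) from ⟨ht, hlt⟩)]; simp [hlt]
    · rw [indicator_of_notMem (fun h' : t ∈ Ico (0 : ℝ) (v e) => hlt h'.2)]; simp [hlt]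
  rcases lt_or_ge t 0 with ht | ht
  · have hz : ∀ J : Finset E,
        ∑ e ∈ J, (Ico (0 : ℝ) (v e)).indicator (1 : ℝ → ENNReal) t = 0 := by
      intro J
      apply Finset.sum_eq_zero
      intro e _
      exact indicator_of_notMem (fun h' : t ∈ Ico (0 : ℝ) (v e) => absurd h'.1 (not_le.2 ht)) _
    simp only [hz]; exact le_refl _
  · simp only [hcount _ ht]
    exact_mod_cast h t ht

/-- The greedy basis has maximum weight. -/
theorem sum_le_greedy [Finite E] (hM : M.E = univ) (k : E → Λ) {v : E → NNReal}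
    (hkv : ∀ e f, k e < k f → v e ≤ v f) (I G : Finset E) (hI : M.Indep (I : Set E))
    (hG : ∀ g, g ∉ M.closure {f | k g < k f} → g ∈ G) :
    ∑ e ∈ I, (v e : ENNReal) ≤ ∑ e ∈ G, (v e : ENNReal) := by
  classical
  apply sum_le_sum_of_card
  intro t ht
  refine indep_card_le_greedy hM k (fun e => t < v e) ?_ _ _ (hI.subset ?_) ?_ ?_
  · intro e f he hef
    exact lt_of_lt_of_le he (by exact_mod_cast hkv e f hef)
  · intro e he; exact (Finset.mem_filter.1 (Finset.mem_coe.1 he)).1
  · intro e he; exact (Finset.mem_filter.1 he).2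
  · intro g hg1 hg2; exact Finset.mem_filter.2 ⟨hG g hg1, hg2⟩

end greedy

end Vale.Agent.P331
end
end
end

section

section

section

/-!
# Online rules given by candidates and contraction sets
-/

namespace Vale.Agent.P331

open MeasureTheory Set
open scoped ENNReal NNReal

variable {E : Type*}

/-- The accepted set after a history, for candidates `cand` and contraction sets `con`. -/
noncomputable def stateRun (M : Matroid E) (cand : E → ℝ≥0 → Prop) (con : E → ℝ≥0 → Set E) :
    List (E × ℝ≥0) → Finset E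
  | [] => ∅
  | x :: h => by
      classical
      exact if cand x.1 x.2 ∧ x.1 ∉ M.closure (con x.1 x.2 ∪ (stateRun M cand con h : Set E)) then
        insert x.1 (stateRun M cand con h) else stateRun M cand con h

/-- The decision rule. -/
def stateDec (M : Matroid E) (cand : E → ℝ≥0 → Prop) (con : E → ℝ≥0 → Set E)
    (h : List (E × ℝ≥0)) (x : E × ℝ≥0) : Prop :=
  cand x.1 x.2 ∧ x.1 ∉ M.closure (con x.1 x.2 ∪ (stateRun M cand con h : Set E))

variable {M : Matroid E}

theorem accepted_stateDec (cand : E → ℝ≥0 → Prop) (con : E → ℝ≥0 → Set E)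
    (h : List (E × ℝ≥0)) :
    accepted (stateDec M cand con) h = stateRun M cand con h := by
  classical
  induction h with
  | nil => rfl
  | cons x h ih =>
    rw [accepted, stateRun, ih]
    by_cases hx : stateDec M cand con h x
    · have hx' : cand x.1 x.2 ∧
        x.1 ∉ M.closure (con x.1 x.2 ∪ (stateRun M cand con h : Set E)) := hx
      rw [if_pos hx, if_pos hx']
    · have hx' : ¬ (cand x.1 x.2 ∧
        x.1 ∉ M.closure (con x.1 x.2 ∪ (stateRun M cand con h : Set E))) := hx
      rw [if_neg hx, if_neg hx']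

theorem stateRun_map (cand : E → ℝ≥0 → Prop) (con : E → ℝ≥0 → Set E) (v : E → ℝ≥0)
    (l : List E) :
    stateRun M cand con (l.map fun f => (f, v f)) =
      grun M (fun e => cand e (v e)) (fun e => con e (v e)) l := by
  classical
  induction l with
  | nil => rfl
  | cons e l ih =>
    rw [List.map_cons, stateRun, grun, ih]

theorem stateRun_indep (hM : M.E = univ) (cand : E → ℝ≥0 → Prop) (con : E → ℝ≥0 → Set E)
    (h : List (E × ℝ≥0)) : M.Indep (stateRun M cand con h : Set E) := by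
  classical
  induction h with
  | nil => simp [stateRun]
  | cons x h ih =>
    rw [stateRun]
    by_cases hx : cand x.1 x.2 ∧ x.1 ∉ M.closure (con x.1 x.2 ∪ (stateRun M cand con h : Set E))
    · rw [if_pos hx, Finset.coe_insert, ih.insert_indep_iff]
      left
      refine ⟨by rw [hM]; trivial, fun h' => hx.2 ?_⟩
      exact M.closure_subset_closure subset_union_right h'
    · rw [if_neg hx]; exact ih

/-- A property of a random subset of a finite set is measurable if membership is. -/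
theorem measurableSet_of_mem [Finite E] {Ω : Type*} [MeasurableSpace Ω] (Y : Ω → Set E)
    (hY : ∀ f, MeasurableSet {ω | f ∈ Y ω}) (p : Set E → Prop) :
    MeasurableSet {ω | p (Y ω)} := by
  have h1 : {ω | p (Y ω)} = ⋃ X : {X : Set E // p X}, {ω | Y ω = X.1} := by
    ext ω
    simp only [mem_iUnion, Subtype.exists, exists_prop]
    constructor
    · intro h; exact ⟨Y ω, h, rfl⟩
    · rintro ⟨X, hX, hω⟩
      have hω' : Y ω = X := hω
      change p (Y ω)
      rw [hω']; exact hX
  rw [h1]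
  apply MeasurableSet.iUnion
  intro X
  have h2 : {ω | Y ω = X.1} = ⋂ f : E, {ω | f ∈ Y ω ↔ f ∈ X.1} := by
    ext ω
    simp only [mem_iInter]
    constructor
    · intro h f
      have h' : Y ω = X.1 := h
      change f ∈ Y ω ↔ f ∈ X.1
      rw [h']
    · intro h
      exact Set.ext fun f => h f
  rw [h2]
  apply MeasurableSet.iInter
  intro f
  by_cases hf : f ∈ X.1
  · have : {ω | f ∈ Y ω ↔ f ∈ X.1} = {ω | f ∈ Y ω} := by
      ext ω
      exact ⟨fun h => (show f ∈ Y ω ↔ f ∈ X.1 from h).2 hf, fun h => ⟨fun _ => hf, fun _ => h⟩⟩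
    rw [this]; exact hY f
  · have : {ω | f ∈ Y ω ↔ f ∈ X.1} = {ω | f ∈ Y ω}ᶜ := by
      ext ω
      constructor
      · intro h h'
        exact hf ((show f ∈ Y ω ↔ f ∈ X.1 from h).1 h')
      · intro h
        exact ⟨fun h' => absurd h' h, fun h' => absurd h' hf⟩
    rw [this]; exact (hY f).compl

/-- The accepted set is measurable. -/
theorem measurableSet_mem_grun [Finite E] {Ω : Type*} [MeasurableSpace Ω]
    (P : Ω → E → Prop) (F : Ω → E → Set E) (hP : ∀ e, MeasurableSet {ω | P ω e})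
    (hF : ∀ e f, MeasurableSet {ω | f ∈ F ω e}) (l : List E) (f : E) :
    MeasurableSet {ω | f ∈ grun M (P ω) (F ω) l} := by
  classical
  induction l generalizing f with
  | nil => simp [grun]
  | cons e l ih =>
    have hcl : MeasurableSet {ω | e ∈ M.closure (F ω e ∪ (grun M (P ω) (F ω) l : Set E))} := by
      apply measurableSet_of_mem (fun ω => F ω e ∪ (grun M (P ω) (F ω) l : Set E))
        (fun g => ?_) (fun X => e ∈ M.closure X)
      exact (hF e g).union (ih g)
    have hacc : MeasurableSet {ω | P ω e ∧ e ∉ M.closure (F ω e ∪ (grun M (P ω) (F ω) l : Set E))} :=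
      (hP e).inter hcl.compl
    have : {ω | f ∈ grun M (P ω) (F ω) (e :: l)} =
        {ω | f ∈ grun M (P ω) (F ω) l} ∪
        ({ω | P ω e ∧ e ∉ M.closure (F ω e ∪ (grun M (P ω) (F ω) l : Set E))} ∩ {_ω | f = e}) := by
      ext ω
      by_cases h : P ω e ∧ e ∉ M.closure (F ω e ∪ (grun M (P ω) (F ω) l : Set E))
      · have h' := grun_cons_pos h
        have hx : f ∈ grun M (P ω) (F ω) (e :: l) ↔ f = e ∨ f ∈ grun M (P ω) (F ω) l := by
          rw [← Finset.mem_coe, h']; simp
        change f ∈ grun M (P ω) (F ω) (e :: l) ↔ _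
        rw [hx]
        constructor
        · rintro (h1 | h1)
          · exact Or.inr ⟨h, h1⟩
          · exact Or.inl h1
        · rintro (h1 | ⟨_, h1⟩)
          · exact Or.inr h1
          · exact Or.inl h1
      · have h' := grun_cons_neg h
        change f ∈ grun M (P ω) (F ω) (e :: l) ↔ _
        rw [h']
        constructor
        · intro h1; exact Or.inl h1
        · rintro (h1 | ⟨h1, _⟩)
          · exact h1
          · exact absurd h1 h
    rw [this]
    exact (ih f).union (hacc.inter (MeasurableSet.const _))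

/-- The rule given by candidates and contraction sets, with a countable discrete seed. -/
noncomputable def mkRule [Finite E] (hM : M.E = univ) (Seed : Type) [Countable Seed]
    [MeasurableSpace Seed] [MeasurableSingletonClass Seed]
    (law : Measure Seed) [IsProbabilityMeasure law]
    (cand : Seed → (E → ℝ≥0) → E → ℝ≥0 → Prop) (con : Seed → (E → ℝ≥0) → E → ℝ≥0 → Set E)
    (hcand : ∀ r e, MeasurableSet {p : (E → ℝ≥0) × (E → ℝ≥0) | cand r p.1 e (p.2 e)})
    (hcon : ∀ r e f, MeasurableSet {p : (E → ℝ≥0) × (E → ℝ≥0) | f ∈ con r p.1 e (p.2 e)}) :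
    OnlineRule M where
  Seed := Seed
  law := law
  isProb := inferInstance
  accept r s := stateDec M (cand r s) (con r s)
  measurable_accept := by
    intro l e
    have hset : {ω : Seed × (E → ℝ≥0) × (E → ℝ≥0) |
        stateDec M (cand ω.1 ω.2.1) (con ω.1 ω.2.1) (l.map fun f => (f, ω.2.2 f)) (e, ω.2.2 e)} =
        ⋃ r : Seed, {r} ×ˢ {p : (E → ℝ≥0) × (E → ℝ≥0) | cand r p.1 e (p.2 e) ∧
          e ∉ M.closure (con r p.1 e (p.2 e) ∪
            (grun M (fun f => cand r p.1 f (p.2 f)) (fun f => con r p.1 f (p.2 f)) l : Set E))} := by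
      ext ⟨r, s, v⟩
      simp only [mem_iUnion, mem_prod, mem_singleton_iff]
      constructor
      · intro h
        refine ⟨r, rfl, ?_⟩
        have h' : stateDec M (cand r s) (con r s) (l.map fun f => (f, v f)) (e, v e) := h
        rw [stateDec, stateRun_map] at h'
        exact h'
      · rintro ⟨r', rfl, h⟩
        change stateDec M (cand r s) (con r s) (l.map fun f => (f, v f)) (e, v e)
        rw [stateDec, stateRun_map]
        exact h
    rw [hset]
    apply MeasurableSet.iUnion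
    intro r
    apply (MeasurableSet.singleton r).prod
    refine (hcand r e).inter (MeasurableSet.compl ?_)
    apply measurableSet_of_mem (fun p : (E → ℝ≥0) × (E → ℝ≥0) => con r p.1 e (p.2 e) ∪
            (grun M (fun f => cand r p.1 f (p.2 f)) (fun f => con r p.1 f (p.2 f)) l : Set E))
        (fun g => ?_) (fun X => e ∈ M.closure X)
    exact (hcon r e g).union (measurableSet_mem_grun
      (fun p : (E → ℝ≥0) × (E → ℝ≥0) => fun f => cand r p.1 f (p.2 f))
      (fun p => fun f => con r p.1 f (p.2 f)) (hcand r) (hcon r) l g)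
  feasible := by
    intro r s h _
    rw [accepted_stateDec]
    exact stateRun_indep hM _ _ h

end Vale.Agent.P331
end
end
end

section

section

section

/-!
# The modes of the rule
-/

namespace Vale.Agent.P331

open MeasureTheory Set
open scoped ENNReal NNReal Classical

variable {E : Type*}

/-- Largest label-0 sample value of a nonloop. -/
noncomputable def mx [Fintype E] (M : Matroid E) (ℓ : E → Fin 4) (s : E → ℝ≥0) : ℝ≥0 :=
  (Finset.univ.filter fun f => ℓ f = 0 ∧ M.IsNonloop f).sup s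

/-- Label 1, 2 sample elements above `m / 2 ^ n`. -/
def HH (ℓ : E → Fin 4) (s : E → ℝ≥0) (m : ℝ≥0) (n : ℕ) : Set E :=
  {f | (ℓ f = 1 ∨ ℓ f = 2) ∧ m / 2 ^ n < s f}

/-- Label 1 sample elements above `m / 2 ^ n`. -/
def H1 (ℓ : E → Fin 4) (s : E → ℝ≥0) (m : ℝ≥0) (n : ℕ) : Set E :=
  {f | ℓ f = 1 ∧ m / 2 ^ n < s f}

/-- The window of values. -/
def win (K : ℕ) (m t : ℝ≥0) : Prop := m / 2 ^ K < t ∧ t ≤ m

/-- The class of a value. -/
noncomputable def cls (K : ℕ) (m t : ℝ≥0) : ℕ := Nat.findGreatest (fun n => t ≤ m / 2 ^ n) K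

theorem HH_mono {ℓ : E → Fin 4} {s : E → ℝ≥0} {m : ℝ≥0} {n n' : ℕ} (h : n ≤ n') :
    HH ℓ s m n ⊆ HH ℓ s m n' := by
  rintro f ⟨h1, h2⟩
  refine ⟨h1, lt_of_le_of_lt ?_ h2⟩
  gcongr
  exact one_le_two

theorem H1_subset_HH {ℓ : E → Fin 4} {s : E → ℝ≥0} {m : ℝ≥0} {n n' : ℕ} (h : n ≤ n') :
    H1 ℓ s m n ⊆ HH ℓ s m n' := by
  rintro f ⟨h1, h2⟩
  exact HH_mono h ⟨Or.inl h1, h2⟩

theorem cls_spec {K : ℕ} {m t : ℝ≥0} (h : win K m t) : t ≤ m / 2 ^ (cls K m t) := by
  have := Nat.findGreatest_spec (P := fun n => t ≤ m / 2 ^ n) (m := 0) (n := K) (Nat.zero_le _)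
    (by simpa using h.2)
  exact this

theorem cls_lt {K : ℕ} {m t : ℝ≥0} (h : win K m t) : cls K m t < K := by
  rcases lt_or_eq_of_le (Nat.findGreatest_le (P := fun n => t ≤ m / 2 ^ n) K) with h1 | h1
  · exact h1
  · exfalso
    have h2 := cls_spec h
    have h3 : cls K m t = K := h1
    rw [h3] at h2
    exact absurd h.1 (not_lt.2 h2)

theorem lt_of_cls_lt {K : ℕ} {m t : ℝ≥0} {n : ℕ} (h : cls K m t < n)
    (hn : n ≤ K) : m / 2 ^ n < t := by
  have := Nat.findGreatest_is_greatest (P := fun n => t ≤ m / 2 ^ n) h hn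
  exact not_le.1 this

theorem le_of_le_cls {K : ℕ} {m t : ℝ≥0} (h : win K m t) {n : ℕ} (hn : n ≤ cls K m t) :
    t ≤ m / 2 ^ n := by
  refine (cls_spec h).trans ?_
  gcongr
  exact one_le_two

theorem cls_succ_lt {K : ℕ} {m t : ℝ≥0} (h : win K m t) : m / 2 ^ (cls K m t + 1) < t :=
  lt_of_cls_lt (Nat.lt_succ_self _) (cls_lt h)

/-- The modes; the multiplicities are the weights. -/
abbrev Mode (L : ℕ) : Type := Fin 8 ⊕ (Fin L × Fin 2 × Fin 4) ⊕ Fin 4 ⊕ Fin 27 ⊕ Fin 27

/-- Candidates of a mode. -/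
def cand (M : Matroid E) (L : ℕ) (m : ℝ≥0) (ℓ : E → Fin 4) (s : E → ℝ≥0) (e : E) (t : ℝ≥0) :
    Mode L → Prop
  | Sum.inl _ => ℓ e = 3 ∧ win (2 ^ L) m t ∧ e ∈ M.closure (HH ℓ s m (cls (2 ^ L) m t + 1))
  | Sum.inr (Sum.inl (j, p, _)) => ℓ e = 3 ∧ win (2 ^ L) m t ∧
      (cls (2 ^ L) m t / 2 ^ (j : ℕ)) % 2 = p ∧
      e ∈ M.closure (HH ℓ s m (2 ^ (j : ℕ) * (cls (2 ^ L) m t / 2 ^ (j : ℕ) + 2)))
  | Sum.inr (Sum.inr (Sum.inl _)) => ℓ e = 3 ∧ win (2 ^ L) m t
  | Sum.inr (Sum.inr (Sum.inr (Sum.inl _))) => ℓ e ≠ 0 ∧ m < t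
  | Sum.inr (Sum.inr (Sum.inr (Sum.inr _))) => ℓ e ≠ 0 ∧ m ≤ t

/-- Contraction sets of a mode. -/
def con (L : ℕ) (m : ℝ≥0) (ℓ : E → Fin 4) (s : E → ℝ≥0) (t : ℝ≥0) : Mode L → Set E
  | Sum.inl _ => HH ℓ s m (cls (2 ^ L) m t)
  | Sum.inr (Sum.inl (j, _, _)) => HH ℓ s m (2 ^ (j : ℕ) * (cls (2 ^ L) m t / 2 ^ (j : ℕ))) ∪
      H1 ℓ s m (2 ^ (j : ℕ) * (cls (2 ^ L) m t / 2 ^ (j : ℕ) + 1))
  | Sum.inr (Sum.inr (Sum.inl _)) => H1 ℓ s m (2 ^ L)
  | _ => ∅

section measurability

theorem measurable_mx [Fintype E] (M : Matroid E) (ℓ : E → Fin 4) : Measurable (mx M ℓ) := by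
  have h : mx M ℓ = fun s => ⨆ f : E, if ℓ f = 0 ∧ M.IsNonloop f then s f else 0 := by
    funext s
    rw [mx]
    apply le_antisymm
    · apply Finset.sup_le
      intro f hf
      have hf' := (Finset.mem_filter.1 hf).2
      have h1 : (if ℓ f = 0 ∧ M.IsNonloop f then s f else 0) ≤
          ⨆ f : E, if ℓ f = 0 ∧ M.IsNonloop f then s f else 0 :=
        le_ciSup (f := fun f : E => if ℓ f = 0 ∧ M.IsNonloop f then s f else 0)
          (Set.finite_range _).bddAbove f
      rwa [if_pos hf'] at h1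
    · rcases isEmpty_or_nonempty E with hE | hE
      · rw [ciSup_of_empty]; exact bot_le
      · apply ciSup_le
        intro f
        split_ifs with hf
        · exact Finset.le_sup (f := s) (Finset.mem_filter.2 ⟨Finset.mem_univ _, hf⟩)
        · exact bot_le
  rw [h]
  refine Measurable.iSup fun f => ?_
  split_ifs
  · exact measurable_pi_apply f
  · exact measurable_const

variable {Ω : Type*} [MeasurableSpace Ω]

theorem measurableSet_win (K : ℕ) {m t : Ω → ℝ≥0} (hm : Measurable m) (ht : Measurable t) :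
    MeasurableSet {ω | win K (m ω) (t ω)} := by
  have h1 : MeasurableSet {ω | m ω / 2 ^ K < t ω} := measurableSet_lt (hm.div_const _) ht
  have h2 : MeasurableSet {ω | t ω ≤ m ω} := measurableSet_le ht hm
  exact h1.inter h2

theorem measurable_cls (K : ℕ) {m t : Ω → ℝ≥0} (hm : Measurable m) (ht : Measurable t) :
    Measurable fun ω => cls K (m ω) (t ω) := by
  refine measurable_findGreatest (p := fun ω n => t ω ≤ m ω / 2 ^ n) fun k _ => ?_
  have h2 : MeasurableSet {ω | t ω ≤ m ω / 2 ^ k} := measurableSet_le ht (hm.div_const _)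
  exact h2

theorem measurableSet_nat {N : Ω → ℕ} (hN : Measurable N) {Q : ℕ → Ω → Prop}
    (hQ : ∀ n, MeasurableSet {ω | Q n ω}) : MeasurableSet {ω | Q (N ω) ω} := by
  have : {ω | Q (N ω) ω} = ⋃ n, ({ω | N ω = n} ∩ {ω | Q n ω}) := by
    ext ω
    simp only [mem_iUnion, mem_inter_iff]
    constructor
    · intro h; exact ⟨N ω, rfl, h⟩
    · rintro ⟨n, hn, h⟩
      have hn' : N ω = n := hn
      change Q (N ω) ω
      rw [hn']; exact h
  rw [this]
  refine MeasurableSet.iUnion fun n => MeasurableSet.inter ?_ (hQ n)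
  exact hN (measurableSet_singleton n)

theorem measurableSet_mem_HH (ℓ : E → Fin 4) {s : Ω → E → ℝ≥0} (hs : Measurable s)
    {m : Ω → ℝ≥0} (hm : Measurable m) (n : ℕ) (f : E) :
    MeasurableSet {ω | f ∈ HH ℓ (s ω) (m ω) n} := by
  have hsf : Measurable fun ω => s ω f := (measurable_pi_apply f).comp hs
  have h1 : MeasurableSet {ω | m ω / 2 ^ n < s ω f} := measurableSet_lt (hm.div_const _) hsf
  exact (MeasurableSet.const _).inter h1

theorem measurableSet_mem_H1 (ℓ : E → Fin 4) {s : Ω → E → ℝ≥0} (hs : Measurable s)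
    {m : Ω → ℝ≥0} (hm : Measurable m) (n : ℕ) (f : E) :
    MeasurableSet {ω | f ∈ H1 ℓ (s ω) (m ω) n} := by
  have hsf : Measurable fun ω => s ω f := (measurable_pi_apply f).comp hs
  have h1 : MeasurableSet {ω | m ω / 2 ^ n < s ω f} := measurableSet_lt (hm.div_const _) hsf
  exact (MeasurableSet.const _).inter h1

theorem measurableSet_cl_HH [Finite E] (M : Matroid E) (ℓ : E → Fin 4) {s : Ω → E → ℝ≥0}
    (hs : Measurable s) {m : Ω → ℝ≥0} (hm : Measurable m) (n : ℕ) (e : E) :
    MeasurableSet {ω | e ∈ M.closure (HH ℓ (s ω) (m ω) n)} :=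
  measurableSet_of_mem (fun ω => HH ℓ (s ω) (m ω) n)
    (fun f => measurableSet_mem_HH ℓ hs hm n f) (fun X => e ∈ M.closure X)

theorem measurableSet_cand [Finite E] (M : Matroid E) (L : ℕ) (ℓ : E → Fin 4)
    {s : Ω → E → ℝ≥0} (hs : Measurable s) {m t : Ω → ℝ≥0} (hm : Measurable m)
    (ht : Measurable t) (e : E) (μ : Mode L) :
    MeasurableSet {ω | cand M L (m ω) ℓ (s ω) e (t ω) μ} := by
  have hcls := measurable_cls (2 ^ L) hm ht
  rcases μ with _ | ⟨j, p, _⟩ | _ | _ | _
  · refine (MeasurableSet.const _).inter ((measurableSet_win _ hm ht).inter ?_)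
    exact measurableSet_nat hcls (Q := fun n ω => e ∈ M.closure (HH ℓ (s ω) (m ω) (n + 1)))
      (fun n => measurableSet_cl_HH M ℓ hs hm _ e)
  · refine (MeasurableSet.const _).inter ((measurableSet_win _ hm ht).inter ?_)
    refine MeasurableSet.inter ?_ ?_
    · exact measurableSet_nat hcls (Q := fun n _ => (n / 2 ^ (j : ℕ)) % 2 = (p : ℕ))
        (fun n => MeasurableSet.const _)
    · exact measurableSet_nat hcls
        (Q := fun n ω => e ∈ M.closure (HH ℓ (s ω) (m ω) (2 ^ (j : ℕ) * (n / 2 ^ (j : ℕ) + 2))))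
        (fun n => measurableSet_cl_HH M ℓ hs hm _ e)
  · exact (MeasurableSet.const _).inter (measurableSet_win _ hm ht)
  · have h1 : MeasurableSet {ω | m ω < t ω} := measurableSet_lt hm ht
    exact (MeasurableSet.const _).inter h1
  · have h1 : MeasurableSet {ω | m ω ≤ t ω} := measurableSet_le hm ht
    exact (MeasurableSet.const _).inter h1

theorem measurableSet_con (L : ℕ) (ℓ : E → Fin 4)
    {s : Ω → E → ℝ≥0} (hs : Measurable s) {m t : Ω → ℝ≥0} (hm : Measurable m)
    (ht : Measurable t) (f : E) (μ : Mode L) :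
    MeasurableSet {ω | f ∈ con L (m ω) ℓ (s ω) (t ω) μ} := by
  have hcls := measurable_cls (2 ^ L) hm ht
  rcases μ with _ | ⟨j, p, _⟩ | _ | _ | _
  · exact measurableSet_nat hcls (Q := fun n ω => f ∈ HH ℓ (s ω) (m ω) n)
      (fun n => measurableSet_mem_HH ℓ hs hm _ f)
  · refine MeasurableSet.union ?_ ?_
    · exact measurableSet_nat hcls
        (Q := fun n ω => f ∈ HH ℓ (s ω) (m ω) (2 ^ (j : ℕ) * (n / 2 ^ (j : ℕ))))
        (fun n => measurableSet_mem_HH ℓ hs hm _ f)
    · exact measurableSet_nat hcls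
        (Q := fun n ω => f ∈ H1 ℓ (s ω) (m ω) (2 ^ (j : ℕ) * (n / 2 ^ (j : ℕ) + 1)))
        (fun n => measurableSet_mem_H1 ℓ hs hm _ f)
  · exact measurableSet_mem_H1 ℓ hs hm _ f
  · exact MeasurableSet.empty
  · exact MeasurableSet.empty

end measurability

end Vale.Agent.P331
end
end
end

section

section

section

/-!
# Order-independent lower bounds for the gain of each mode
-/

namespace Vale.Agent.P331

open Set
open scoped NNReal Classical

variable {E : Type*} [Fintype E] {M : Matroid E}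

/-- The accepted set of a mode. -/
noncomputable def runM (M : Matroid E) (L : ℕ) (m : ℝ≥0) (ℓ : E → Fin 4) (s v : E → ℝ≥0)
    (μ : Mode L) (l : List E) : Finset E :=
  grun M (fun e => cand M L m ℓ s e (v e) μ) (fun e => con L m ℓ s (v e) μ) l

/-- `a` if `P` holds, otherwise `0`. -/
noncomputable def ind (P : Prop) (a : ℝ) : ℝ := if P then a else 0

theorem ind_pos {P : Prop} (h : P) (a : ℝ) : ind P a = a := if_pos h

theorem ind_neg {P : Prop} (h : ¬ P) (a : ℝ) : ind P a = 0 := if_neg h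

theorem ind_nonneg {P : Prop} {a : ℝ} (h : 0 ≤ a) : 0 ≤ ind P a := by
  by_cases hP : P
  · rw [ind_pos hP]; exact h
  · rw [ind_neg hP]

theorem ind_mono {P Q : Prop} {a : ℝ} (h : P → Q) (ha : 0 ≤ a) : ind P a ≤ ind Q a := by
  by_cases hP : P
  · rw [ind_pos hP, ind_pos (h hP)]
  · rw [ind_neg hP]; exact ind_nonneg ha

theorem ind_congr {P Q : Prop} {a b : ℝ} (h : P ↔ Q) (hab : a = b) : ind P a = ind Q b := by
  subst hab
  by_cases hP : P
  · rw [ind_pos hP, ind_pos (h.1 hP)]
  · rw [ind_neg hP, ind_neg (fun hq => hP (h.2 hq))]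

theorem ind_le_add {P Q R : Prop} {a : ℝ} (h : P → Q ∨ R) (ha : 0 ≤ a) :
    ind P a ≤ ind Q a + ind R a := by
  by_cases hP : P
  · rcases h hP with hQ | hR
    · rw [ind_pos hP, ind_pos hQ]; linarith [ind_nonneg (P := R) ha]
    · rw [ind_pos hP, ind_pos hR]; linarith [ind_nonneg (P := Q) ha]
  · rw [ind_neg hP]; linarith [ind_nonneg (P := R) ha, ind_nonneg (P := Q) ha]

theorem sum_ind_eq {ι : Type*} (s : Finset ι) (Q : ι → Prop) (f : ι → ℝ) :
    ∑ e ∈ s, ind (Q e) (f e) = ∑ e ∈ s.filter Q, f e := by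
  rw [Finset.sum_filter]; rfl

theorem sum_ite_le_of_subset (v : E → ℝ≥0) (Q : E → Prop) (A : Finset E)
    (h : ∀ e, Q e → e ∈ A) : ∑ e, ind (Q e) (v e : ℝ) ≤ ∑ e ∈ A, (v e : ℝ) := by
  rw [sum_ind_eq]
  apply Finset.sum_le_sum_of_subset_of_nonneg
  · intro e he; exact h e (Finset.mem_filter.1 he).2
  · intro e _ _; exact (v e).2

theorem lt_of_cls {K : ℕ} {m t : ℝ≥0} (h : win K m t) {n : ℕ} (hn : cls K m t + 1 ≤ n) :
    m / 2 ^ n < t := by
  refine lt_of_le_of_lt ?_ (cls_succ_lt h)
  gcongr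
  exact one_le_two

theorem gain_block (hM : M.E = univ) (L : ℕ) (m : ℝ≥0) (ℓ : E → Fin 4) (s v : E → ℝ≥0)
    (j : Fin L) (p : Fin 2) (w : Fin 4) {l : List E} (hl : l.Nodup) (hall : ∀ e, e ∈ l) :
    ∑ e, ind ((ℓ e = 3 ∧ win (2 ^ L) m (v e)) ∧
        (cls (2 ^ L) m (v e) / 2 ^ (j : ℕ)) % 2 = p ∧
        e ∈ M.closure (HH ℓ s m (2 ^ (j : ℕ) * (cls (2 ^ L) m (v e) / 2 ^ (j : ℕ) + 2))) ∧
        e ∉ M.closure (HH ℓ s m (2 ^ (j : ℕ) * (cls (2 ^ L) m (v e) / 2 ^ (j : ℕ))) ∪
          H1 ℓ s m (2 ^ (j : ℕ) * (cls (2 ^ L) m (v e) / 2 ^ (j : ℕ) + 1)) ∪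
          {b | b ≠ e ∧ ℓ b = 3 ∧
            m / 2 ^ (2 ^ (j : ℕ) * (cls (2 ^ L) m (v e) / 2 ^ (j : ℕ) + 1)) < v b ∧
            v b ≤ m / 2 ^ (2 ^ (j : ℕ) * (cls (2 ^ L) m (v e) / 2 ^ (j : ℕ)))}))
        (v e : ℝ) ≤
      ∑ e ∈ runM M L m ℓ s v (Sum.inr (Sum.inl (j, p, w))) l, (v e : ℝ) := by
  apply sum_ite_le_of_subset v
  rintro e ⟨⟨h3, hw⟩, hp, hcl, hncl⟩
  refine good_mem_grun hM (fun e => cls (2 ^ L) m (v e) / 2 ^ (j : ℕ))
    (fun a => HH ℓ s m (2 ^ (j : ℕ) * (a + 2))) ?_ ?_ ?_ ?_ ?_ hl (hall e)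
  · rintro e ⟨_, _, _, he⟩; exact he
  · rintro e _
    refine Subset.trans ?_ (subset_cl hM _)
    apply union_subset
    · exact HH_mono (Nat.mul_le_mul_left _ (by omega))
    · exact H1_subset_HH (Nat.mul_le_mul_left _ (by omega))
  · rintro e b ⟨_, _, hpe, _⟩ ⟨_, _, hpb, _⟩ hlt
    refine Subset.trans ?_ (subset_cl hM _)
    refine Subset.trans ?_ subset_union_left
    apply HH_mono
    apply Nat.mul_le_mul_left
    have hlt' : cls (2 ^ L) m (v b) / 2 ^ (j : ℕ) < cls (2 ^ L) m (v e) / 2 ^ (j : ℕ) := hlt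
    omega
  · exact ⟨h3, hw, hp, hcl⟩
  · intro hcon
    apply hncl
    refine M.closure_subset_closure ?_ hcon
    apply union_subset_union_right
    rintro b ⟨hbe, ⟨hb3, hbw, _, _⟩, hlev⟩
    refine ⟨hbe, hb3, ?_, ?_⟩
    · apply lt_of_cls hbw
      have h1 : 0 < 2 ^ (j : ℕ) := by positivity
      have h2 := Nat.lt_mul_div_succ (cls (2 ^ L) m (v b)) h1
      have hlev' : cls (2 ^ L) m (v b) / 2 ^ (j : ℕ) = cls (2 ^ L) m (v e) / 2 ^ (j : ℕ) := hlev
      rw [hlev'] at h2
      omega
    · apply le_of_le_cls hbw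
      have hlev' : cls (2 ^ L) m (v b) / 2 ^ (j : ℕ) = cls (2 ^ L) m (v e) / 2 ^ (j : ℕ) := hlev
      rw [← hlev']
      exact Nat.mul_div_le _ _

theorem gain_final (hM : M.E = univ) (L : ℕ) (m : ℝ≥0) (ℓ : E → Fin 4) (s v : E → ℝ≥0)
    (w : Fin 4) {l : List E} (hl : l.Nodup) (hall : ∀ e, e ∈ l) :
    ∑ e, ind ((ℓ e = 3 ∧ win (2 ^ L) m (v e)) ∧
        e ∉ M.closure (H1 ℓ s m (2 ^ L) ∪
          {b | b ≠ e ∧ ℓ b = 3 ∧ m / 2 ^ (2 ^ L) < v b ∧ v b ≤ m}))
        (v e : ℝ) ≤
      ∑ e ∈ runM M L m ℓ s v (Sum.inr (Sum.inr (Sum.inl w))) l, (v e : ℝ) := by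
  apply sum_ite_le_of_subset v
  rintro e ⟨⟨h3, hw⟩, hncl⟩
  refine good_mem_grun hM (fun _ => 0) (fun _ => univ) ?_ ?_ ?_ ?_ ?_ hl (hall e)
  · intro e _; rw [M.closure_univ, hM]; trivial
  · intro e _; rw [M.closure_univ, hM]; exact subset_univ _
  · intro e b _ _ hlt; exact absurd hlt (lt_irrefl _)
  · exact ⟨h3, hw⟩
  · intro hcon
    apply hncl
    refine M.closure_subset_closure ?_ hcon
    apply union_subset_union_right
    rintro b ⟨hbe, ⟨hb3, hbw⟩, _⟩
    exact ⟨hbe, hb3, hbw.1, hbw.2⟩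

theorem gain_class (hM : M.E = univ) {Λ : Type*} [LinearOrder Λ] (k : E → Λ)
    (hk : Function.Injective k) (L : ℕ) (m : ℝ≥0) (ℓ : E → Fin 4)
    (s v : E → ℝ≥0) (w : Fin 8) {l : List E} (hall : ∀ e, e ∈ l) :
    ∑ e, ind ((ℓ e = 3 ∧ win (2 ^ L) m (v e)) ∧
        e ∈ M.closure (HH ℓ s m (cls (2 ^ L) m (v e) + 1)) ∧
        e ∉ M.closure (HH ℓ s m (cls (2 ^ L) m (v e)) ∪
          {b | k e < k b ∧ ℓ b = 3 ∧ win (2 ^ L) m (v b) ∧
            cls (2 ^ L) m (v b) = cls (2 ^ L) m (v e)}))
        (v e : ℝ) ≤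
      2 * ∑ e ∈ runM M L m ℓ s v (Sum.inl w) l, (v e : ℝ) := by
  set c : E → ℕ := fun e => cls (2 ^ L) m (v e) with hc
  set A := runM M L m ℓ s v (Sum.inl w) l with hA
  have hAc : ∀ e ∈ A, cand M L m ℓ s e (v e) (Sum.inl w) := fun e he =>
    (mem_grun (Finset.mem_coe.2 he)).2
  obtain ⟨Q, hQ⟩ : ∃ Q : E → Prop, Q = fun e => (ℓ e = 3 ∧ win (2 ^ L) m (v e)) ∧
        e ∈ M.closure (HH ℓ s m (c e + 1)) ∧
        e ∉ M.closure (HH ℓ s m (c e) ∪
          {b | k e < k b ∧ ℓ b = 3 ∧ win (2 ^ L) m (v b) ∧ c b = c e}) := ⟨_, rfl⟩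
  have hgoal : ∑ e, ind (Q e) (v e : ℝ) ≤ 2 * ∑ e ∈ A, (v e : ℝ) := ?_
  · rw [hQ] at hgoal; exact hgoal
  rw [sum_ind_eq]
  have hQ' : ∀ e, Q e → (ℓ e = 3 ∧ win (2 ^ L) m (v e)) ∧
        e ∈ M.closure (HH ℓ s m (c e + 1)) ∧
        e ∉ M.closure (HH ℓ s m (c e) ∪
          {b | k e < k b ∧ ℓ b = 3 ∧ win (2 ^ L) m (v b) ∧ c b = c e}) := by
    intro e he; rw [hQ] at he; exact he
  set G := Finset.univ.filter Q with hG
  have hGc : ∀ e ∈ G, c e ∈ Finset.range (2 ^ L) := by
    intro e he
    have := hQ' e (Finset.mem_filter.1 he).2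
    exact Finset.mem_range.2 (cls_lt this.1.2)
  have hAr : ∀ e ∈ A, c e ∈ Finset.range (2 ^ L) := by
    intro e he
    exact Finset.mem_range.2 (cls_lt (hAc e he).2.1)
  rw [← Finset.sum_fiberwise_of_maps_to hGc, ← Finset.sum_fiberwise_of_maps_to hAr,
    Finset.mul_sum]
  apply Finset.sum_le_sum
  intro i hi
  -- cardinality comparison
  have hcard : (G.filter fun e => c e = i).card ≤ (A.filter fun e => c e = i).card := by
    refine card_le_of_spanned hM k hk (HH ℓ s m i) _ _ ?_ ?_
    · intro e he hcl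
      have he' := Finset.mem_filter.1 he
      have heG := hQ' e (Finset.mem_filter.1 he'.1).2
      apply heG.2.2
      refine M.closure_subset_closure ?_ hcl
      rw [he'.2]
      apply union_subset_union_right
      rintro b ⟨hb, hlt⟩
      have hb' := Finset.mem_filter.1 hb
      have hbG := hQ' b (Finset.mem_filter.1 hb'.1).2
      exact ⟨hlt, hbG.1.1, hbG.1.2, hb'.2⟩
    · intro e he
      have he' := Finset.mem_filter.1 he
      have heG := hQ' e (Finset.mem_filter.1 he'.1).2
      have hspan := spanned_grun (M := M)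
        (P := fun e => cand M L m ℓ s e (v e) (Sum.inl w))
        (F := fun e => con L m ℓ s (v e) (Sum.inl w)) hM c
        (fun a => HH ℓ s m (a + 1)) ?_ ?_ ?_ (e := e) ⟨heG.1.1, heG.1.2, heG.2.1⟩ (hall e)
      · refine M.closure_subset_closure ?_ hspan
        apply union_subset
        · change HH ℓ s m (c e) ⊆ _
          rw [he'.2]; exact subset_union_left
        · rintro b ⟨hb, hbc⟩
          right
          rw [Finset.mem_coe, Finset.mem_filter]
          refine ⟨hb, ?_⟩
          rw [← he'.2]; exact hbc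
      · rintro e ⟨_, _, he⟩; exact he
      · rintro e _
        refine Subset.trans ?_ (subset_cl hM _)
        exact HH_mono (Nat.le_succ _)
      · rintro e b _ _ hlt
        refine Subset.trans ?_ (subset_cl hM _)
        exact HH_mono hlt
  -- compare values
  rcases Finset.eq_empty_or_nonempty (G.filter fun e => c e = i) with hemp | hne
  · rw [hemp, Finset.sum_empty]
    apply mul_nonneg zero_le_two
    exact Finset.sum_nonneg fun e _ => (v e).2
  · have h1 : ∑ e ∈ G.filter (fun e => c e = i), (v e : ℝ) ≤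
        (G.filter fun e => c e = i).card • ((m / 2 ^ i : ℝ≥0) : ℝ) := by
      apply Finset.sum_le_card_nsmul
      intro e he
      have he' := Finset.mem_filter.1 he
      have heG := hQ' e (Finset.mem_filter.1 he'.1).2
      have := cls_spec heG.1.2
      rw [show cls (2 ^ L) m (v e) = i from he'.2] at this
      exact_mod_cast this
    have h2 : (A.filter fun e => c e = i).card • ((m / 2 ^ (i + 1) : ℝ≥0) : ℝ) ≤
        ∑ e ∈ A.filter (fun e => c e = i), (v e : ℝ) := by
      apply Finset.card_nsmul_le_sum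
      intro e he
      have he' := Finset.mem_filter.1 he
      have := cls_succ_lt (hAc e he'.1).2.1
      rw [show cls (2 ^ L) m (v e) = i from he'.2] at this
      exact_mod_cast this.le
    have h3 : ((m / 2 ^ i : ℝ≥0) : ℝ) = 2 * ((m / 2 ^ (i + 1) : ℝ≥0) : ℝ) := by
      push_cast
      rw [pow_succ]
      field_simp
    have h4 : (0 : ℝ) ≤ ((m / 2 ^ (i + 1) : ℝ≥0) : ℝ) := NNReal.coe_nonneg _
    have h5 : ((G.filter fun e => c e = i).card : ℝ) ≤ (A.filter fun e => c e = i).card := by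
      exact_mod_cast hcard
    rw [nsmul_eq_mul] at h1 h2
    calc ∑ e ∈ G.filter (fun e => c e = i), (v e : ℝ)
        ≤ (G.filter fun e => c e = i).card * ((m / 2 ^ i : ℝ≥0) : ℝ) := h1
      _ = 2 * ((G.filter fun e => c e = i).card * ((m / 2 ^ (i + 1) : ℝ≥0) : ℝ)) := by
          rw [h3]; ring
      _ ≤ 2 * ((A.filter fun e => c e = i).card * ((m / 2 ^ (i + 1) : ℝ≥0) : ℝ)) := by
          gcongr
      _ ≤ _ := by gcongr

omit [Fintype E] in
/-- Mode `max >`. -/
theorem gain_max_gt (hM : M.E = univ) (L : ℕ) (m : ℝ≥0) (ℓ : E → Fin 4) (s v : E → ℝ≥0)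
    (w : Fin 27) {l : List E} (hl : l.Nodup) (hall : ∀ e, e ∈ l) (e : E) (he : M.IsNonloop e)
    (hℓ : ℓ e ≠ 0) (hv : m < v e)
    (huniq : ∀ b, b ≠ e → M.IsNonloop b → ℓ b ≠ 0 → ¬ m < v b) :
    (v e : ℝ) ≤
      ∑ e ∈ runM M L m ℓ s v (Sum.inr (Sum.inr (Sum.inr (Sum.inl w)))) l, (v e : ℝ) := by
  have hmem : e ∈ runM M L m ℓ s v (Sum.inr (Sum.inr (Sum.inr (Sum.inl w)))) l := by
    refine good_mem_grun hM (fun _ => 0) (fun _ => univ) ?_ ?_ ?_ ?_ ?_ hl (hall e)
    · intro e _; rw [M.closure_univ, hM]; trivial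
    · intro e _; rw [M.closure_univ, hM]; exact subset_univ _
    · intro e b _ _ hlt; exact absurd hlt (lt_irrefl _)
    · exact ⟨hℓ, hv⟩
    · intro hcon
      have hsub : (∅ : Set E) ∪ {b | b ≠ e ∧ (ℓ b ≠ 0 ∧ m < v b) ∧ (0 : ℕ) = 0} ⊆ M.loops := by
        rw [empty_union]
        rintro b ⟨hb1, ⟨hb2, hb3⟩, _⟩
        by_contra hb4
        have hb5 : M.IsNonloop b := M.isNonloop_of_not_isLoop (by rw [hM]; trivial) hb4
        exact huniq b hb1 hb5 hb2 hb3
      have h2 : e ∈ M.closure M.loops := M.closure_subset_closure hsub hcon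
      rw [M.closure_loops] at h2
      exact he.not_isLoop h2
  exact Finset.single_le_sum (f := fun e => (v e : ℝ)) (fun b _ => (v b).2) hmem

/-- Mode `max ≥`. -/
theorem gain_max_ge (hM : M.E = univ) (L : ℕ) (m : ℝ≥0) (ℓ : E → Fin 4) (s v : E → ℝ≥0)
    (w : Fin 27) {l : List E} (hall : ∀ e, e ∈ l) (e : E) (he : M.IsNonloop e)
    (hℓ : ℓ e ≠ 0) (hv : m ≤ v e) :
    (m : ℝ) ≤
      ∑ e ∈ runM M L m ℓ s v (Sum.inr (Sum.inr (Sum.inr (Sum.inr w)))) l, (v e : ℝ) := by
  set A := runM M L m ℓ s v (Sum.inr (Sum.inr (Sum.inr (Sum.inr w)))) l with hA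
  have hspan := spanned_grun (M := M)
        (P := fun e => cand M L m ℓ s e (v e) (Sum.inr (Sum.inr (Sum.inr (Sum.inr w)))))
        (F := fun e => con L m ℓ s (v e) (Sum.inr (Sum.inr (Sum.inr (Sum.inr w)))))
        hM (fun _ => 0) (fun _ => univ) ?_ ?_ ?_ (e := e) ⟨hℓ, hv⟩ (hall e)
  · have hne : ∃ b, b ∈ A := by
      by_contra hne
      push Not at hne
      have hset : con L m ℓ s (v e) (Sum.inr (Sum.inr (Sum.inr (Sum.inr w)))) ∪
          {b | b ∈ A ∧ (0 : ℕ) = 0} = ∅ := by
        ext b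
        simp only [mem_union, mem_empty_iff_false, iff_false, not_or]
        exact ⟨fun h => h, fun h => hne b h.1⟩
      have h2 : e ∈ M.closure ∅ := by
        rw [← hset]; exact hspan
      rw [M.closure_empty] at h2
      exact he.not_isLoop h2
    obtain ⟨b, hb⟩ := hne
    have hb2 : m ≤ v b := (mem_grun (Finset.mem_coe.2 hb)).2.2
    refine le_trans (NNReal.coe_le_coe.2 hb2) ?_
    exact Finset.single_le_sum (f := fun e => (v e : ℝ)) (fun b _ => (v b).2) hb
  · intro e _; rw [M.closure_univ, hM]; trivial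
  · intro e _; rw [M.closure_univ, hM]; exact subset_univ _
  · intro e b _ _ hlt; exact absurd hlt (lt_irrefl _)

omit [Fintype E] in
theorem gain_nonneg (L : ℕ) (m : ℝ≥0) (ℓ : E → Fin 4) (s v : E → ℝ≥0) (μ : Mode L)
    (l : List E) : (0 : ℝ) ≤ ∑ e ∈ runM M L m ℓ s v μ l, (v e : ℝ) :=
  Finset.sum_nonneg fun e _ => (v e).2

end Vale.Agent.P331
end
end
end

section

section

section

/-!
# Reduction of competitiveness to a finite inequality
-/

namespace Vale.Agent.P331

open MeasureTheory Set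
open scoped ENNReal NNReal

variable {E : Type*}

/-- Coordinatewise selection. -/
def sel (c : E → Bool) (x y : E → ℝ≥0) (f : E) : ℝ≥0 := if c f then x f else y f

theorem measurePreserving_swap_sel [Fintype E] (D : E → Measure ℝ≥0)
    [∀ e, IsProbabilityMeasure (D e)] (c : E → Bool) :
    MeasurePreserving
      (fun p : (E → ℝ≥0) × (E → ℝ≥0) => (sel c p.1 p.2, sel c p.2 p.1))
      ((Measure.pi D).prod (Measure.pi D)) ((Measure.pi D).prod (Measure.pi D)) := by
  have h1 := measurePreserving_arrowProdEquivProdArrow ℝ≥0 ℝ≥0 E D D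
  have h2 : MeasurePreserving
      (fun (a : E → ℝ≥0 × ℝ≥0) (i : E) => (fun q : ℝ≥0 × ℝ≥0 => if c i then q else q.swap) (a i))
      (Measure.pi fun i => (D i).prod (D i)) (Measure.pi fun i => (D i).prod (D i)) := by
    refine measurePreserving_pi (f := fun i => fun q : ℝ≥0 × ℝ≥0 => if c i then q else q.swap)
      _ _ ?_
    intro i
    by_cases hi : c i
    · simp only [hi, if_true]
      exact MeasurePreserving.id _
    · simp only [hi]
      exact Measure.measurePreserving_swap
  have h3 := (h1.comp h2).comp (h1.symm)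
  convert h3 using 1
  funext p
  simp only [Function.comp]
  refine Prod.ext ?_ ?_
  · funext i
    simp only [sel, MeasurableEquiv.arrowProdEquivProdArrow]
    by_cases hi : c i
    · simp [hi, Equiv.arrowProdEquivProdArrow]
    · simp [hi, Equiv.arrowProdEquivProdArrow]
  · funext i
    simp only [sel, MeasurableEquiv.arrowProdEquivProdArrow]
    by_cases hi : c i
    · simp [hi, Equiv.arrowProdEquivProdArrow]
    · simp [hi, Equiv.arrowProdEquivProdArrow]

theorem measurable_opt [Finite E] (M : Matroid E) : Measurable (opt M) := by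
  unfold opt
  refine Measurable.iSup fun I => Measurable.iSup fun _ => ?_
  fun_prop

instance [Finite E] : Countable (Order E) := by
  unfold Order; infer_instance

instance [Finite E] : Finite (Order E) := by
  classical
  have := Fintype.ofFinite E
  have hinj : Function.Injective (fun o : Order E => (⟨o.1, o.2.1⟩ : {l : List E // l.Nodup})) := by
    intro o o' h
    apply Subtype.ext
    exact congrArg (fun w : {l : List E // l.Nodup} => w.1) h
  exact Finite.of_injective _ hinj

instance [Finite E] : Nonempty (Order E) := by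
  classical
  have := Fintype.ofFinite E
  exact ⟨⟨(Finset.univ : Finset E).toList, Finset.nodup_toList _, fun e => by simp⟩⟩

theorem measurableSet_mem_accepted {M : Matroid E} (R : OnlineRule M) (l : List E) (f : E) :
    MeasurableSet {ω : R.Seed × (E → ℝ≥0) × (E → ℝ≥0) |
      f ∈ accepted (R.accept ω.1 ω.2.1) (l.map fun g => (g, ω.2.2 g))} := by
  classical
  induction l with
  | nil => simp [accepted]
  | cons e l ih =>
    have hset : {ω : R.Seed × (E → ℝ≥0) × (E → ℝ≥0) |
        f ∈ accepted (R.accept ω.1 ω.2.1) ((e :: l).map fun g => (g, ω.2.2 g))} =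
        {ω | f ∈ accepted (R.accept ω.1 ω.2.1) (l.map fun g => (g, ω.2.2 g))} ∪
        ({ω | R.accept ω.1 ω.2.1 (l.map fun f => (f, ω.2.2 f)) (e, ω.2.2 e)} ∩
          {_ω | f = e}) := by
      ext ω
      change f ∈ accepted (R.accept ω.1 ω.2.1) ((e :: l).map fun g => (g, ω.2.2 g)) ↔
        (f ∈ accepted (R.accept ω.1 ω.2.1) (l.map fun g => (g, ω.2.2 g)) ∨
        (R.accept ω.1 ω.2.1 (l.map fun f => (f, ω.2.2 f)) (e, ω.2.2 e) ∧ f = e))
      rw [List.map_cons, accepted]
      by_cases h : R.accept ω.1 ω.2.1 (l.map fun f => (f, ω.2.2 f)) (e, ω.2.2 e)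
      · rw [if_pos h, Finset.mem_insert]
        tauto
      · rw [if_neg h]
        tauto
    rw [hset]
    exact ih.union ((R.measurable_accept l e).inter (MeasurableSet.const _))

theorem measurable_gain [Fintype E] {M : Matroid E} (R : OnlineRule M) (o : Order E) :
    Measurable fun ω : R.Seed × (E → ℝ≥0) × (E → ℝ≥0) => R.gain ω.1 ω.2.1 ω.2.2 o := by
  classical
  have h1 : (fun ω : R.Seed × (E → ℝ≥0) × (E → ℝ≥0) => R.gain ω.1 ω.2.1 ω.2.2 o) =
      fun ω => ∑ e : E, ({ω : R.Seed × (E → ℝ≥0) × (E → ℝ≥0) |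
        e ∈ accepted (R.accept ω.1 ω.2.1) (o.1.reverse.map fun g => (g, ω.2.2 g))}).indicator
          (fun ω => (ω.2.2 e : ℝ≥0∞)) ω := by
    funext ω
    rw [OnlineRule.gain, history, ← List.map_reverse]
    set A := accepted (R.accept ω.1 ω.2.1) (o.1.reverse.map fun g => (g, ω.2.2 g)) with hA
    have h2 : ∀ e : E, ({ω : R.Seed × (E → ℝ≥0) × (E → ℝ≥0) |
        e ∈ accepted (R.accept ω.1 ω.2.1) (o.1.reverse.map fun g => (g, ω.2.2 g))}).indicator
          (fun ω => (ω.2.2 e : ℝ≥0∞)) ω = if e ∈ A then (ω.2.2 e : ℝ≥0∞) else 0 := by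
      intro e
      by_cases he : e ∈ A
      · rw [if_pos he]
        exact indicator_of_mem (show ω ∈ {ω : R.Seed × (E → ℝ≥0) × (E → ℝ≥0) |
          e ∈ accepted (R.accept ω.1 ω.2.1) (o.1.reverse.map fun g => (g, ω.2.2 g))} from he) _
      · rw [if_neg he]
        exact indicator_of_notMem (fun h : ω ∈ {ω : R.Seed × (E → ℝ≥0) × (E → ℝ≥0) |
          e ∈ accepted (R.accept ω.1 ω.2.1) (o.1.reverse.map fun g => (g, ω.2.2 g))} => he h) _
    simp only [h2]
    rw [← Finset.sum_filter]
    congr 1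
    ext e; simp
  rw [h1]
  refine Finset.measurable_sum _ fun e _ => ?_
  refine Measurable.indicator ?_ (measurableSet_mem_accepted R _ e)
  fun_prop

/-- Symmetrization over coordinatewise swaps. -/
theorem symm_lintegral [Fintype E] [DecidableEq E] (D : E → Measure ℝ≥0)
    [∀ e, IsProbabilityMeasure (D e)] (G : (E → ℝ≥0) → (E → ℝ≥0) → ℝ≥0∞)
    (hG : Measurable fun p : (E → ℝ≥0) × (E → ℝ≥0) => G p.1 p.2) :
    (Fintype.card (E → Bool) : ℝ≥0∞) *
        ∫⁻ p, G p.1 p.2 ∂((Measure.pi D).prod (Measure.pi D)) =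
      ∫⁻ p, ∑ c : E → Bool, G (sel c p.1 p.2) (sel c p.2 p.1)
        ∂((Measure.pi D).prod (Measure.pi D)) := by
  have h3a : ∫⁻ p, ∑ c : E → Bool, G (sel c p.1 p.2) (sel c p.2 p.1)
        ∂((Measure.pi D).prod (Measure.pi D)) =
      ∑ c : E → Bool, ∫⁻ p, G (sel c p.1 p.2) (sel c p.2 p.1)
        ∂((Measure.pi D).prod (Measure.pi D)) :=
    lintegral_finsetSum _ fun c _ => hG.comp (measurePreserving_swap_sel D c).measurable
  have h3b : ∀ c ∈ (Finset.univ : Finset (E → Bool)),
        ∫⁻ p, G (sel c p.1 p.2) (sel c p.2 p.1) ∂((Measure.pi D).prod (Measure.pi D)) =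
        ∫⁻ p, G p.1 p.2 ∂((Measure.pi D).prod (Measure.pi D)) := by
    intro c _
    exact (measurePreserving_swap_sel D c).lintegral_comp hG
  rw [h3a, Finset.sum_congr rfl h3b, Finset.sum_const, nsmul_eq_mul, Finset.card_univ]

/-- If the seed is finite and uniform, competitiveness follows from a finite inequality for all
pairs of values. -/
theorem isCompetitive_of_core [Fintype E] [DecidableEq E] {M : Matroid E} (R : OnlineRule M) [Fintype R.Seed]
    [MeasurableSingletonClass R.Seed]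
    (hlaw : ∀ r, R.law {r} = ((Fintype.card R.Seed : ℝ≥0∞))⁻¹) (q : ℝ≥0∞)
    (hcore : ∀ x y : E → ℝ≥0, ∀ o : R.Seed → (E → Bool) → Order E,
      q * Fintype.card R.Seed * ∑ c : E → Bool, opt M (sel c y x) ≤
        ∑ r, ∑ c : E → Bool, R.gain r (sel c x y) (sel c y x) (o r c)) :
    R.IsCompetitive q := by
  intro D hD _ π hπ
  set P := Measure.pi D with hP
  set N : ℝ≥0∞ := (Fintype.card R.Seed : ℝ≥0∞) with hN
  -- the worst order
  set worst : R.Seed → (E → ℝ≥0) → (E → ℝ≥0) → ℝ≥0∞ := fun r s v => ⨅ o, R.gain r s v o with hw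
  have hworst : Measurable fun ω : R.Seed × (E → ℝ≥0) × (E → ℝ≥0) => worst ω.1 ω.2.1 ω.2.2 := by
    exact Measurable.iInf fun o => measurable_gain R o
  have hworst' : ∀ r, Measurable fun p : (E → ℝ≥0) × (E → ℝ≥0) => worst r p.1 p.2 := by
    intro r
    exact hworst.comp (measurable_const.prodMk measurable_id)
  have hneS : Nonempty R.Seed := by
    by_contra hne
    rw [not_nonempty_iff] at hne
    have h1 : R.law univ = 1 := measure_univ
    have h2 : (univ : Set R.Seed) = ∅ := univ_eq_empty_iff.2 hne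
    rw [h2, measure_empty] at h1
    exact zero_ne_one h1
  have hN0 : N ≠ 0 := by
    rw [hN]
    exact_mod_cast Fintype.card_ne_zero
  have hNt : N ≠ ∞ := ENNReal.natCast_ne_top _
  set T : ℝ≥0∞ := (Fintype.card (E → Bool) : ℝ≥0∞) with hT
  have hT0 : T ≠ 0 := by
    rw [hT]; exact_mod_cast Fintype.card_ne_zero
  have hTt : T ≠ ∞ := ENNReal.natCast_ne_top _
  -- step 1
  have h1 : ∫⁻ ω, worst ω.1 ω.2.1 ω.2.2 ∂(R.law.prod (P.prod P)) ≤
      ∫⁻ ω, R.gain ω.1 ω.2.1 ω.2.2 (π ω) ∂(R.law.prod (P.prod P)) :=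
    lintegral_mono fun ω => iInf_le _ _
  refine le_trans ?_ h1
  -- step 2
  have h2 : ∫⁻ ω, worst ω.1 ω.2.1 ω.2.2 ∂(R.law.prod (P.prod P)) =
      N⁻¹ * ∫⁻ p, ∑ r, worst r p.1 p.2 ∂(P.prod P) := by
    rw [lintegral_prod _ hworst.aemeasurable, lintegral_fintype]
    simp only [hlaw]
    rw [← Finset.sum_mul, mul_comm, lintegral_finsetSum]
    intro r _
    exact hworst' r
  rw [h2]
  -- step 3: symmetrization
  have hmeasSum : Measurable fun p : (E → ℝ≥0) × (E → ℝ≥0) => ∑ r, worst r p.1 p.2 :=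
    Finset.measurable_sum _ fun r _ => hworst' r
  have hPprob : IsProbabilityMeasure P := by rw [hP]; infer_instance
  have hm : Measurable fun p : (E → ℝ≥0) × (E → ℝ≥0) => opt M p.2 :=
    (measurable_opt M).comp measurable_snd
  have h3 : T * ∫⁻ p, ∑ r, worst r p.1 p.2 ∂(P.prod P) =
      ∫⁻ p, ∑ c : E → Bool, ∑ r, worst r (sel c p.1 p.2) (sel c p.2 p.1) ∂(P.prod P) :=
    symm_lintegral D (fun s v => ∑ r, worst r s v) hmeasSum
  have h4 : T * ∫⁻ v, opt M v ∂P =
      ∫⁻ p, ∑ c : E → Bool, opt M (sel c p.2 p.1) ∂(P.prod P) := by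
    have h4a := symm_lintegral D (fun _ v => opt M v) hm
    rw [← h4a]
    congr 1
    exact (measurePreserving_snd.lintegral_comp (measurable_opt M)).symm
  have hmS : Measurable fun p : (E → ℝ≥0) × (E → ℝ≥0) =>
      ∑ c : E → Bool, opt M (sel c p.2 p.1) := by
    refine Finset.measurable_sum _ fun c _ => ?_
    have hsel : Measurable fun p : (E → ℝ≥0) × (E → ℝ≥0) => sel c p.2 p.1 :=
      measurable_snd.comp (measurePreserving_swap_sel D c).measurable
    exact (measurable_opt M).comp hsel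
  clear_value worst P
  -- step 4: pointwise inequality
  have h5 : ∀ p : (E → ℝ≥0) × (E → ℝ≥0),
      q * N * ∑ c : E → Bool, opt M (sel c p.2 p.1) ≤
        ∑ c : E → Bool, ∑ r, worst r (sel c p.1 p.2) (sel c p.2 p.1) := by
    intro p
    have hex : ∀ r : R.Seed, ∀ c : E → Bool, ∃ o : Order E,
        R.gain r (sel c p.1 p.2) (sel c p.2 p.1) o = worst r (sel c p.1 p.2) (sel c p.2 p.1) := by
      intro r c
      rw [hw]
      exact exists_eq_ciInf_of_finite
    choose o ho using hex
    have h6 := hcore p.1 p.2 o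
    simp only [ho] at h6
    rw [Finset.sum_comm]
    exact h6
  have h6 : q * N * (T * ∫⁻ v, opt M v ∂P) ≤ T * ∫⁻ p, ∑ r, worst r p.1 p.2 ∂(P.prod P) := by
    rw [h3, h4, ← lintegral_const_mul _ hmS]
    exact lintegral_mono h5
  have h7 : q * N * (T * ∫⁻ v, opt M v ∂P) = T * (N * (q * ∫⁻ v, opt M v ∂P)) := by ring
  rw [h7, ENNReal.mul_le_mul_iff_right hT0 hTt] at h6
  have h8 : N * (N⁻¹ * ∫⁻ p, ∑ r, worst r p.1 p.2 ∂(P.prod P)) =
      ∫⁻ p, ∑ r, worst r p.1 p.2 ∂(P.prod P) := by
    rw [← mul_assoc, ENNReal.mul_inv_cancel hN0 hNt, one_mul]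
  rw [← ENNReal.mul_le_mul_iff_right hN0 hNt, h8]
  exact h6

end Vale.Agent.P331
end
end
end

section

section

section

/-!
# Averaging over labels and coins
-/

namespace Vale.Agent.P331

open Set
open scoped NNReal Classical

/-- Labels and coins. -/
abbrev Om (E : Type*) : Type _ := E → Fin 4 × Bool

section general

/-- Reindexing a sum by a parametrized family of involutions with invariant parameter. -/
theorem sum_invol {Ω Γ A : Type*} [Fintype Ω] [AddCommMonoid A] (Φ : Γ → Ω → Ω) (g : Ω → Γ)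
    (h1 : ∀ γ ω, Φ γ (Φ γ ω) = ω) (h2 : ∀ γ ω, g (Φ γ ω) = g ω) (F : Ω → A) :
    ∑ ω, F (Φ (g ω) ω) = ∑ ω, F ω := by
  have hinv : Function.Involutive (fun ω => Φ (g ω) ω) := by
    intro ω
    change Φ (g (Φ (g ω) ω)) (Φ (g ω) ω) = ω
    rw [h2, h1]
  exact Equiv.sum_comp (Function.Involutive.toPerm _ hinv) F

theorem sum_invol' {Ω A : Type*} [Fintype Ω] [AddCommMonoid A] (Φ : Ω → Ω)
    (h1 : ∀ ω, Φ (Φ ω) = ω) (F : Ω → A) : ∑ ω, F (Φ ω) = ∑ ω, F ω :=
  Equiv.sum_comp (Function.Involutive.toPerm Φ h1) F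

end general

set_option linter.unusedSectionVars false

variable {E : Type*} [Fintype E] {M : Matroid E}

/-- The labels. -/
def lb (ω : Om E) (f : E) : Fin 4 := (ω f).1

/-- The coins. -/
def cn (ω : Om E) (f : E) : Bool := (ω f).2

/-- The sample. -/
def Sv (x y : E → ℝ≥0) (ω : Om E) : E → ℝ≥0 := sel (cn ω) x y

/-- The values. -/
def Vv (x y : E → ℝ≥0) (ω : Om E) : E → ℝ≥0 := sel (cn ω) y x

/-- The reference value. -/
noncomputable def mm (M : Matroid E) (x y : E → ℝ≥0) (ω : Om E) : ℝ≥0 :=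
  mx M (lb ω) (Sv x y ω)

theorem mm_congr {x y : E → ℝ≥0} {ω ω' : Om E} (h : ∀ f, lb ω f = 0 ↔ lb ω' f = 0)
    (h' : ∀ f, lb ω f = 0 → Sv x y ω f = Sv x y ω' f) : mm M x y ω = mm M x y ω' := by
  unfold mm mx
  have : (Finset.univ.filter fun f => lb ω f = 0 ∧ M.IsNonloop f) =
      (Finset.univ.filter fun f => lb ω' f = 0 ∧ M.IsNonloop f) := by
    ext f; simp [h f]
  rw [← this]
  apply Finset.sup_congr rfl
  intro f hf
  exact h' f (Finset.mem_filter.1 hf).2.1

/-- Swap of sample elements with label 2 and value elements with label 3 in a block. -/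
noncomputable def blockSwap (x y : E → ℝ≥0) (e : E) (q : ℝ≥0 × ℝ≥0) (ω : Om E) : Om E := fun f =>
  if f = e then ω f
  else if (ω f).1 = 2 ∧ q.1 < Sv x y ω f ∧ Sv x y ω f ≤ q.2 then (3, !(ω f).2)
  else if (ω f).1 = 3 ∧ q.1 < Vv x y ω f ∧ Vv x y ω f ≤ q.2 then (2, !(ω f).2)
  else ω f

theorem Sv_of_not {x y : E → ℝ≥0} {ω ω' : Om E} {f : E} (h : (ω' f).2 = !(ω f).2) :
    Sv x y ω' f = Vv x y ω f := by
  unfold Sv Vv sel cn
  rw [h]
  cases (ω f).2 <;> simp

theorem Vv_of_not {x y : E → ℝ≥0} {ω ω' : Om E} {f : E} (h : (ω' f).2 = !(ω f).2) :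
    Vv x y ω' f = Sv x y ω f := by
  unfold Sv Vv sel cn
  rw [h]
  cases (ω f).2 <;> simp

theorem Sv_of_eq {x y : E → ℝ≥0} {ω ω' : Om E} {f : E} (h : (ω' f).2 = (ω f).2) :
    Sv x y ω' f = Sv x y ω f := by
  unfold Sv sel cn
  rw [h]

theorem Vv_of_eq {x y : E → ℝ≥0} {ω ω' : Om E} {f : E} (h : (ω' f).2 = (ω f).2) :
    Vv x y ω' f = Vv x y ω f := by
  unfold Vv sel cn
  rw [h]

/-- The four cases of a block swap. -/
theorem blockSwap_cases (x y : E → ℝ≥0) (e : E) (q : ℝ≥0 × ℝ≥0) (ω : Om E) (f : E) :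
    (f ≠ e ∧ (ω f).1 = 2 ∧ q.1 < Sv x y ω f ∧ Sv x y ω f ≤ q.2 ∧
      blockSwap x y e q ω f = (3, !(ω f).2)) ∨
    (f ≠ e ∧ (ω f).1 = 3 ∧ q.1 < Vv x y ω f ∧ Vv x y ω f ≤ q.2 ∧
      blockSwap x y e q ω f = (2, !(ω f).2)) ∨
    (blockSwap x y e q ω f = ω f ∧ (f = e ∨
      (¬ ((ω f).1 = 2 ∧ q.1 < Sv x y ω f ∧ Sv x y ω f ≤ q.2) ∧
        ¬ ((ω f).1 = 3 ∧ q.1 < Vv x y ω f ∧ Vv x y ω f ≤ q.2)))) := by
  unfold blockSwap
  by_cases h1 : f = e
  · right; right
    rw [if_pos h1]; exact ⟨rfl, Or.inl h1⟩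
  · rw [if_neg h1]
    by_cases h2 : (ω f).1 = 2 ∧ q.1 < Sv x y ω f ∧ Sv x y ω f ≤ q.2
    · left
      rw [if_pos h2]; exact ⟨h1, h2.1, h2.2.1, h2.2.2, rfl⟩
    · rw [if_neg h2]
      by_cases h3 : (ω f).1 = 3 ∧ q.1 < Vv x y ω f ∧ Vv x y ω f ≤ q.2
      · right; left
        rw [if_pos h3]; exact ⟨h1, h3.1, h3.2.1, h3.2.2, rfl⟩
      · right; right
        rw [if_neg h3]; exact ⟨rfl, Or.inr ⟨h2, h3⟩⟩

theorem blockSwap_self (x y : E → ℝ≥0) (e : E) (q : ℝ≥0 × ℝ≥0) (ω : Om E) :
    blockSwap x y e q ω e = ω e := by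
  unfold blockSwap; rw [if_pos rfl]

theorem blockSwap_invol (x y : E → ℝ≥0) (e : E) (q : ℝ≥0 × ℝ≥0) (ω : Om E) :
    blockSwap x y e q (blockSwap x y e q ω) = ω := by
  funext f
  set ω' := blockSwap x y e q ω with hω'
  rcases blockSwap_cases x y e q ω f with ⟨h1, h2, h3, h4, h5⟩ | ⟨h1, h2, h3, h4, h5⟩ | ⟨h1, h2⟩
  · have h6 : (ω' f).2 = !(ω f).2 := by rw [hω', h5]
    have h7 : (ω' f).1 = 3 := by rw [hω', h5]
    have h8 := Vv_of_not (x := x) (y := y) h6
    rcases blockSwap_cases x y e q ω' f with ⟨_, h2', _, _, _⟩ | ⟨_, _, _, _, h5'⟩ | ⟨_, h2'⟩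
    · rw [h7] at h2'; exact absurd h2' (by decide)
    · rw [h5', h6]
      refine Prod.ext ?_ ?_
      · exact h2.symm
      · simp
    · exfalso
      rcases h2' with h2' | ⟨_, h2'⟩
      · exact h1 h2'
      · apply h2'
        rw [h8]; exact ⟨h7, h3, h4⟩
  · have h6 : (ω' f).2 = !(ω f).2 := by rw [hω', h5]
    have h7 : (ω' f).1 = 2 := by rw [hω', h5]
    have h8 := Sv_of_not (x := x) (y := y) h6
    rcases blockSwap_cases x y e q ω' f with ⟨_, _, _, _, h5'⟩ | ⟨_, h2', _, _, _⟩ | ⟨_, h2'⟩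
    · rw [h5', h6]
      refine Prod.ext ?_ ?_
      · exact h2.symm
      · simp
    · rw [h7] at h2'; exact absurd h2' (by decide)
    · exfalso
      rcases h2' with h2' | ⟨h2', _⟩
      · exact h1 h2'
      · apply h2'
        rw [h8]; exact ⟨h7, h3, h4⟩
  · have h3 : (ω' f) = ω f := h1
    have h6 : (ω' f).2 = (ω f).2 := by rw [h3]
    have h8 := Sv_of_eq (x := x) (y := y) h6
    have h9 := Vv_of_eq (x := x) (y := y) h6
    rcases h2 with h2 | ⟨h2, h2'⟩
    · subst h2
      rw [blockSwap_self]; exact h3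
    · rcases blockSwap_cases x y e q ω' f with ⟨_, a1, a2, a3, _⟩ | ⟨_, a1, a2, a3, _⟩ | ⟨a1, _⟩
      · rw [h3] at a1; rw [h8] at a2 a3
        exact absurd ⟨a1, a2, a3⟩ h2
      · rw [h3] at a1; rw [h9] at a2 a3
        exact absurd ⟨a1, a2, a3⟩ h2'
      · rw [a1, h3]

theorem blockSwap_lb_zero (x y : E → ℝ≥0) (e : E) (q : ℝ≥0 × ℝ≥0) (ω : Om E) (f : E) :
    lb (blockSwap x y e q ω) f = 0 ↔ lb ω f = 0 := by
  unfold lb
  rcases blockSwap_cases x y e q ω f with ⟨h1, h2, h3, h4, h5⟩ | ⟨h1, h2, h3, h4, h5⟩ | ⟨h1, h2⟩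
  · rw [h5, h2]
    constructor
    · intro h; exact absurd h (show (3 : Fin 4) ≠ 0 by decide)
    · intro h; exact absurd h (show (2 : Fin 4) ≠ 0 by decide)
  · rw [h5, h2]
    constructor
    · intro h; exact absurd h (show (2 : Fin 4) ≠ 0 by decide)
    · intro h; exact absurd h (show (3 : Fin 4) ≠ 0 by decide)
  · rw [h1]

theorem blockSwap_mm (x y : E → ℝ≥0) (e : E) (q : ℝ≥0 × ℝ≥0) (ω : Om E) :
    mm M x y (blockSwap x y e q ω) = mm M x y ω := by
  apply mm_congr (blockSwap_lb_zero x y e q ω)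
  intro f hf
  have hf' := (blockSwap_lb_zero x y e q ω f).1 hf
  unfold lb at hf'
  rcases blockSwap_cases x y e q ω f with ⟨h1, h2, h3, h4, h5⟩ | ⟨h1, h2, h3, h4, h5⟩ | ⟨h1, h2⟩
  · rw [h2] at hf'; exact absurd hf' (by decide)
  · rw [h2] at hf'; exact absurd hf' (by decide)
  · apply Sv_of_eq; rw [h1]

/-- The set used in the block and final modes. -/
def D0 (M : Matroid E) (x y : E → ℝ≥0) (e : E) (n0 n1 : ℕ) (ω : Om E) : Set E :=
  HH (lb ω) (Sv x y ω) (mm M x y ω) n0 ∪ H1 (lb ω) (Sv x y ω) (mm M x y ω) n1 ∪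
    {b | b ≠ e ∧ lb ω b = 3 ∧ mm M x y ω / 2 ^ n1 < Vv x y ω b ∧
      Vv x y ω b ≤ mm M x y ω / 2 ^ n0}

theorem D0_blockSwap_subset (x y : E → ℝ≥0) (e : E) {n0 n1 : ℕ} (hn : n0 ≤ n1) (ω : Om E) :
    D0 M x y e n0 n1 (blockSwap x y e (mm M x y ω / 2 ^ n1, mm M x y ω / 2 ^ n0) ω) ⊆
      HH (lb ω) (Sv x y ω) (mm M x y ω) n1 := by
  set q : ℝ≥0 × ℝ≥0 := (mm M x y ω / 2 ^ n1, mm M x y ω / 2 ^ n0) with hq
  set ω' := blockSwap x y e q ω with hω'
  have hm : mm M x y ω' = mm M x y ω := blockSwap_mm x y e q ω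
  have hle : mm M x y ω / 2 ^ n1 ≤ mm M x y ω / 2 ^ n0 := by
    gcongr
    exact one_le_two
  have hHH : HH (lb ω') (Sv x y ω') (mm M x y ω) n1 ∩ {f | ω' f = ω f} ⊆
      HH (lb ω) (Sv x y ω) (mm M x y ω) n1 := by
    rintro f ⟨⟨h1, h2⟩, h3⟩
    have h3' : ω' f = ω f := h3
    have h4 : Sv x y ω' f = Sv x y ω f := Sv_of_eq (by rw [h3'])
    refine ⟨?_, ?_⟩
    · unfold lb at h1 ⊢; rwa [h3'] at h1
    · rw [← h4]; exact h2
  intro f hf
  rcases blockSwap_cases x y e q ω f with ⟨h1, h2, h3, h4, h5⟩ | ⟨h1, h2, h3, h4, h5⟩ | ⟨h1, h2⟩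
  · -- moved from label 2 to label 3
    exact ⟨Or.inr h2, h3⟩
  · -- moved from label 3 to label 2
    exfalso
    have h6 : lb ω' f = 2 := by unfold lb; rw [hω', h5]
    have h7 : Sv x y ω' f = Vv x y ω f := Sv_of_not (by rw [hω', h5])
    rcases hf with (hf | hf) | hf
    · have h8 := hf.2
      rw [hm, h7] at h8
      exact absurd h8 (not_lt.2 h4)
    · have h8 := hf.1
      rw [h6] at h8; exact absurd h8 (by decide)
    · have h8 := hf.2.1
      rw [h6] at h8; exact absurd h8 (by decide)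
  · have h3 : ω' f = ω f := h1
    rcases hf with (hf | hf) | hf
    · rw [hm] at hf
      exact hHH ⟨HH_mono hn hf, h3⟩
    · rw [hm] at hf
      exact hHH ⟨H1_subset_HH le_rfl hf, h3⟩
    · exfalso
      obtain ⟨a1, a2, a3, a4⟩ := hf
      rw [hm] at a3 a4
      have h4 : Vv x y ω' f = Vv x y ω f := Vv_of_eq (by rw [h3])
      rw [h4] at a3 a4
      have a5 : (ω f).1 = 3 := by
        unfold lb at a2; rwa [h3] at a2
      rcases h2 with h2 | ⟨_, h2⟩
      · exact a1 h2
      · exact h2 ⟨a5, a3, a4⟩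

/-- The swap step. -/
theorem swap_step (x y : E → ℝ≥0) (e : E) (N0 N1 : ℝ≥0 → ℝ≥0 → ℕ)
    (hN : ∀ a b, N0 a b ≤ N1 a b) (Q : ℝ≥0 → ℝ≥0 → Prop) :
    ∑ ω : Om E, ind ((lb ω e = 3 ∧ Q (mm M x y ω) (Vv x y ω e)) ∧
        e ∉ M.closure (HH (lb ω) (Sv x y ω) (mm M x y ω) (N1 (mm M x y ω) (Vv x y ω e))))
        (Vv x y ω e : ℝ) ≤
      ∑ ω : Om E, ind ((lb ω e = 3 ∧ Q (mm M x y ω) (Vv x y ω e)) ∧
        e ∉ M.closure (D0 M x y e (N0 (mm M x y ω) (Vv x y ω e))
          (N1 (mm M x y ω) (Vv x y ω e)) ω)) (Vv x y ω e : ℝ) := by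
  rw [← sum_invol (fun (γ : ℝ≥0 × ℝ≥0) (ω : Om E) =>
      blockSwap x y e (γ.1 / 2 ^ (N1 γ.1 γ.2), γ.1 / 2 ^ (N0 γ.1 γ.2)) ω)
    (fun ω => (mm M x y ω, Vv x y ω e))
    (fun γ ω => blockSwap_invol x y e _ ω)
    (fun γ ω => by
      refine Prod.ext (blockSwap_mm x y e _ ω) ?_
      exact Vv_of_eq (by rw [blockSwap_self]))
    (fun ω : Om E => ind ((lb ω e = 3 ∧ Q (mm M x y ω) (Vv x y ω e)) ∧
        e ∉ M.closure (D0 M x y e (N0 (mm M x y ω) (Vv x y ω e))
          (N1 (mm M x y ω) (Vv x y ω e)) ω)) (Vv x y ω e : ℝ))]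
  apply Finset.sum_le_sum
  intro ω _
  set m := mm M x y ω with hm
  set t := Vv x y ω e with ht
  set ω' := blockSwap x y e (m / 2 ^ (N1 m t), m / 2 ^ (N0 m t)) ω with hω'
  have h1 : mm M x y ω' = m := blockSwap_mm x y e _ ω
  have h2 : Vv x y ω' e = t := Vv_of_eq (by rw [hω', blockSwap_self])
  have h3 : lb ω' e = lb ω e := by unfold lb; rw [hω', blockSwap_self]
  rw [h1, h2, h3]
  apply ind_mono _ (NNReal.coe_nonneg _)
  rintro ⟨h4, h5⟩
  refine ⟨h4, fun h6 => h5 ?_⟩
  exact M.closure_subset_closure (D0_blockSwap_subset x y e (hN _ _) ω) h6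

end Vale.Agent.P331
end
end
end

section

section

section

/-!
# The telescoping sum over the scales
-/

namespace Vale.Agent.P331

open Set
open scoped NNReal Classical

set_option linter.unusedSectionVars false

variable {E : Type*} [Fintype E] {M : Matroid E}

/-- A fixed numbering of the elements, to break ties. -/
noncomputable def idx (E : Type*) [Finite E] : E → ℕ := (Countable.exists_injective_nat E).choose

theorem idx_inj : Function.Injective (idx E) := (Countable.exists_injective_nat E).choose_spec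

/-- The key by which elements are compared. -/
noncomputable def key (v : E → ℝ≥0) (e : E) : ℝ≥0 ×ₗ ℕ := toLex (v e, idx E e)

theorem key_inj (v : E → ℝ≥0) : Function.Injective (key v) := by
  intro e f h
  have h1 : (v e, idx E e) = (v f, idx E f) := toLex.injective h
  exact idx_inj (Prod.ext_iff.1 h1).2

theorem key_lt_iff {v : E → ℝ≥0} {e f : E} :
    key v e < key v f ↔ v e < v f ∨ (v e = v f ∧ idx E e < idx E f) := by
  unfold key
  rw [Prod.Lex.toLex_lt_toLex]

theorem le_of_key_lt {v : E → ℝ≥0} {e f : E} (h : key v e < key v f) : v e ≤ v f := by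
  rcases key_lt_iff.1 h with h | h
  · exact h.le
  · exact h.1.le

theorem key_lt_of_lt {v : E → ℝ≥0} {e f : E} (h : v e < v f) : key v e < key v f :=
  key_lt_iff.2 (Or.inl h)

theorem key_lt_congr {v v' : E → ℝ≥0} {e f : E} (he : v e = v' e) (hf : v f = v' f) :
    key v e < key v f ↔ key v' e < key v' f := by
  rw [key_lt_iff, key_lt_iff, he, hf]

/-- Data of a run: orders for all modes and outcomes. -/
noncomputable def gg (M : Matroid E) (L : ℕ) (x y : E → ℝ≥0) (l : Mode L → Om E → List E)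
    (μ : Mode L) (ω : Om E) : ℝ :=
  ∑ e ∈ runM M L (mm M x y ω) (lb ω) (Sv x y ω) (Vv x y ω) μ (l μ ω), (Vv x y ω e : ℝ)

/-- The quantity telescoped. -/
noncomputable def BB (M : Matroid E) (L : ℕ) (x y : E → ℝ≥0) (n : ℕ → ℕ) (ω : Om E) : ℝ :=
  ∑ e, ind ((lb ω e = 3 ∧ win (2 ^ L) (mm M x y ω) (Vv x y ω e)) ∧
    e ∉ M.closure (HH (lb ω) (Sv x y ω) (mm M x y ω)
      (n (cls (2 ^ L) (mm M x y ω) (Vv x y ω e))))) (Vv x y ω e : ℝ)

/-- The start of the telescope. -/
noncomputable def X0 (M : Matroid E) (L : ℕ) (x y : E → ℝ≥0) (ω : Om E) : ℝ :=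
  ∑ e, ind ((lb ω e = 3 ∧ win (2 ^ L) (mm M x y ω) (Vv x y ω e)) ∧
    e ∉ M.closure (HH (lb ω) (Sv x y ω) (mm M x y ω)
      (cls (2 ^ L) (mm M x y ω) (Vv x y ω e)) ∪
      {b | key (Vv x y ω) e < key (Vv x y ω) b ∧ lb ω b = 3 ∧
        win (2 ^ L) (mm M x y ω) (Vv x y ω b) ∧
        cls (2 ^ L) (mm M x y ω) (Vv x y ω b) = cls (2 ^ L) (mm M x y ω) (Vv x y ω e)}))
    (Vv x y ω e : ℝ)

theorem BB_mono (L : ℕ) (x y : E → ℝ≥0) (n n' : ℕ → ℕ) (h : ∀ i, i < 2 ^ L → n i ≤ n' i)
    (ω : Om E) : BB M L x y n' ω ≤ BB M L x y n ω := by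
  apply Finset.sum_le_sum
  intro e _
  apply ind_mono _ (NNReal.coe_nonneg _)
  rintro ⟨h1, h2⟩
  refine ⟨h1, fun h3 => h2 ?_⟩
  exact M.closure_subset_closure (HH_mono (h _ (cls_lt h1.2))) h3

theorem step_class (hM : M.E = univ) (L : ℕ) (x y : E → ℝ≥0) (l : Mode L → Om E → List E)
    (hall : ∀ μ ω e, e ∈ l μ ω) (w : Fin 8) (ω : Om E) :
    X0 M L x y ω ≤ 2 * gg M L x y l (Sum.inl w) ω + BB M L x y (fun i => i + 1) ω := by
  have h1 := gain_class hM (key (Vv x y ω)) (key_inj _) L (mm M x y ω) (lb ω) (Sv x y ω)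
    (Vv x y ω) w (hall (Sum.inl w) ω)
  refine le_trans ?_ (add_le_add_left h1 _)
  unfold X0 BB
  rw [← Finset.sum_add_distrib]
  apply Finset.sum_le_sum
  intro e _
  apply ind_le_add _ (NNReal.coe_nonneg _)
  rintro ⟨h2, h3⟩
  by_cases h4 : e ∈ M.closure (HH (lb ω) (Sv x y ω) (mm M x y ω)
      (cls (2 ^ L) (mm M x y ω) (Vv x y ω e) + 1))
  · exact Or.inl ⟨h2, h4, h3⟩
  · exact Or.inr ⟨h2, h4⟩

theorem step_block (hM : M.E = univ) (L : ℕ) (x y : E → ℝ≥0) (l : Mode L → Om E → List E)
    (hnd : ∀ μ ω, (l μ ω).Nodup) (hall : ∀ μ ω e, e ∈ l μ ω) (j : Fin L) (w : Fin 4) :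
    ∑ ω, BB M L x y (fun i => 2 ^ (j : ℕ) * (i / 2 ^ (j : ℕ) + 1)) ω ≤
      ∑ ω, (gg M L x y l (Sum.inr (Sum.inl (j, 0, w))) ω +
        gg M L x y l (Sum.inr (Sum.inl (j, 1, w))) ω) +
      ∑ ω, BB M L x y (fun i => 2 ^ (j : ℕ) * (i / 2 ^ (j : ℕ) + 2)) ω := by
  -- the swap
  have h1 : ∑ ω, BB M L x y (fun i => 2 ^ (j : ℕ) * (i / 2 ^ (j : ℕ) + 1)) ω ≤
      ∑ ω : Om E, ∑ e, ind ((lb ω e = 3 ∧ win (2 ^ L) (mm M x y ω) (Vv x y ω e)) ∧
        e ∉ M.closure (D0 M x y e
          (2 ^ (j : ℕ) * (cls (2 ^ L) (mm M x y ω) (Vv x y ω e) / 2 ^ (j : ℕ)))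
          (2 ^ (j : ℕ) * (cls (2 ^ L) (mm M x y ω) (Vv x y ω e) / 2 ^ (j : ℕ) + 1)) ω))
        (Vv x y ω e : ℝ) := by
    unfold BB
    rw [Finset.sum_comm, Finset.sum_comm (s := (Finset.univ : Finset (Om E)))]
    apply Finset.sum_le_sum
    intro e _
    exact swap_step x y e (fun m t => 2 ^ (j : ℕ) * (cls (2 ^ L) m t / 2 ^ (j : ℕ)))
      (fun m t => 2 ^ (j : ℕ) * (cls (2 ^ L) m t / 2 ^ (j : ℕ) + 1))
      (fun m t => Nat.mul_le_mul_left _ (Nat.le_succ _)) (fun m t => win (2 ^ L) m t)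
  refine h1.trans ?_
  rw [← Finset.sum_add_distrib]
  apply Finset.sum_le_sum
  intro ω _
  have h2 := gain_block hM L (mm M x y ω) (lb ω) (Sv x y ω) (Vv x y ω) j 0 w
    (hnd (Sum.inr (Sum.inl (j, 0, w))) ω) (hall (Sum.inr (Sum.inl (j, 0, w))) ω)
  have h3 := gain_block hM L (mm M x y ω) (lb ω) (Sv x y ω) (Vv x y ω) j 1 w
    (hnd (Sum.inr (Sum.inl (j, 1, w))) ω) (hall (Sum.inr (Sum.inl (j, 1, w))) ω)
  refine le_trans ?_ (add_le_add_left (add_le_add h2 h3) _)
  unfold BB
  rw [← Finset.sum_add_distrib, ← Finset.sum_add_distrib]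
  apply Finset.sum_le_sum
  intro e _
  set c := cls (2 ^ L) (mm M x y ω) (Vv x y ω e) with hc
  have hv : (0 : ℝ) ≤ (Vv x y ω e : ℝ) := NNReal.coe_nonneg _
  have h4 : ind ((lb ω e = 3 ∧ win (2 ^ L) (mm M x y ω) (Vv x y ω e)) ∧
        e ∉ M.closure (D0 M x y e (2 ^ (j : ℕ) * (c / 2 ^ (j : ℕ)))
          (2 ^ (j : ℕ) * (c / 2 ^ (j : ℕ) + 1)) ω)) (Vv x y ω e : ℝ) ≤
      ind ((lb ω e = 3 ∧ win (2 ^ L) (mm M x y ω) (Vv x y ω e)) ∧
        e ∈ M.closure (HH (lb ω) (Sv x y ω) (mm M x y ω) (2 ^ (j : ℕ) * (c / 2 ^ (j : ℕ) + 2))) ∧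
        e ∉ M.closure (D0 M x y e (2 ^ (j : ℕ) * (c / 2 ^ (j : ℕ)))
          (2 ^ (j : ℕ) * (c / 2 ^ (j : ℕ) + 1)) ω)) (Vv x y ω e : ℝ) +
      ind ((lb ω e = 3 ∧ win (2 ^ L) (mm M x y ω) (Vv x y ω e)) ∧
        e ∉ M.closure (HH (lb ω) (Sv x y ω) (mm M x y ω) (2 ^ (j : ℕ) * (c / 2 ^ (j : ℕ) + 2))))
        (Vv x y ω e : ℝ) := by
    apply ind_le_add _ hv
    rintro ⟨h5, h6⟩
    by_cases h7 : e ∈ M.closure (HH (lb ω) (Sv x y ω) (mm M x y ω)
        (2 ^ (j : ℕ) * (c / 2 ^ (j : ℕ) + 2)))
    · exact Or.inl ⟨h5, h7, h6⟩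
    · exact Or.inr ⟨h5, h7⟩
  refine h4.trans (add_le_add_left ?_ _)
  apply ind_le_add _ hv
  rintro ⟨h5, h6, h7⟩
  have h8 : (c / 2 ^ (j : ℕ)) % 2 = 0 ∨ (c / 2 ^ (j : ℕ)) % 2 = 1 := by omega
  rcases h8 with h8 | h8
  · exact Or.inl ⟨h5, h8, h6, h7⟩
  · exact Or.inr ⟨h5, h8, h6, h7⟩

theorem step_final (hM : M.E = univ) (L : ℕ) (x y : E → ℝ≥0) (l : Mode L → Om E → List E)
    (hnd : ∀ μ ω, (l μ ω).Nodup) (hall : ∀ μ ω e, e ∈ l μ ω) (w : Fin 4) :
    ∑ ω, BB M L x y (fun _ => 2 ^ L) ω ≤
      ∑ ω, gg M L x y l (Sum.inr (Sum.inr (Sum.inl w))) ω := by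
  have h1 : ∑ ω, BB M L x y (fun _ => 2 ^ L) ω ≤
      ∑ ω : Om E, ∑ e, ind ((lb ω e = 3 ∧ win (2 ^ L) (mm M x y ω) (Vv x y ω e)) ∧
        e ∉ M.closure (D0 M x y e 0 (2 ^ L) ω)) (Vv x y ω e : ℝ) := by
    unfold BB
    rw [Finset.sum_comm, Finset.sum_comm (s := (Finset.univ : Finset (Om E)))]
    apply Finset.sum_le_sum
    intro e _
    exact swap_step x y e (fun m t => 0) (fun m t => 2 ^ L)
      (fun m t => Nat.zero_le _) (fun m t => win (2 ^ L) m t)
  refine h1.trans ?_
  apply Finset.sum_le_sum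
  intro ω _
  have h2 := gain_final hM L (mm M x y ω) (lb ω) (Sv x y ω) (Vv x y ω) w
    (hnd (Sum.inr (Sum.inr (Sum.inl w))) ω) (hall (Sum.inr (Sum.inr (Sum.inl w))) ω)
  refine le_trans ?_ h2
  apply Finset.sum_le_sum
  intro e _
  apply ind_mono _ (NNReal.coe_nonneg _)
  rintro ⟨h3, h4⟩
  refine ⟨h3, fun h5 => h4 ?_⟩
  refine M.closure_subset_closure ?_ h5
  apply union_subset
  · exact subset_union_right.trans subset_union_left
  · rintro b ⟨h6, h7, h8, h9⟩
    exact Or.inr ⟨h6, h7, h8, by simpa using h9⟩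

/-- The telescope. -/
theorem telescope (hM : M.E = univ) (L : ℕ) (x y : E → ℝ≥0) (l : Mode L → Om E → List E)
    (hnd : ∀ μ ω, (l μ ω).Nodup) (hall : ∀ μ ω e, e ∈ l μ ω) (w : Fin 4) :
    ∑ ω, BB M L x y (fun i => i + 1) ω ≤
      ∑ j : Fin L, ∑ p : Fin 2, ∑ ω, gg M L x y l (Sum.inr (Sum.inl (j, p, w))) ω +
        ∑ ω, gg M L x y l (Sum.inr (Sum.inr (Sum.inl w))) ω := by
  set h : ℕ → ℝ := fun j => if hj : j < L then
    ∑ ω, (gg M L x y l (Sum.inr (Sum.inl (⟨j, hj⟩, 0, w))) ω +
        gg M L x y l (Sum.inr (Sum.inl (⟨j, hj⟩, 1, w))) ω) else 0 with hh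
  have key1 : ∀ j, j ≤ L → ∑ ω, BB M L x y (fun i => i + 1) ω ≤
      ∑ j' ∈ Finset.range j, h j' +
        ∑ ω, BB M L x y (fun i => 2 ^ j * (i / 2 ^ j + 1)) ω := by
    intro j
    induction j with
    | zero => intro _; simp
    | succ j ih =>
      intro hj
      have hj' : j < L := hj
      have h1 := ih hj'.le
      have h2 := step_block hM L x y l hnd hall ⟨j, hj'⟩ w
      have h3 : h j = ∑ ω, (gg M L x y l (Sum.inr (Sum.inl (⟨j, hj'⟩, 0, w))) ω +
        gg M L x y l (Sum.inr (Sum.inl (⟨j, hj'⟩, 1, w))) ω) := by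
        rw [hh]; simp only [hj', dif_pos]
      have h4 : ∑ ω, BB M L x y (fun i => 2 ^ j * (i / 2 ^ j + 2)) ω ≤
          ∑ ω, BB M L x y (fun i => 2 ^ (j + 1) * (i / 2 ^ (j + 1) + 1)) ω := by
        apply Finset.sum_le_sum
        intro ω _
        apply BB_mono
        intro i _
        have h5 : i / 2 ^ (j + 1) = i / 2 ^ j / 2 := by
          rw [pow_succ, Nat.div_div_eq_div_mul]
        rw [h5, pow_succ, mul_assoc]
        apply Nat.mul_le_mul_left
        omega
      rw [Finset.sum_range_succ, h3]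
      simp only [] at h2
      linarith
  have h1 := key1 L le_rfl
  have h2 : ∑ j' ∈ Finset.range L, h j' =
      ∑ j : Fin L, ∑ p : Fin 2, ∑ ω, gg M L x y l (Sum.inr (Sum.inl (j, p, w))) ω := by
    rw [Finset.sum_range]
    apply Finset.sum_congr rfl
    intro j _
    rw [hh]
    simp only [j.2, dif_pos, Fin.eta]
    rw [Finset.sum_add_distrib, Fin.sum_univ_two]
  have h3 : ∑ ω, BB M L x y (fun i => 2 ^ L * (i / 2 ^ L + 1)) ω ≤
      ∑ ω, BB M L x y (fun _ => 2 ^ L) ω := by
    apply Finset.sum_le_sum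
    intro ω _
    apply BB_mono
    intro i _
    exact Nat.le_mul_of_pos_right _ (Nat.succ_pos _)
  have h4 := step_final hM L x y l hnd hall w
  rw [h2] at h1
  linarith

end Vale.Agent.P331
end
end
end

section

section

section

/-!
# Coin flips, label independence, the tails and the maximum
-/

namespace Vale.Agent.P331

open Set
open scoped NNReal Classical

set_option linter.unusedSectionVars false

variable {E : Type*} [Fintype E] {M : Matroid E}

/-- Flip the coins of all elements whose label satisfies `p`. -/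
noncomputable def flipL (p : Fin 4 → Prop) (ω : Om E) : Om E := fun f =>
  if p (ω f).1 then ((ω f).1, !(ω f).2) else ω f

theorem flipL_lb (p : Fin 4 → Prop) (ω : Om E) (f : E) : lb (flipL p ω) f = lb ω f := by
  unfold lb flipL
  split_ifs <;> rfl

theorem flipL_lb' (p : Fin 4 → Prop) (ω : Om E) : lb (flipL p ω) = lb ω :=
  funext (flipL_lb p ω)

theorem flipL_invol (p : Fin 4 → Prop) (ω : Om E) : flipL p (flipL p ω) = ω := by
  funext f
  by_cases h : p (ω f).1
  · have h1 : flipL p ω f = ((ω f).1, !(ω f).2) := by unfold flipL; rw [if_pos h]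
    have h2 : p (flipL p ω f).1 := by rw [h1]; exact h
    have h3 : flipL p (flipL p ω) f = ((flipL p ω f).1, !(flipL p ω f).2) := by
      rw [flipL, if_pos h2]
    rw [h3, h1]; simp
  · have h1 : flipL p ω f = ω f := by unfold flipL; rw [if_neg h]
    have h2 : ¬ p (flipL p ω f).1 := by rw [h1]; exact h
    have h3 : flipL p (flipL p ω) f = flipL p ω f := by
      rw [flipL, if_neg h2]
    rw [h3, h1]

theorem flipL_S_pos {x y : E → ℝ≥0} {p : Fin 4 → Prop} {ω : Om E} {f : E} (h : p (lb ω f)) :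
    Sv x y (flipL p ω) f = Vv x y ω f := by
  apply Sv_of_not
  unfold flipL; rw [if_pos (show p (ω f).1 from h)]

theorem flipL_S_neg {x y : E → ℝ≥0} {p : Fin 4 → Prop} {ω : Om E} {f : E} (h : ¬ p (lb ω f)) :
    Sv x y (flipL p ω) f = Sv x y ω f := by
  apply Sv_of_eq
  unfold flipL; rw [if_neg (show ¬ p (ω f).1 from h)]

theorem flipL_V_neg {x y : E → ℝ≥0} {p : Fin 4 → Prop} {ω : Om E} {f : E} (h : ¬ p (lb ω f)) :
    Vv x y (flipL p ω) f = Vv x y ω f := by
  apply Vv_of_eq
  unfold flipL; rw [if_neg (show ¬ p (ω f).1 from h)]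

/-- The greedy basis for `v`. -/
def Gr (M : Matroid E) (v : E → ℝ≥0) (e : E) : Prop := e ∉ M.closure {f | key v e < key v f}

/-- Flipping the coins of labels 1 and 2. -/
theorem step_flip (L : ℕ) (x y : E → ℝ≥0) :
    ∑ ω : Om E, ∑ e, ind ((lb ω e = 3 ∧ win (2 ^ L) (mm M x y ω) (Vv x y ω e)) ∧
      Gr M (Vv x y ω) e) (Vv x y ω e : ℝ) ≤ ∑ ω, X0 M L x y ω := by
  set p : Fin 4 → Prop := fun a => a = 1 ∨ a = 2 with hp
  rw [← sum_invol' (flipL p) (flipL_invol p) (fun ω => X0 M L x y ω)]
  apply Finset.sum_le_sum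
  intro ω _
  have hlb := flipL_lb' p ω
  have hm : mm M x y (flipL p ω) = mm M x y ω := by
    apply mm_congr
    · intro f; rw [flipL_lb]
    · intro f hf
      rw [flipL_lb] at hf
      apply flipL_S_neg
      rw [hf, hp]; decide
  have h3 : ∀ f, lb ω f = 3 → Vv x y (flipL p ω) f = Vv x y ω f := by
    intro f hf
    apply flipL_V_neg
    rw [hf, hp]; decide
  unfold X0
  apply Finset.sum_le_sum
  intro e _
  rw [hlb, hm]
  by_cases he : lb ω e = 3
  · rw [h3 e he]
    apply ind_mono _ (NNReal.coe_nonneg _)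
    rintro ⟨h4, h5⟩
    refine ⟨h4, fun h6 => h5 ?_⟩
    refine M.closure_subset_closure ?_ h6
    apply union_subset
    · rintro f ⟨h7, h8⟩
      have h9 : Sv x y (flipL p ω) f = Vv x y ω f := flipL_S_pos h7
      rw [h9] at h8
      exact key_lt_of_lt (lt_of_le_of_lt (cls_spec h4.2) h8)
    · rintro f ⟨h7, h8, _⟩
      exact (key_lt_congr (h3 e he) (h3 f h8)).1 h7
  · rw [ind_neg (fun h => he h.1.1)]
    exact ind_nonneg (NNReal.coe_nonneg _)

section labels

/-- Change of the label of `f`. -/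
noncomputable def rot (f : E) (r : Fin 4) (ω : Om E) : Om E :=
  Function.update ω f ((ω f).1 + r, (ω f).2)

theorem rot_self (f : E) (r : Fin 4) (ω : Om E) : rot f r ω f = ((ω f).1 + r, (ω f).2) := by
  unfold rot; simp

theorem rot_ne {f g : E} (h : g ≠ f) (r : Fin 4) (ω : Om E) : rot f r ω g = ω g := by
  unfold rot; simp [h]

theorem rot_snd (f g : E) (r : Fin 4) (ω : Om E) : (rot f r ω g).2 = (ω g).2 := by
  by_cases h : g = f
  · subst h; rw [rot_self]
  · rw [rot_ne h]

theorem rot_rot (f : E) (r r' : Fin 4) (ω : Om E) (h : r + r' = 0) :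
    rot f r' (rot f r ω) = ω := by
  funext g
  by_cases hg : g = f
  · subst hg
    rw [rot_self, rot_self]
    refine Prod.ext ?_ rfl
    change (ω g).1 + r + r' = (ω g).1
    rw [add_assoc, h, add_zero]
  · rw [rot_ne hg, rot_ne hg]

theorem rot_lb_self (f : E) (r : Fin 4) (ω : Om E) : lb (rot f r ω) f = lb ω f + r := by
  unfold lb; rw [rot_self]

theorem rot_lb_ne {f g : E} (h : g ≠ f) (r : Fin 4) (ω : Om E) :
    lb (rot f r ω) g = lb ω g := by
  unfold lb; rw [rot_ne h]

theorem rot_V (x y : E → ℝ≥0) (f : E) (r : Fin 4) (ω : Om E) :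
    Vv x y (rot f r ω) = Vv x y ω := by
  funext g; exact Vv_of_eq (rot_snd f g r ω)

theorem rot_S (x y : E → ℝ≥0) (f : E) (r : Fin 4) (ω : Om E) :
    Sv x y (rot f r ω) = Sv x y ω := by
  funext g; exact Sv_of_eq (rot_snd f g r ω)

theorem sum_rot (f : E) (r : Fin 4) (G : Om E → ℝ) : ∑ ω, G (rot f r ω) = ∑ ω, G ω := by
  let e : Om E ≃ Om E :=
    { toFun := rot f r
      invFun := rot f (-r)
      left_inv := fun ω => rot_rot f r (-r) ω (by rw [add_neg_cancel])
      right_inv := fun ω => rot_rot f (-r) r ω (by rw [neg_add_cancel]) }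
  exact Equiv.sum_comp e G

/-- Label independence. -/
theorem four_mul_sum_ind (f : E) (t : Fin 4) (G : Om E → ℝ)
    (hG : ∀ r ω, G (rot f r ω) = G ω) :
    4 * ∑ ω, ind (lb ω f = t) (G ω) = ∑ ω, G ω := by
  have h1 : ∀ r : Fin 4, ∑ ω, ind (lb ω f = t) (G ω) = ∑ ω, ind (lb ω f + r = t) (G ω) := by
    intro r
    rw [← sum_rot f r (fun ω => ind (lb ω f = t) (G ω))]
    apply Finset.sum_congr rfl
    intro ω _
    rw [rot_lb_self, hG]
  have h2 : ∑ _r : Fin 4, ∑ ω, ind (lb ω f = t) (G ω) = ∑ ω, G ω := by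
    rw [Finset.sum_congr rfl (fun r _ => h1 r), Finset.sum_comm]
    apply Finset.sum_congr rfl
    intro ω _
    rw [Finset.sum_eq_single (t - lb ω f)]
    · rw [ind_pos]; abel
    · intro r _ hr
      rw [ind_neg]
      intro h; apply hr
      rw [← h]; abel
    · intro h; exact absurd (Finset.mem_univ _) h
  rw [← h2, Finset.sum_const, Finset.card_univ, Fintype.card_fin, nsmul_eq_mul]
  norm_num

theorem four_mul_sum_ind_ne (f : E) (t : Fin 4) (G : Om E → ℝ)
    (hG : ∀ r ω, G (rot f r ω) = G ω) :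
    4 * ∑ ω, ind (lb ω f ≠ t) (G ω) = 3 * ∑ ω, G ω := by
  have h1 := four_mul_sum_ind f t G hG
  have h2 : ∑ ω, ind (lb ω f ≠ t) (G ω) + ∑ ω, ind (lb ω f = t) (G ω) = ∑ ω, G ω := by
    rw [← Finset.sum_add_distrib]
    apply Finset.sum_congr rfl
    intro ω _
    by_cases h : lb ω f = t
    · rw [ind_pos h, ind_neg (fun h' => h' h), zero_add]
    · rw [ind_neg h, ind_pos h, add_zero]
  linarith

theorem sum_ind_le_of_unique {a : ℝ} (ha : 0 ≤ a) (P : E → Prop)
    (h : ∀ e e', P e → P e' → e = e') : ∑ e, ind (P e) a ≤ a := by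
  by_cases hex : ∃ e, P e
  · obtain ⟨e, he⟩ := hex
    rw [Finset.sum_eq_single e]
    · rw [ind_pos he]
    · intro e' _ hne
      exact ind_neg (fun h' => hne (h e' e h' he)) _
    · intro h'; exact absurd (Finset.mem_univ _) h'
  · push Not at hex
    rw [Finset.sum_eq_zero]
    · exact ha
    · intro e _; exact ind_neg (hex e) _

end labels

/-- Largest value of a nonloop. -/
noncomputable def mv (M : Matroid E) (v : E → ℝ≥0) : ℝ≥0 :=
  (Finset.univ.filter fun f => M.IsNonloop f).sup v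

theorem le_mv {v : E → ℝ≥0} {f : E} (h : M.IsNonloop f) : v f ≤ mv M v :=
  Finset.le_sup (f := v) (Finset.mem_filter.2 ⟨Finset.mem_univ _, h⟩)

theorem mm_le_mv (x y : E → ℝ≥0) (ω : Om E) : mm M x y ω ≤ mv M (Sv x y ω) := by
  unfold mm mx
  apply Finset.sup_le
  intro f hf
  exact le_mv (Finset.mem_filter.1 hf).2.2

theorem le_mm {x y : E → ℝ≥0} {ω : Om E} {f : E} (h : M.IsNonloop f) (h0 : lb ω f = 0) :
    Sv x y ω f ≤ mm M x y ω :=
  Finset.le_sup (f := Sv x y ω) (Finset.mem_filter.2 ⟨Finset.mem_univ _, h0, h⟩)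

/-- Sample maximum and value maximum have the same sum. -/
theorem sum_mvS_eq (x y : E → ℝ≥0) :
    ∑ ω : Om E, (mv M (Sv x y ω) : ℝ) = ∑ ω : Om E, (mv M (Vv x y ω) : ℝ) := by
  rw [← sum_invol' (flipL fun _ => True) (flipL_invol fun _ => True)
    (fun ω => (mv M (Sv x y ω) : ℝ))]
  apply Finset.sum_congr rfl
  intro ω _
  have : Sv x y (flipL (fun _ => True) ω) = Vv x y ω := by
    funext f; exact flipL_S_pos trivial
  rw [this]

theorem Gr_nonloop (hM : M.E = univ) {v : E → ℝ≥0} {e : E} (h : Gr M v e) : M.IsNonloop e := by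
  apply M.isNonloop_of_not_isLoop (by rw [hM]; trivial)
  intro h'
  exact h (h'.mem_closure _)

/-- The small values. -/
theorem loss_small (hM : M.E = univ) (L : ℕ) (hr : M.eRank ≤ ((2 ^ 2 ^ L : ℕ) : ℕ∞))
    (x y : E → ℝ≥0) :
    4 * ∑ ω : Om E, ∑ e, ind (lb ω e = 3 ∧ Gr M (Vv x y ω) e ∧
      Vv x y ω e ≤ mm M x y ω / 2 ^ (2 ^ L)) (Vv x y ω e : ℝ) ≤
      ∑ ω : Om E, (mv M (Vv x y ω) : ℝ) := by
  have h1 : ∑ ω : Om E, ∑ e, ind (lb ω e = 3 ∧ Gr M (Vv x y ω) e ∧
      Vv x y ω e ≤ mm M x y ω / 2 ^ (2 ^ L)) (Vv x y ω e : ℝ) ≤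
      ∑ ω : Om E, ∑ e, ind (lb ω e = 3) (ind (Gr M (Vv x y ω) e)
        ((mv M (Sv x y ω) : ℝ) / 2 ^ (2 ^ L))) := by
    apply Finset.sum_le_sum
    intro ω _
    apply Finset.sum_le_sum
    intro e _
    have hpos : (0 : ℝ) ≤ (mv M (Sv x y ω) : ℝ) / 2 ^ (2 ^ L) := by positivity
    by_cases h : lb ω e = 3 ∧ Gr M (Vv x y ω) e ∧ Vv x y ω e ≤ mm M x y ω / 2 ^ (2 ^ L)
    · rw [ind_pos h, ind_pos h.1, ind_pos h.2.1]
      have h2 : Vv x y ω e ≤ mv M (Sv x y ω) / 2 ^ (2 ^ L) := by
        refine h.2.2.trans ?_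
        gcongr
        exact mm_le_mv x y ω
      exact_mod_cast h2
    · rw [ind_neg h]
      exact ind_nonneg (ind_nonneg hpos)
  have h2 : 4 * ∑ ω : Om E, ∑ e, ind (lb ω e = 3) (ind (Gr M (Vv x y ω) e)
        ((mv M (Sv x y ω) : ℝ) / 2 ^ (2 ^ L))) =
      ∑ ω : Om E, ∑ e, ind (Gr M (Vv x y ω) e) ((mv M (Sv x y ω) : ℝ) / 2 ^ (2 ^ L)) := by
    rw [Finset.sum_comm, Finset.mul_sum, Finset.sum_comm (s := (Finset.univ : Finset (Om E)))]
    apply Finset.sum_congr rfl
    intro e _
    apply four_mul_sum_ind e 3 (fun ω => ind (Gr M (Vv x y ω) e)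
      ((mv M (Sv x y ω) : ℝ) / 2 ^ (2 ^ L)))
    intro r ω
    rw [rot_V, rot_S]
  have h3 : ∑ ω : Om E, ∑ e, ind (Gr M (Vv x y ω) e) ((mv M (Sv x y ω) : ℝ) / 2 ^ (2 ^ L)) ≤
      ∑ ω : Om E, (mv M (Sv x y ω) : ℝ) := by
    apply Finset.sum_le_sum
    intro ω _
    rw [sum_ind_eq, Finset.sum_const, nsmul_eq_mul]
    have hcard : (((Finset.univ.filter (Gr M (Vv x y ω))).card : ℕ) : ℕ∞) ≤
        ((2 ^ 2 ^ L : ℕ) : ℕ∞) := by
      refine le_trans (greedy_card_le hM (key (Vv x y ω)) (key_inj _) _ ?_) hr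
      intro e he
      exact (Finset.mem_filter.1 he).2
    have hcard' : (Finset.univ.filter (Gr M (Vv x y ω))).card ≤ 2 ^ 2 ^ L := by
      exact_mod_cast hcard
    have hcard'' : ((Finset.univ.filter (Gr M (Vv x y ω))).card : ℝ) ≤ 2 ^ 2 ^ L := by
      exact_mod_cast hcard'
    have hpos : (0 : ℝ) ≤ (mv M (Sv x y ω) : ℝ) / 2 ^ (2 ^ L) := by positivity
    calc _ ≤ (2 ^ 2 ^ L : ℝ) * ((mv M (Sv x y ω) : ℝ) / 2 ^ (2 ^ L)) := by gcongr
      _ = (mv M (Sv x y ω) : ℝ) := by field_simp
  rw [sum_mvS_eq] at h3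
  linarith

/-- The large values. -/
theorem loss_large (hM : M.E = univ) (x y : E → ℝ≥0) :
    ∑ ω : Om E, ∑ e, ind (lb ω e = 3 ∧ Gr M (Vv x y ω) e ∧
      mm M x y ω < Vv x y ω e) (Vv x y ω e : ℝ) ≤
      ∑ ω : Om E, (mv M (Vv x y ω) : ℝ) := by
  -- drop the greedy condition
  have h1 : ∑ ω : Om E, ∑ e, ind (lb ω e = 3 ∧ Gr M (Vv x y ω) e ∧
      mm M x y ω < Vv x y ω e) (Vv x y ω e : ℝ) ≤
      ∑ ω : Om E, ∑ e, ind (lb ω e = 3 ∧ M.IsNonloop e ∧
      mm M x y ω < Vv x y ω e) (Vv x y ω e : ℝ) := by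
    apply Finset.sum_le_sum
    intro ω _
    apply Finset.sum_le_sum
    intro e _
    apply ind_mono _ (NNReal.coe_nonneg _)
    rintro ⟨a, b, c⟩
    exact ⟨a, Gr_nonloop hM b, c⟩
  refine h1.trans ?_
  -- flip label 0
  set p : Fin 4 → Prop := fun a => a = 0 with hp
  rw [← sum_invol' (flipL p) (flipL_invol p) (fun ω => ∑ e, ind (lb ω e = 3 ∧ M.IsNonloop e ∧
      mm M x y ω < Vv x y ω e) (Vv x y ω e : ℝ))]
  have h2 : ∀ ω : Om E, ∑ e, ind (lb (flipL p ω) e = 3 ∧ M.IsNonloop e ∧
      mm M x y (flipL p ω) < Vv x y (flipL p ω) e) (Vv x y (flipL p ω) e : ℝ) ≤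
      ∑ e, ind (lb ω e = 3) (ind (M.IsNonloop e ∧ ∀ f, M.IsNonloop f →
        key (Vv x y ω) e < key (Vv x y ω) f → lb ω f ≠ 0) (mv M (Vv x y ω) : ℝ)) := by
    intro ω
    apply Finset.sum_le_sum
    intro e _
    rw [flipL_lb]
    by_cases h : lb ω e = 3 ∧ M.IsNonloop e ∧ mm M x y (flipL p ω) < Vv x y (flipL p ω) e
    · obtain ⟨h3, h4, h5⟩ := h
      have hV : Vv x y (flipL p ω) e = Vv x y ω e := by
        apply flipL_V_neg; rw [h3, hp]; decide
      rw [hV] at h5
      have h6 : ∀ f, M.IsNonloop f → key (Vv x y ω) e < key (Vv x y ω) f → lb ω f ≠ 0 := by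
        intro f hf hlt h0
        have h7 : Sv x y (flipL p ω) f ≤ mm M x y (flipL p ω) := by
          apply le_mm hf; rw [flipL_lb]; exact h0
        rw [flipL_S_pos (show p (lb ω f) from h0)] at h7
        have h8 := le_of_key_lt hlt
        exact absurd (lt_of_lt_of_le h5 (h8.trans h7)) (lt_irrefl _)
      rw [ind_pos ⟨h3, h4, by rw [hV]; exact h5⟩, ind_pos h3, ind_pos ⟨h4, h6⟩, hV]
      exact_mod_cast le_mv h4
    · rw [ind_neg h]
      exact ind_nonneg (ind_nonneg (NNReal.coe_nonneg _))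
  refine (Finset.sum_le_sum fun ω _ => h2 ω).trans ?_
  -- exchange label 3 by label 0
  have h3 : ∑ ω : Om E, ∑ e, ind (lb ω e = 3) (ind (M.IsNonloop e ∧ ∀ f, M.IsNonloop f →
        key (Vv x y ω) e < key (Vv x y ω) f → lb ω f ≠ 0) (mv M (Vv x y ω) : ℝ)) =
      ∑ ω : Om E, ∑ e, ind (lb ω e = 0) (ind (M.IsNonloop e ∧ ∀ f, M.IsNonloop f →
        key (Vv x y ω) e < key (Vv x y ω) f → lb ω f ≠ 0) (mv M (Vv x y ω) : ℝ)) := by
    rw [Finset.sum_comm, Finset.sum_comm (s := (Finset.univ : Finset (Om E)))]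
    apply Finset.sum_congr rfl
    intro e _
    have hG : ∀ r (ω : Om E), ind (M.IsNonloop e ∧ ∀ f, M.IsNonloop f →
        key (Vv x y (rot e r ω)) e < key (Vv x y (rot e r ω)) f → lb (rot e r ω) f ≠ 0)
          (mv M (Vv x y (rot e r ω)) : ℝ) = ind (M.IsNonloop e ∧ ∀ f, M.IsNonloop f →
        key (Vv x y ω) e < key (Vv x y ω) f → lb ω f ≠ 0) (mv M (Vv x y ω) : ℝ) := by
      intro r ω
      rw [rot_V]
      apply ind_congr _ rfl
      apply and_congr Iff.rfl
      apply forall_congr'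
      intro f
      apply imp_congr Iff.rfl
      apply imp_congr_right
      intro hlt
      have hne : f ≠ e := by
        rintro rfl; exact lt_irrefl _ hlt
      rw [rot_lb_ne hne]
    have a1 := four_mul_sum_ind e 3 (fun ω : Om E => ind (M.IsNonloop e ∧ ∀ f, M.IsNonloop f →
        key (Vv x y ω) e < key (Vv x y ω) f → lb ω f ≠ 0) (mv M (Vv x y ω) : ℝ)) hG
    have a2 := four_mul_sum_ind e 0 (fun ω : Om E => ind (M.IsNonloop e ∧ ∀ f, M.IsNonloop f →
        key (Vv x y ω) e < key (Vv x y ω) f → lb ω f ≠ 0) (mv M (Vv x y ω) : ℝ)) hG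
    linarith
  rw [h3]
  apply Finset.sum_le_sum
  intro ω _
  have h4 : ∀ e ∈ (Finset.univ : Finset E), ind (lb ω e = 0) (ind (M.IsNonloop e ∧
      ∀ f, M.IsNonloop f →
        key (Vv x y ω) e < key (Vv x y ω) f → lb ω f ≠ 0) (mv M (Vv x y ω) : ℝ)) =
      ind (lb ω e = 0 ∧ M.IsNonloop e ∧ ∀ f, M.IsNonloop f →
        key (Vv x y ω) e < key (Vv x y ω) f → lb ω f ≠ 0) (mv M (Vv x y ω) : ℝ) := by
    intro e _
    by_cases h : lb ω e = 0
    · rw [ind_pos h]
      exact ind_congr ⟨fun h' => ⟨h, h'⟩, fun h' => h'.2⟩ rfl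
    · rw [ind_neg h, ind_neg (fun h' => h h'.1)]
  rw [Finset.sum_congr rfl h4]
  apply sum_ind_le_of_unique (NNReal.coe_nonneg _)
  rintro e e' ⟨a1, a2, a3⟩ ⟨b1, b2, b3⟩
  rcases lt_trichotomy (key (Vv x y ω) e) (key (Vv x y ω) e') with h | h | h
  · exact absurd b1 (a3 e' b2 h)
  · exact key_inj _ h
  · exact absurd a1 (b3 e a2 h)

end Vale.Agent.P331
end
end
end

section

section

section

/-!
# The maximum modes and the assembled inequality
-/

namespace Vale.Agent.P331

open Set
open scoped NNReal Classical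

set_option linter.unusedSectionVars false

variable {E : Type*} [Fintype E] {M : Matroid E}

/-- `e` is the nonloop with the largest key. -/
def Top (M : Matroid E) (u : E → ℝ≥0) (e : E) : Prop :=
  M.IsNonloop e ∧ ∀ f, M.IsNonloop f → f ≠ e → key u f < key u e

/-- `f` is the nonloop with the largest key apart from `e`. -/
def Sec (M : Matroid E) (u : E → ℝ≥0) (e f : E) : Prop :=
  (M.IsNonloop f ∧ f ≠ e) ∧ ∀ g, M.IsNonloop g → g ≠ e → g ≠ f → key u g < key u f

theorem Top_unique {u : E → ℝ≥0} {e e' : E} (h : Top M u e) (h' : Top M u e') : e = e' := by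
  by_contra hne
  exact lt_asymm (h.2 e' h'.1 (Ne.symm hne)) (h'.2 e h.1 hne)

theorem Sec_unique {u : E → ℝ≥0} {e f f' : E} (h : Sec M u e f) (h' : Sec M u e f') :
    f = f' := by
  by_contra hne
  exact lt_asymm (h.2 f' h'.1.1 h'.1.2 (Ne.symm hne)) (h'.2 f h.1.1 h.1.2 hne)

theorem exists_Top (u : E → ℝ≥0) {g : E} (hg : M.IsNonloop g) : ∃ e, Top M u e := by
  have hne : (Finset.univ.filter fun f => M.IsNonloop f).Nonempty :=
    ⟨g, Finset.mem_filter.2 ⟨Finset.mem_univ _, hg⟩⟩
  obtain ⟨e, he, hmax⟩ := Finset.exists_max_image _ (key u) hne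
  refine ⟨e, (Finset.mem_filter.1 he).2, fun f hf hfe => ?_⟩
  refine lt_of_le_of_ne (hmax f (Finset.mem_filter.2 ⟨Finset.mem_univ _, hf⟩)) ?_
  intro h; exact hfe (key_inj _ h)

theorem exists_Sec (u : E → ℝ≥0) (e : E) {g : E} (hg : M.IsNonloop g) (hge : g ≠ e) :
    ∃ f, Sec M u e f := by
  have hne : (Finset.univ.filter fun f => M.IsNonloop f ∧ f ≠ e).Nonempty :=
    ⟨g, Finset.mem_filter.2 ⟨Finset.mem_univ _, hg, hge⟩⟩
  obtain ⟨f, hf, hmax⟩ := Finset.exists_max_image _ (key u) hne
  refine ⟨f, (Finset.mem_filter.1 hf).2, fun b hb hbe hbf => ?_⟩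
  refine lt_of_le_of_ne (hmax b (Finset.mem_filter.2 ⟨Finset.mem_univ _, hb, hbe⟩)) ?_
  intro h; exact hbf (key_inj _ h)

/-- The mixed values: sample for label 0, value otherwise. -/
noncomputable def Uv (x y : E → ℝ≥0) (ω : Om E) (f : E) : ℝ≥0 :=
  if lb ω f = 0 then Sv x y ω f else Vv x y ω f

theorem max_det (hM : M.E = univ) (L : ℕ) (x y : E → ℝ≥0) (l : Mode L → Om E → List E)
    (hnd : ∀ μ ω, (l μ ω).Nodup) (hall : ∀ μ ω e, e ∈ l μ ω) (w : Fin 27) (ω : Om E) :
    ∑ e, ind (Top M (Uv x y ω) e ∧ lb ω e ≠ 0 ∧ ∀ f, Sec M (Uv x y ω) e f → lb ω f = 0)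
      (Uv x y ω e : ℝ) ≤
      gg M L x y l (Sum.inr (Sum.inr (Sum.inr (Sum.inl w)))) ω +
      gg M L x y l (Sum.inr (Sum.inr (Sum.inr (Sum.inr w)))) ω := by
  have hg1 : 0 ≤ gg M L x y l (Sum.inr (Sum.inr (Sum.inr (Sum.inl w)))) ω :=
    gain_nonneg _ _ _ _ _ _ _
  have hg2 : 0 ≤ gg M L x y l (Sum.inr (Sum.inr (Sum.inr (Sum.inr w)))) ω :=
    gain_nonneg _ _ _ _ _ _ _
  by_cases hex : ∃ e, Top M (Uv x y ω) e ∧ lb ω e ≠ 0 ∧
      ∀ f, Sec M (Uv x y ω) e f → lb ω f = 0
  · obtain ⟨e, he⟩ := hex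
    rw [Finset.sum_eq_single e]
    · rw [ind_pos he]
      obtain ⟨h1, h2, h3⟩ := he
      have hUe : Uv x y ω e = Vv x y ω e := if_neg h2
      -- all other value elements are at most `m`
      have h4 : ∀ b, b ≠ e → M.IsNonloop b → lb ω b ≠ 0 → ¬ mm M x y ω < Vv x y ω b := by
        intro b hbe hb hb0 hlt
        obtain ⟨f, hf⟩ := exists_Sec (Uv x y ω) e hb hbe
        have hf0 := h3 f hf
        have hbf : b ≠ f := by
          rintro rfl; exact hb0 hf0
        have h5 := le_of_key_lt (hf.2 b hb hbe hbf)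
        have hUb : Uv x y ω b = Vv x y ω b := if_neg hb0
        have hUf : Uv x y ω f = Sv x y ω f := if_pos hf0
        rw [hUb, hUf] at h5
        exact absurd (lt_of_lt_of_le hlt (h5.trans (le_mm hf.1.1 hf0))) (lt_irrefl _)
      have h5 : mm M x y ω ≤ Vv x y ω e := by
        unfold mm mx
        apply Finset.sup_le
        intro g hg
        have hg' := (Finset.mem_filter.1 hg).2
        have hge : g ≠ e := by
          rintro rfl; exact h2 hg'.1
        have h6 := le_of_key_lt (h1.2 g hg'.2 hge)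
        have hUg : Uv x y ω g = Sv x y ω g := if_pos hg'.1
        rwa [hUg, hUe] at h6
      rw [hUe]
      rcases lt_or_eq_of_le h5 with h6 | h6
      · have := gain_max_gt hM L (mm M x y ω) (lb ω) (Sv x y ω) (Vv x y ω) w
          (hnd (Sum.inr (Sum.inr (Sum.inr (Sum.inl w)))) ω)
          (hall (Sum.inr (Sum.inr (Sum.inr (Sum.inl w)))) ω) e h1.1 h2 h6 h4
        have h7 : (Vv x y ω e : ℝ) ≤ gg M L x y l (Sum.inr (Sum.inr (Sum.inr (Sum.inl w)))) ω :=
          this
        linarith
      · have := gain_max_ge hM L (mm M x y ω) (lb ω) (Sv x y ω) (Vv x y ω) w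
          (hall (Sum.inr (Sum.inr (Sum.inr (Sum.inr w)))) ω) e h1.1 h2 h5
        have h7 : (mm M x y ω : ℝ) ≤
          gg M L x y l (Sum.inr (Sum.inr (Sum.inr (Sum.inr w)))) ω := this
        rw [← h6]
        linarith
    · intro e' _ hne
      apply ind_neg
      rintro ⟨h', _⟩
      exact hne (Top_unique h' he.1)
    · intro h; exact absurd (Finset.mem_univ _) h
  · push Not at hex
    rw [Finset.sum_eq_zero]
    · linarith
    · intro e _
      apply ind_neg
      rintro ⟨h1, h2, h3⟩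
      obtain ⟨f, hf1, hf2⟩ := hex e h1 h2
      exact hf2 (h3 f hf1)

theorem max_avg (hM : M.E = univ) (L : ℕ) (x y : E → ℝ≥0) (l : Mode L → Om E → List E)
    (hnd : ∀ μ ω, (l μ ω).Nodup) (hall : ∀ μ ω e, e ∈ l μ ω) (w : Fin 27) :
    3 * ∑ ω : Om E, (mv M (Vv x y ω) : ℝ) ≤
      16 * ∑ ω, (gg M L x y l (Sum.inr (Sum.inr (Sum.inr (Sum.inl w)))) ω +
      gg M L x y l (Sum.inr (Sum.inr (Sum.inr (Sum.inr w)))) ω) := by
  have h1 := Finset.sum_le_sum fun (ω : Om E) (_ : ω ∈ Finset.univ) =>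
    max_det hM L x y l hnd hall w ω
  -- flip label 0
  set p : Fin 4 → Prop := fun a => a = 0 with hp
  have h2 : ∑ ω : Om E, ∑ e, ind (Top M (Uv x y ω) e ∧ lb ω e ≠ 0 ∧
        ∀ f, Sec M (Uv x y ω) e f → lb ω f = 0) (Uv x y ω e : ℝ) =
      ∑ ω : Om E, ∑ e, ind (Top M (Vv x y ω) e ∧ lb ω e ≠ 0 ∧
        ∀ f, Sec M (Vv x y ω) e f → lb ω f = 0) (Vv x y ω e : ℝ) := by
    rw [← sum_invol' (flipL p) (flipL_invol p) (fun ω : Om E => ∑ e, ind (Top M (Uv x y ω) e ∧
      lb ω e ≠ 0 ∧ ∀ f, Sec M (Uv x y ω) e f → lb ω f = 0) (Uv x y ω e : ℝ))]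
    apply Finset.sum_congr rfl
    intro ω _
    have hU : Uv x y (flipL p ω) = Vv x y ω := by
      funext f
      unfold Uv
      rw [flipL_lb]
      by_cases h : lb ω f = 0
      · rw [if_pos h]; exact flipL_S_pos h
      · rw [if_neg h]; exact flipL_V_neg h
    rw [hU, flipL_lb']
  rw [h2] at h1
  -- lower bound by independence of labels
  have h3 : ∀ ω : Om E, ∀ e : E,
      ∑ f, ind (lb ω f = 0) (ind (lb ω e ≠ 0) (ind (Top M (Vv x y ω) e ∧ Sec M (Vv x y ω) e f)
        (Vv x y ω e : ℝ))) +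
      ind (lb ω e ≠ 0) (ind (Top M (Vv x y ω) e ∧ ∀ f, ¬ Sec M (Vv x y ω) e f)
        (Vv x y ω e : ℝ)) ≤
      ind (Top M (Vv x y ω) e ∧ lb ω e ≠ 0 ∧
        ∀ f, Sec M (Vv x y ω) e f → lb ω f = 0) (Vv x y ω e : ℝ) := by
    intro ω e
    have hv : (0 : ℝ) ≤ (Vv x y ω e : ℝ) := NNReal.coe_nonneg _
    by_cases hex : ∃ f, Sec M (Vv x y ω) e f
    · obtain ⟨f, hf⟩ := hex
      rw [Finset.sum_eq_single f]
      · have hz : ind (lb ω e ≠ 0) (ind (Top M (Vv x y ω) e ∧ ∀ f, ¬ Sec M (Vv x y ω) e f)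
            (Vv x y ω e : ℝ)) = 0 := by
          rw [ind_neg (P := Top M (Vv x y ω) e ∧ ∀ f, ¬ Sec M (Vv x y ω) e f)
            (fun h => h.2 f hf)]
          by_cases h : lb ω e ≠ 0
          · rw [ind_pos h]
          · rw [ind_neg h]
        rw [hz, add_zero]
        by_cases a1 : lb ω f = 0
        · rw [ind_pos a1]
          by_cases a2 : lb ω e ≠ 0
          · rw [ind_pos a2]
            apply ind_mono _ hv
            rintro ⟨a3, _⟩
            refine ⟨a3, a2, fun f' hf' => ?_⟩
            rw [Sec_unique hf' hf]; exact a1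
          · rw [ind_neg a2]; exact ind_nonneg hv
        · rw [ind_neg a1]; exact ind_nonneg hv
      · intro f' _ hne
        rw [ind_neg (P := Top M (Vv x y ω) e ∧ Sec M (Vv x y ω) e f')
          (fun h => hne (Sec_unique h.2 hf))]
        by_cases a1 : lb ω f' = 0
        · rw [ind_pos a1]
          by_cases a2 : lb ω e ≠ 0
          · rw [ind_pos a2]
          · rw [ind_neg a2]
        · rw [ind_neg a1]
      · intro h; exact absurd (Finset.mem_univ _) h
    · push Not at hex
      rw [Finset.sum_eq_zero, zero_add]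
      · by_cases a2 : lb ω e ≠ 0
        · rw [ind_pos a2]
          apply ind_mono _ hv
          rintro ⟨a3, _⟩
          exact ⟨a3, a2, fun f hf => absurd hf (hex f)⟩
        · rw [ind_neg a2]; exact ind_nonneg hv
      · intro f _
        rw [ind_neg (P := Top M (Vv x y ω) e ∧ Sec M (Vv x y ω) e f) (fun h => hex f h.2)]
        by_cases a1 : lb ω f = 0
        · rw [ind_pos a1]
          by_cases a2 : lb ω e ≠ 0
          · rw [ind_pos a2]
          · rw [ind_neg a2]
        · rw [ind_neg a1]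
  have h4 : ∀ e f : E, 16 * ∑ ω : Om E, ind (lb ω f = 0) (ind (lb ω e ≠ 0)
      (ind (Top M (Vv x y ω) e ∧ Sec M (Vv x y ω) e f) (Vv x y ω e : ℝ))) =
      3 * ∑ ω : Om E, ind (Top M (Vv x y ω) e ∧ Sec M (Vv x y ω) e f) (Vv x y ω e : ℝ) := by
    intro e f
    by_cases hfe : f = e
    · subst hfe
      have hz : ∀ ω : Om E, ind (Top M (Vv x y ω) f ∧ Sec M (Vv x y ω) f f) (Vv x y ω f : ℝ) = 0 :=
        fun ω => ind_neg (fun h => h.2.1.2 rfl) _
      simp only [hz]
      have hz' : ∀ ω : Om E, ind (lb ω f = 0) (ind (lb ω f ≠ 0) 0) = 0 := by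
        intro ω
        by_cases a1 : lb ω f = 0
        · rw [ind_pos a1, ind_neg (fun h => h a1)]
        · rw [ind_neg a1]
      simp only [hz']
      simp
    · have hG1 : ∀ r (ω : Om E), ind (Top M (Vv x y (rot e r ω)) e ∧
          Sec M (Vv x y (rot e r ω)) e f) (Vv x y (rot e r ω) e : ℝ) =
          ind (Top M (Vv x y ω) e ∧ Sec M (Vv x y ω) e f) (Vv x y ω e : ℝ) := by
        intro r ω; rw [rot_V]
      have a1 := four_mul_sum_ind_ne e 0 (fun ω : Om E => ind (Top M (Vv x y ω) e ∧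
          Sec M (Vv x y ω) e f) (Vv x y ω e : ℝ)) hG1
      have hG2 : ∀ r (ω : Om E), ind (lb (rot f r ω) e ≠ 0) (ind (Top M (Vv x y (rot f r ω)) e ∧
          Sec M (Vv x y (rot f r ω)) e f) (Vv x y (rot f r ω) e : ℝ)) =
          ind (lb ω e ≠ 0) (ind (Top M (Vv x y ω) e ∧ Sec M (Vv x y ω) e f)
            (Vv x y ω e : ℝ)) := by
        intro r ω; rw [rot_V, rot_lb_ne (Ne.symm hfe)]
      have a2 := four_mul_sum_ind f 0 (fun ω : Om E => ind (lb ω e ≠ 0)
        (ind (Top M (Vv x y ω) e ∧ Sec M (Vv x y ω) e f) (Vv x y ω e : ℝ))) hG2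
      linarith
  have h5 : ∀ e : E, 4 * ∑ ω : Om E, ind (lb ω e ≠ 0) (ind (Top M (Vv x y ω) e ∧
      ∀ f, ¬ Sec M (Vv x y ω) e f) (Vv x y ω e : ℝ)) =
      3 * ∑ ω : Om E, ind (Top M (Vv x y ω) e ∧ ∀ f, ¬ Sec M (Vv x y ω) e f)
        (Vv x y ω e : ℝ) := by
    intro e
    apply four_mul_sum_ind_ne e 0 (fun ω : Om E => ind (Top M (Vv x y ω) e ∧
      ∀ f, ¬ Sec M (Vv x y ω) e f) (Vv x y ω e : ℝ))
    intro r ω; rw [rot_V]
  have h6 : ∀ ω : Om E, (mv M (Vv x y ω) : ℝ) ≤ ∑ e, (∑ f, ind (Top M (Vv x y ω) e ∧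
      Sec M (Vv x y ω) e f) (Vv x y ω e : ℝ) +
      ind (Top M (Vv x y ω) e ∧ ∀ f, ¬ Sec M (Vv x y ω) e f) (Vv x y ω e : ℝ)) := by
    intro ω
    have hnn : ∀ e : E, 0 ≤ ∑ f, ind (Top M (Vv x y ω) e ∧
      Sec M (Vv x y ω) e f) (Vv x y ω e : ℝ) +
      ind (Top M (Vv x y ω) e ∧ ∀ f, ¬ Sec M (Vv x y ω) e f) (Vv x y ω e : ℝ) := by
      intro e
      apply add_nonneg
      · exact Finset.sum_nonneg fun f _ => ind_nonneg (NNReal.coe_nonneg _)
      · exact ind_nonneg (NNReal.coe_nonneg _)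
    by_cases hne : ∃ g, M.IsNonloop g
    · obtain ⟨g, hg⟩ := hne
      obtain ⟨e, he⟩ := exists_Top (Vv x y ω) hg
      have h7 : mv M (Vv x y ω) ≤ Vv x y ω e := by
        unfold mv
        apply Finset.sup_le
        intro f hf
        by_cases hfe : f = e
        · rw [hfe]
        · exact le_of_key_lt (he.2 f (Finset.mem_filter.1 hf).2 hfe)
      refine le_trans (NNReal.coe_le_coe.2 h7) ?_
      refine le_trans ?_ (Finset.single_le_sum (fun e _ => hnn e) (Finset.mem_univ e))
      by_cases hex : ∃ f, Sec M (Vv x y ω) e f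
      · obtain ⟨f, hf⟩ := hex
        have h8 : (Vv x y ω e : ℝ) = ind (Top M (Vv x y ω) e ∧ Sec M (Vv x y ω) e f)
            (Vv x y ω e : ℝ) := (ind_pos ⟨he, hf⟩ _).symm
        have h9 : ind (Top M (Vv x y ω) e ∧ Sec M (Vv x y ω) e f) (Vv x y ω e : ℝ) ≤
            ∑ f, ind (Top M (Vv x y ω) e ∧ Sec M (Vv x y ω) e f) (Vv x y ω e : ℝ) :=
          Finset.single_le_sum (f := fun f => ind (Top M (Vv x y ω) e ∧
            Sec M (Vv x y ω) e f) (Vv x y ω e : ℝ))
            (fun f _ => ind_nonneg (NNReal.coe_nonneg _)) (Finset.mem_univ f)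
        have h10 : 0 ≤ ind (Top M (Vv x y ω) e ∧ ∀ f, ¬ Sec M (Vv x y ω) e f)
          (Vv x y ω e : ℝ) := ind_nonneg (NNReal.coe_nonneg _)
        linarith
      · push Not at hex
        have h8 : (Vv x y ω e : ℝ) = ind (Top M (Vv x y ω) e ∧ ∀ f, ¬ Sec M (Vv x y ω) e f)
            (Vv x y ω e : ℝ) := (ind_pos ⟨he, hex⟩ _).symm
        have h10 : 0 ≤ ∑ f, ind (Top M (Vv x y ω) e ∧ Sec M (Vv x y ω) e f) (Vv x y ω e : ℝ) :=
          Finset.sum_nonneg fun f _ => ind_nonneg (NNReal.coe_nonneg _)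
        linarith
    · push Not at hne
      have h7 : mv M (Vv x y ω) = 0 := by
        unfold mv
        rw [Finset.filter_false_of_mem (fun e _ => hne e), Finset.sup_empty]
        rfl
      rw [h7]
      exact Finset.sum_nonneg fun e _ => hnn e
  -- combine
  have h7 : 3 * ∑ ω : Om E, (mv M (Vv x y ω) : ℝ) ≤
      3 * ∑ ω : Om E, ∑ e, (∑ f, ind (Top M (Vv x y ω) e ∧
      Sec M (Vv x y ω) e f) (Vv x y ω e : ℝ) +
      ind (Top M (Vv x y ω) e ∧ ∀ f, ¬ Sec M (Vv x y ω) e f) (Vv x y ω e : ℝ)) := by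
    have := Finset.sum_le_sum fun (ω : Om E) (_ : ω ∈ Finset.univ) => h6 ω
    linarith
  have h8 : 3 * ∑ ω : Om E, ∑ e, (∑ f, ind (Top M (Vv x y ω) e ∧
      Sec M (Vv x y ω) e f) (Vv x y ω e : ℝ) +
      ind (Top M (Vv x y ω) e ∧ ∀ f, ¬ Sec M (Vv x y ω) e f) (Vv x y ω e : ℝ)) ≤
      16 * ∑ ω : Om E, ∑ e, (∑ f, ind (lb ω f = 0) (ind (lb ω e ≠ 0)
        (ind (Top M (Vv x y ω) e ∧ Sec M (Vv x y ω) e f) (Vv x y ω e : ℝ))) +
      ind (lb ω e ≠ 0) (ind (Top M (Vv x y ω) e ∧ ∀ f, ¬ Sec M (Vv x y ω) e f)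
        (Vv x y ω e : ℝ))) := by
    rw [Finset.sum_comm, Finset.sum_comm (s := (Finset.univ : Finset (Om E))),
      Finset.mul_sum, Finset.mul_sum]
    apply Finset.sum_le_sum
    intro e _
    rw [Finset.sum_add_distrib, Finset.sum_add_distrib, Finset.sum_comm,
      Finset.sum_comm (s := (Finset.univ : Finset (Om E))), mul_add, mul_add]
    apply add_le_add
    · rw [Finset.mul_sum, Finset.mul_sum]
      apply Finset.sum_le_sum
      intro f _
      exact (h4 e f).ge
    · have h9 : 0 ≤ ∑ ω : Om E, ind (lb ω e ≠ 0) (ind (Top M (Vv x y ω) e ∧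
          ∀ f, ¬ Sec M (Vv x y ω) e f) (Vv x y ω e : ℝ)) :=
        Finset.sum_nonneg fun ω _ => ind_nonneg (ind_nonneg (NNReal.coe_nonneg _))
      have := h5 e
      linarith
  have h9 : ∑ ω : Om E, ∑ e, (∑ f, ind (lb ω f = 0) (ind (lb ω e ≠ 0)
        (ind (Top M (Vv x y ω) e ∧ Sec M (Vv x y ω) e f) (Vv x y ω e : ℝ))) +
      ind (lb ω e ≠ 0) (ind (Top M (Vv x y ω) e ∧ ∀ f, ¬ Sec M (Vv x y ω) e f)
        (Vv x y ω e : ℝ))) ≤
      ∑ ω : Om E, ∑ e, ind (Top M (Vv x y ω) e ∧ lb ω e ≠ 0 ∧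
        ∀ f, Sec M (Vv x y ω) e f → lb ω f = 0) (Vv x y ω e : ℝ) :=
    Finset.sum_le_sum fun ω _ => Finset.sum_le_sum fun e _ => h3 ω e
  linarith

end Vale.Agent.P331
end
end
end

section

section

section

/-!
# The rule and its competitive ratio
-/

namespace Vale.Agent.P331

open MeasureTheory Set
open scoped ENNReal NNReal Classical

set_option linter.unusedSectionVars false

section real

variable {E : Type*} [Fintype E] {M : Matroid E}

/-- The real inequality behind the theorem. -/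
theorem core_real (hM : M.E = univ) (L : ℕ) (hr : M.eRank ≤ ((2 ^ 2 ^ L : ℕ) : ℕ∞))
    (x y : E → ℝ≥0) (l : Mode L → Om E → List E)
    (hnd : ∀ μ ω, (l μ ω).Nodup) (hall : ∀ μ ω e, e ∈ l μ ω) :
    ∑ ω : Om E, ∑ e, ind (Gr M (Vv x y ω) e) (Vv x y ω e : ℝ) ≤
      ∑ μ : Mode L, ∑ ω, gg M L x y l μ ω := by
  -- label 3
  have h1 : 4 * ∑ ω : Om E, ∑ e, ind (lb ω e = 3) (ind (Gr M (Vv x y ω) e) (Vv x y ω e : ℝ)) =
      ∑ ω : Om E, ∑ e, ind (Gr M (Vv x y ω) e) (Vv x y ω e : ℝ) := by
    rw [Finset.sum_comm, Finset.mul_sum, Finset.sum_comm (s := (Finset.univ : Finset (Om E)))]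
    apply Finset.sum_congr rfl
    intro e _
    apply four_mul_sum_ind e 3 (fun ω : Om E => ind (Gr M (Vv x y ω) e) (Vv x y ω e : ℝ))
    intro r ω
    rw [rot_V]
  -- split
  have h2 : ∑ ω : Om E, ∑ e, ind (lb ω e = 3) (ind (Gr M (Vv x y ω) e) (Vv x y ω e : ℝ)) ≤
      ∑ ω : Om E, ∑ e, ind ((lb ω e = 3 ∧ win (2 ^ L) (mm M x y ω) (Vv x y ω e)) ∧
        Gr M (Vv x y ω) e) (Vv x y ω e : ℝ) +
      ∑ ω : Om E, ∑ e, ind (lb ω e = 3 ∧ Gr M (Vv x y ω) e ∧
        Vv x y ω e ≤ mm M x y ω / 2 ^ (2 ^ L)) (Vv x y ω e : ℝ) +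
      ∑ ω : Om E, ∑ e, ind (lb ω e = 3 ∧ Gr M (Vv x y ω) e ∧
        mm M x y ω < Vv x y ω e) (Vv x y ω e : ℝ) := by
    rw [← Finset.sum_add_distrib, ← Finset.sum_add_distrib]
    apply Finset.sum_le_sum
    intro ω _
    rw [← Finset.sum_add_distrib, ← Finset.sum_add_distrib]
    apply Finset.sum_le_sum
    intro e _
    have hv : (0 : ℝ) ≤ (Vv x y ω e : ℝ) := NNReal.coe_nonneg _
    have n1 := ind_nonneg (P := (lb ω e = 3 ∧ win (2 ^ L) (mm M x y ω) (Vv x y ω e)) ∧
        Gr M (Vv x y ω) e) hv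
    have n2 := ind_nonneg (P := lb ω e = 3 ∧ Gr M (Vv x y ω) e ∧
        Vv x y ω e ≤ mm M x y ω / 2 ^ (2 ^ L)) hv
    have n3 := ind_nonneg (P := lb ω e = 3 ∧ Gr M (Vv x y ω) e ∧
        mm M x y ω < Vv x y ω e) hv
    by_cases a1 : lb ω e = 3
    · rw [ind_pos a1]
      by_cases a2 : Gr M (Vv x y ω) e
      · rw [ind_pos a2]
        by_cases a3 : mm M x y ω < Vv x y ω e
        · rw [ind_pos (P := lb ω e = 3 ∧ Gr M (Vv x y ω) e ∧
            mm M x y ω < Vv x y ω e) ⟨a1, a2, a3⟩]
          linarith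
        · by_cases a4 : Vv x y ω e ≤ mm M x y ω / 2 ^ (2 ^ L)
          · rw [ind_pos (P := lb ω e = 3 ∧ Gr M (Vv x y ω) e ∧
              Vv x y ω e ≤ mm M x y ω / 2 ^ (2 ^ L)) ⟨a1, a2, a4⟩]
            linarith
          · rw [ind_pos (P := (lb ω e = 3 ∧ win (2 ^ L) (mm M x y ω) (Vv x y ω e)) ∧
              Gr M (Vv x y ω) e) ⟨⟨a1, not_le.1 a4, not_lt.1 a3⟩, a2⟩]
            linarith
      · rw [ind_neg a2]; linarith
    · rw [ind_neg a1]; linarith
  have h3 := step_flip (M := M) L x y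
  have h4 := loss_small hM L hr x y
  have h5 := loss_large hM x y
  -- sums over the copies
  have h6 : 4 * ∑ ω, X0 M L x y ω ≤ ∑ w : Fin 8, ∑ ω, gg M L x y l (Sum.inl w) ω +
      4 * ∑ ω, BB M L x y (fun i => i + 1) ω := by
    have : ∑ _w : Fin 8, ∑ ω, X0 M L x y ω ≤ ∑ w : Fin 8,
        (2 * ∑ ω, gg M L x y l (Sum.inl w) ω + ∑ ω, BB M L x y (fun i => i + 1) ω) := by
      apply Finset.sum_le_sum
      intro w _
      rw [Finset.mul_sum, ← Finset.sum_add_distrib]
      apply Finset.sum_le_sum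
      intro ω _
      exact step_class hM L x y l hall w ω
    rw [Finset.sum_add_distrib, ← Finset.mul_sum, Finset.sum_const, Finset.sum_const,
      Finset.card_univ, Fintype.card_fin, nsmul_eq_mul, nsmul_eq_mul] at this
    push_cast at this
    linarith
  have h7 : 4 * ∑ ω, BB M L x y (fun i => i + 1) ω ≤
      ∑ w : Fin 4, (∑ j : Fin L, ∑ p : Fin 2, ∑ ω, gg M L x y l (Sum.inr (Sum.inl (j, p, w))) ω +
        ∑ ω, gg M L x y l (Sum.inr (Sum.inr (Sum.inl w))) ω) := by
    have : ∑ _w : Fin 4, ∑ ω, BB M L x y (fun i => i + 1) ω ≤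
      ∑ w : Fin 4, (∑ j : Fin L, ∑ p : Fin 2, ∑ ω, gg M L x y l (Sum.inr (Sum.inl (j, p, w))) ω +
        ∑ ω, gg M L x y l (Sum.inr (Sum.inr (Sum.inl w))) ω) :=
      Finset.sum_le_sum fun w _ => telescope hM L x y l hnd hall w
    rw [Finset.sum_const, Finset.card_univ, Fintype.card_fin, nsmul_eq_mul] at this
    push_cast at this
    linarith
  have h8 : 81 * ∑ ω : Om E, (mv M (Vv x y ω) : ℝ) ≤ 16 * ∑ w : Fin 27, ∑ ω,
      (gg M L x y l (Sum.inr (Sum.inr (Sum.inr (Sum.inl w)))) ω +
      gg M L x y l (Sum.inr (Sum.inr (Sum.inr (Sum.inr w)))) ω) := by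
    have : ∑ _w : Fin 27, 3 * ∑ ω : Om E, (mv M (Vv x y ω) : ℝ) ≤ ∑ w : Fin 27, 16 * ∑ ω,
      (gg M L x y l (Sum.inr (Sum.inr (Sum.inr (Sum.inl w)))) ω +
      gg M L x y l (Sum.inr (Sum.inr (Sum.inr (Sum.inr w)))) ω) :=
      Finset.sum_le_sum fun w _ => max_avg hM L x y l hnd hall w
    rw [Finset.sum_const, Finset.card_univ, Fintype.card_fin, nsmul_eq_mul,
      ← Finset.mul_sum] at this
    push_cast at this
    linarith
  have h9 : 0 ≤ ∑ w : Fin 27, ∑ ω,
      (gg M L x y l (Sum.inr (Sum.inr (Sum.inr (Sum.inl w)))) ω +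
      gg M L x y l (Sum.inr (Sum.inr (Sum.inr (Sum.inr w)))) ω) := by
    apply Finset.sum_nonneg
    intro w _
    apply Finset.sum_nonneg
    intro ω _
    exact add_nonneg (gain_nonneg _ _ _ _ _ _ _) (gain_nonneg _ _ _ _ _ _ _)
  have h10 : ∑ μ : Mode L, ∑ ω, gg M L x y l μ ω =
      ∑ w : Fin 8, ∑ ω, gg M L x y l (Sum.inl w) ω +
      (∑ w : Fin 4, (∑ j : Fin L, ∑ p : Fin 2,
        ∑ ω, gg M L x y l (Sum.inr (Sum.inl (j, p, w))) ω +
        ∑ ω, gg M L x y l (Sum.inr (Sum.inr (Sum.inl w))) ω) +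
      ∑ w : Fin 27, ∑ ω,
      (gg M L x y l (Sum.inr (Sum.inr (Sum.inr (Sum.inl w)))) ω +
      gg M L x y l (Sum.inr (Sum.inr (Sum.inr (Sum.inr w)))) ω)) := by
    rw [Fintype.sum_sum_type, Fintype.sum_sum_type, Fintype.sum_sum_type, Fintype.sum_sum_type,
      Fintype.sum_prod_type]
    have e1 : ∑ j : Fin L, ∑ q : Fin 2 × Fin 4, ∑ ω, gg M L x y l (Sum.inr (Sum.inl (j, q))) ω =
        ∑ w : Fin 4, ∑ j : Fin L, ∑ p : Fin 2,
          ∑ ω, gg M L x y l (Sum.inr (Sum.inl (j, p, w))) ω := by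
      rw [Finset.sum_comm (s := (Finset.univ : Finset (Fin 4)))]
      apply Finset.sum_congr rfl
      intro j _
      rw [Fintype.sum_prod_type, Finset.sum_comm]
    rw [e1, Finset.sum_add_distrib]
    simp only [Finset.sum_add_distrib]
    ring
  rw [h10]
  linarith

end real

section rule

variable {E : Type} [Fintype E] {M : Matroid E}

/-- The uniform probability measure on a finite type. -/
noncomputable def unif (S : Type) [Fintype S] [MeasurableSpace S] : Measure S :=
  (Fintype.card S : ℝ≥0∞)⁻¹ • Measure.count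

theorem unif_singleton (S : Type) [Fintype S] [MeasurableSpace S] [MeasurableSingletonClass S]
    (r : S) : unif S {r} = (Fintype.card S : ℝ≥0∞)⁻¹ := by
  unfold unif
  rw [Measure.smul_apply, Measure.count_singleton, smul_eq_mul, mul_one]

theorem unif_prob (S : Type) [Fintype S] [Nonempty S] [MeasurableSpace S]
    [MeasurableSingletonClass S] : IsProbabilityMeasure (unif S) := by
  constructor
  unfold unif
  rw [Measure.smul_apply, Measure.count_univ, smul_eq_mul, ENat.card_eq_coe_fintype_card]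
  rw [ENat.toENNReal_coe]
  apply ENNReal.inv_mul_cancel
  · exact_mod_cast Fintype.card_ne_zero
  · exact ENNReal.natCast_ne_top _

/-- The rule. -/
noncomputable def theRule (hM : M.E = univ) (L : ℕ) : OnlineRule M :=
  letI : MeasurableSpace (Mode L × (E → Fin 4)) := ⊤
  haveI : MeasurableSingletonClass (Mode L × (E → Fin 4)) := ⟨fun _ => trivial⟩
  haveI : IsProbabilityMeasure (unif (Mode L × (E → Fin 4))) := unif_prob _
  mkRule hM (Mode L × (E → Fin 4)) (unif _)
    (fun r s e t => cand M L (mx M r.2 s) r.2 s e t r.1)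
    (fun r s _ t => con L (mx M r.2 s) r.2 s t r.1)
    (fun r e => measurableSet_cand M L r.2 measurable_fst
      ((measurable_mx M r.2).comp measurable_fst)
      ((measurable_pi_apply e).comp measurable_snd) e r.1)
    (fun r e f => measurableSet_con L r.2 measurable_fst
      ((measurable_mx M r.2).comp measurable_fst)
      ((measurable_pi_apply e).comp measurable_snd) f r.1)

theorem Gr_opt (hM : M.E = univ) (v : E → ℝ≥0) :
    opt M v ≤ ENNReal.ofReal (∑ e, ind (Gr M v e) (v e : ℝ)) := by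
  rw [sum_ind_eq]
  have h1 : ∑ e ∈ Finset.univ.filter (Gr M v), (v e : ℝ) =
      ((∑ e ∈ Finset.univ.filter (Gr M v), v e : ℝ≥0) : ℝ) := by push_cast; rfl
  rw [h1, ENNReal.ofReal_coe_nnreal]
  unfold opt
  apply iSup_le
  intro I
  apply iSup_le
  intro hI
  have := sum_le_greedy hM (key v) (v := v) (fun e f h => le_of_key_lt h) I
    (Finset.univ.filter (Gr M v)) hI
    (fun g hg => Finset.mem_filter.2 ⟨Finset.mem_univ _, hg⟩)
  refine this.trans (le_of_eq ?_)
  push_cast
  rfl

theorem sum_om {A : Type*} [AddCommMonoid A] (F : (E → Fin 4) → (E → Bool) → A) :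
    ∑ ℓ : E → Fin 4, ∑ c : E → Bool, F ℓ c = ∑ ω : Om E, F (lb ω) (cn ω) := by
  rw [← Fintype.sum_prod_type' (f := F)]
  exact (Equiv.sum_comp (Equiv.arrowProdEquivProdArrow E (fun _ => Fin 4) (fun _ => Bool))
    (fun p : (E → Fin 4) × (E → Bool) => F p.1 p.2)).symm

/-- The rule is competitive. -/
theorem theRule_competitive (hM : M.E = univ) (L : ℕ)
    (hr : M.eRank ≤ ((2 ^ 2 ^ L : ℕ) : ℕ∞)) :
    (theRule hM L).IsCompetitive ((8 * (L : ℝ≥0∞) + 66)⁻¹) := by
  let _ : MeasurableSpace (Mode L × (E → Fin 4)) := ⊤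
  have _ : MeasurableSingletonClass (Mode L × (E → Fin 4)) := ⟨fun _ => trivial⟩
  let _ : Fintype (theRule hM L).Seed := (inferInstance : Fintype (Mode L × (E → Fin 4)))
  have _ : MeasurableSingletonClass (theRule hM L).Seed := ⟨fun _ => trivial⟩
  apply isCompetitive_of_core (theRule hM L)
  · intro r
    exact unif_singleton (Mode L × (E → Fin 4)) r
  · intro x y o
    -- orders
    set l : Mode L → Om E → List E := fun μ ω => (o (μ, lb ω) (cn ω)).1.reverse with hl
    have hnd : ∀ μ ω, (l μ ω).Nodup := fun μ ω => List.nodup_reverse.2 (o (μ, lb ω) (cn ω)).2.1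
    have hall : ∀ μ ω e, e ∈ l μ ω := fun μ ω e =>
      List.mem_reverse.2 ((o (μ, lb ω) (cn ω)).2.2 e)
    have hcard : (8 * (L : ℝ≥0∞) + 66)⁻¹ * (Fintype.card (theRule hM L).Seed : ℝ≥0∞) =
        (Fintype.card (E → Fin 4) : ℝ≥0∞) := by
      have h1 : Fintype.card (theRule hM L).Seed =
          (8 * L + 66) * Fintype.card (E → Fin 4) := by
        change Fintype.card (Mode L × (E → Fin 4)) = _
        rw [Fintype.card_prod]
        congr 1
        simp only [Fintype.card_sum, Fintype.card_prod, Fintype.card_fin]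
        ring
      rw [h1]
      push_cast
      rw [← mul_assoc, ENNReal.inv_mul_cancel, one_mul]
      · positivity
      · finiteness
    rw [hcard]
    have hLHS : (Fintype.card (E → Fin 4) : ℝ≥0∞) * ∑ c : E → Bool, opt M (sel c y x) =
        ∑ ω : Om E, opt M (Vv x y ω) := by
      have := sum_om (fun (_ : E → Fin 4) (c : E → Bool) => opt M (sel c y x))
      rw [Finset.sum_const, Finset.card_univ, nsmul_eq_mul] at this
      exact this
    rw [hLHS]
    have hRHS : ∑ r : (theRule hM L).Seed, ∑ c : E → Bool,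
        (theRule hM L).gain r (sel c x y) (sel c y x) (o r c) =
        ∑ μ : Mode L, ∑ ω : Om E, ENNReal.ofReal (gg M L x y l μ ω) := by
      change ∑ r : Mode L × (E → Fin 4), ∑ c : E → Bool,
        (theRule hM L).gain r (sel c x y) (sel c y x) (o r c) = _
      rw [Fintype.sum_prod_type]
      apply Finset.sum_congr rfl
      intro μ _
      rw [sum_om (fun (ℓ : E → Fin 4) (c : E → Bool) =>
        (theRule hM L).gain (μ, ℓ) (sel c x y) (sel c y x) (o (μ, ℓ) c))]
      apply Finset.sum_congr rfl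
      intro ω _
      unfold OnlineRule.gain gg
      have hacc : accepted ((theRule hM L).accept (μ, lb ω) (sel (cn ω) x y))
          (history (sel (cn ω) y x) (o (μ, lb ω) (cn ω))) =
          runM M L (mm M x y ω) (lb ω) (Sv x y ω) (Vv x y ω) μ (l μ ω) := by
        change accepted (stateDec M
          (fun e t => cand M L (mx M (lb ω) (sel (cn ω) x y)) (lb ω) (sel (cn ω) x y) e t μ)
          (fun _ t => con L (mx M (lb ω) (sel (cn ω) x y)) (lb ω) (sel (cn ω) x y) t μ)) _ = _
        rw [accepted_stateDec, history, ← List.map_reverse, stateRun_map]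
        rfl
      rw [hacc]
      have h1 : ∑ e ∈ runM M L (mm M x y ω) (lb ω) (Sv x y ω) (Vv x y ω) μ (l μ ω),
          (Vv x y ω e : ℝ) = ((∑ e ∈ runM M L (mm M x y ω) (lb ω) (Sv x y ω) (Vv x y ω) μ
            (l μ ω), Vv x y ω e : ℝ≥0) : ℝ) := by push_cast; rfl
      rw [h1, ENNReal.ofReal_coe_nnreal]
      push_cast
      rfl
    rw [hRHS]
    have hreal := core_real hM L hr x y l hnd hall
    calc ∑ ω : Om E, opt M (Vv x y ω)
        ≤ ∑ ω : Om E, ENNReal.ofReal (∑ e, ind (Gr M (Vv x y ω) e) (Vv x y ω e : ℝ)) :=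
          Finset.sum_le_sum fun ω _ => Gr_opt hM _
      _ = ENNReal.ofReal (∑ ω : Om E, ∑ e, ind (Gr M (Vv x y ω) e) (Vv x y ω e : ℝ)) := by
          rw [ENNReal.ofReal_sum_of_nonneg]
          intro ω _
          exact Finset.sum_nonneg fun e _ => ind_nonneg (NNReal.coe_nonneg _)
      _ ≤ ENNReal.ofReal (∑ μ : Mode L, ∑ ω, gg M L x y l μ ω) := ENNReal.ofReal_le_ofReal hreal
      _ = ∑ μ : Mode L, ∑ ω : Om E, ENNReal.ofReal (gg M L x y l μ ω) := by
          rw [ENNReal.ofReal_sum_of_nonneg]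
          · apply Finset.sum_congr rfl
            intro μ _
            rw [ENNReal.ofReal_sum_of_nonneg]
            intro ω _
            exact gain_nonneg _ _ _ _ _ _ _
          · intro μ _
            exact Finset.sum_nonneg fun ω _ => gain_nonneg _ _ _ _ _ _ _

end rule

end Vale.Agent.P331
end
end
end

section

/-!
# One-sample matroid prophet inequality, exchange-symmetric orders: the virtual sample process

For a candidate `z` with value `v` the virtual sample starts as the sample; when an active element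
`y` arrives its sample value is replaced by its value, unless `y` is pivotal, that is `z` is spanned
by `y` and the elements which are heavier than `z` in the virtual sample.
-/

namespace Vale.Agent.P331.Osel

open Set Vale.Agent.P331
open scoped NNReal ENNReal Classical

set_option linter.all false

variable {E : Type*} [Fintype E]

/-- The key of the element `e` with value `a`. -/
noncomputable def kp (e : E) (a : ℝ≥0) : ℝ≥0 ×ₗ ℕ := toLex (a, idx E e)

theorem key_eq (v : E → ℝ≥0) (e : E) : key v e = kp e (v e) := rfl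

theorem kp_inj {e f : E} {a b : ℝ≥0} (h : kp e a = kp f b) : e = f := by
  have h1 : (a, idx E e) = (b, idx E f) := toLex.injective h
  exact idx_inj (Prod.ext_iff.1 h1).2

theorem le_of_kp_lt {e f : E} {a b : ℝ≥0} (h : kp e a < kp f b) : a ≤ b := by
  unfold kp at h
  rw [Prod.Lex.toLex_lt_toLex] at h
  rcases h with h | h
  · exact h.le
  · exact h.1.le

/-- The elements other than `z` that are heavier than `(z, v)`, for the values `s`. -/
def HV (z : E) (v : ℝ≥0) (s : E → ℝ≥0) : Set E := {x | x ≠ z ∧ kp z v < kp x (s x)}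

theorem HV_update_subset (z : E) (v : ℝ≥0) (s : E → ℝ≥0) (y : E) (a : ℝ≥0) :
    HV z v (Function.update s y a) ⊆ insert y (HV z v s) := by
  intro x hx
  by_cases h : x = y
  · exact Or.inl h
  · refine Or.inr ⟨hx.1, ?_⟩
    have h2 := hx.2
    rwa [Function.update_of_ne h] at h2

theorem insert_HV_update (z : E) (v : ℝ≥0) (s : E → ℝ≥0) (y : E) (a : ℝ≥0) :
    insert y (HV z v (Function.update s y a)) = insert y (HV z v s) := by
  ext x
  by_cases h : x = y
  · simp [h]
  · simp only [mem_insert_iff, h, false_or, HV, Set.mem_ofPred_eq, Function.update_of_ne h]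

variable (M : Matroid E) (act : E → Prop)

/-- The virtual sample of `(z, v)` after a history (most recent arrival first). -/
noncomputable def sg (z : E) (v : ℝ≥0) (s : E → ℝ≥0) : List (E × ℝ≥0) → E → ℝ≥0
  | [] => s
  | x :: h =>
    if act x.1 ∧ x.1 ≠ z ∧ z ∉ M.closure (insert x.1 (HV z v (sg z v s h))) then
      Function.update (sg z v s h) x.1 x.2
    else sg z v s h

/-- The arrival `x` after the history `h` is rejected by the candidate `(z, v)`. -/
def rej (z : E) (v : ℝ≥0) (s : E → ℝ≥0) (h : List (E × ℝ≥0)) (x : E × ℝ≥0) : Prop :=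
  act x.1 ∧ x.1 ≠ z ∧ kp z v < kp x.1 x.2 ∧ z ∈ M.closure (insert x.1 (HV z v (sg M act z v s h)))

/-- No arrival of the history is rejected by the candidate `(z, v)`. -/
def cln (z : E) (v : ℝ≥0) (s : E → ℝ≥0) : List (E × ℝ≥0) → Prop
  | [] => True
  | x :: h => cln z v s h ∧ ¬ rej M act z v s h x

/-- `z` is not spanned by the heavier elements of the sample. -/
def fresh (z : E) (v : ℝ≥0) (s : E → ℝ≥0) : Prop := z ∉ M.closure (HV z v s)

/-- The decisions of the rule. -/
def acc (s : E → ℝ≥0) (h : List (E × ℝ≥0)) (x : E × ℝ≥0) : Prop :=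
  act x.1 ∧ fresh M x.1 x.2 s ∧ cln M act x.1 x.2 s h ∧
    ∀ y ∈ h, act y.1 → fresh M y.1 y.2 s → ¬ rej M act y.1 y.2 s h x

variable {M act}

/-- The invariant of the process. -/
theorem fresh_sg {z : E} {v : ℝ≥0} {s : E → ℝ≥0} (hf : fresh M z v s) (h : List (E × ℝ≥0)) :
    z ∉ M.closure (HV z v (sg M act z v s h)) := by
  induction h with
  | nil => exact hf
  | cons x h ih =>
    rw [sg]
    split_ifs with hx
    · intro hz
      exact hx.2.2 (M.closure_subset_closure (HV_update_subset z v _ x.1 x.2) hz)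
    · exact ih

/-- The history of the values `v` for the list `l` of arrivals (most recent first). -/
def hs (v : E → ℝ≥0) (l : List E) : List (E × ℝ≥0) := l.map fun f => (f, v f)

omit [Fintype E] in
theorem exists_hs (h : List (E × ℝ≥0)) (hnd : (h.map Prod.fst).Nodup) :
    ∃ v : E → ℝ≥0, h = hs v (h.map Prod.fst) := by
  refine ⟨fun e => if hx : ∃ a, (e, a) ∈ h then hx.choose else 0, ?_⟩
  unfold hs
  rw [List.map_map]
  symm
  rw [List.map_congr_left (g := id), List.map_id]
  intro x hx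
  have hex : ∃ a, (x.1, a) ∈ h := ⟨x.2, hx⟩
  have h1 : (x.1, hex.choose) = x :=
    List.inj_on_of_nodup_map hnd hex.choose_spec hx rfl
  simp only [Function.comp, id]
  rw [dif_pos hex]
  exact h1

/-- An element which is not in the history keeps its sample value. -/
theorem sg_of_notMem {z : E} {v : ℝ≥0} {s u : E → ℝ≥0} {l : List E} {y : E} (hy : y ∉ l) :
    sg M act z v s (hs u l) y = s y := by
  induction l with
  | nil => rfl
  | cons e l ih =>
    have h1 : y ≠ e := fun h => hy (h ▸ List.mem_cons_self)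
    have h2 := ih fun h => hy (List.mem_cons_of_mem _ h)
    change sg M act z v s ((e, u e) :: hs u l) y = s y
    rw [sg]
    split_ifs with hx
    · rw [Function.update_of_ne h1]; exact h2
    · exact h2

theorem sg_cons_of_ne {z : E} {v : ℝ≥0} {s u : E → ℝ≥0} {l : List E} {y e : E} (h1 : y ≠ e) :
    sg M act z v s (hs u (e :: l)) y = sg M act z v s (hs u l) y := by
  change sg M act z v s ((e, u e) :: hs u l) y = _
  rw [sg]
  split_ifs with hx
  · rw [Function.update_of_ne h1]
  · rfl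

/-- An active arrival which is not rejected and heavier than `(z, v)` enters the virtual sample. -/
theorem sg_cons_self {z : E} {v : ℝ≥0} {s u : E → ℝ≥0} {l : List E} {y : E} (ha : act y)
    (hyz : y ≠ z) (hk : kp z v < kp y (u y)) (hr : ¬ rej M act z v s (hs u l) (y, u y)) :
    sg M act z v s (hs u (y :: l)) y = u y := by
  change sg M act z v s ((y, u y) :: hs u l) y = _
  rw [sg, if_pos]
  · simp
  · refine ⟨ha, hyz, fun hz => hr ⟨ha, hyz, hk, hz⟩⟩

theorem sg_of_cln {z : E} {v : ℝ≥0} {s u : E → ℝ≥0} {l : List E} (hnd : l.Nodup)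
    (hc : cln M act z v s (hs u l)) {y : E} (hy : y ∈ l) (ha : act y) (hyz : y ≠ z)
    (hk : kp z v < kp y (u y)) : sg M act z v s (hs u l) y = u y := by
  induction l with
  | nil => simp at hy
  | cons e l ih =>
    have hc' : cln M act z v s (hs u l) ∧ ¬ rej M act z v s (hs u l) (e, u e) := hc
    rcases List.mem_cons.1 hy with rfl | hy'
    · exact sg_cons_self ha hyz hk hc'.2
    · have hne : y ≠ e := fun h => (List.nodup_cons.1 hnd).1 (h ▸ hy')
      rw [sg_cons_of_ne hne]
      exact ih (List.nodup_cons.1 hnd).2 hc'.1 hy'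

/-- The accepted elements are active and fresh. -/
theorem of_mem_accepted {s u : E → ℝ≥0} {l : List E} {z : E}
    (hz : z ∈ accepted (acc M act s) (hs u l)) : z ∈ l ∧ act z ∧ fresh M z (u z) s := by
  induction l with
  | nil => exact absurd hz (by simp [hs, accepted])
  | cons e l ih =>
    change z ∈ accepted (acc M act s) ((e, u e) :: hs u l) at hz
    rw [accepted] at hz
    split_ifs at hz with h
    · rcases Finset.mem_insert.1 hz with rfl | hz'
      · exact ⟨List.mem_cons_self, h.1, h.2.1⟩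
      · obtain ⟨h1, h2⟩ := ih hz'
        exact ⟨List.mem_cons_of_mem _ h1, h2⟩
    · obtain ⟨h1, h2⟩ := ih hz
      exact ⟨List.mem_cons_of_mem _ h1, h2⟩

/-- The heavier accepted elements are in the virtual sample of every accepted element. -/
theorem sg_of_accepted {s u : E → ℝ≥0} {l : List E} (hnd : l.Nodup) {z y : E}
    (hz : z ∈ accepted (acc M act s) (hs u l)) (hy : y ∈ accepted (acc M act s) (hs u l))
    (hk : kp z (u z) < kp y (u y)) : sg M act z (u z) s (hs u l) y = u y := by
  induction l with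
  | nil => exact absurd hz (by simp [hs, accepted])
  | cons e l ih =>
    have hyz : y ≠ z := by
      rintro rfl; exact lt_irrefl _ hk
    have hnd' := List.nodup_cons.1 hnd
    change z ∈ accepted (acc M act s) ((e, u e) :: hs u l) at hz
    change y ∈ accepted (acc M act s) ((e, u e) :: hs u l) at hy
    rw [accepted] at hz hy
    split_ifs at hz hy with h
    · rcases Finset.mem_insert.1 hz with hze | hz'
      · rcases Finset.mem_insert.1 hy with hye | hy'
        · exact absurd (hye.trans hze.symm) hyz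
        · subst hze
          obtain ⟨h1, h2, h3⟩ := of_mem_accepted hy'
          rw [sg_cons_of_ne hyz]
          exact sg_of_cln hnd'.2 h.2.2.1 h1 h2 hyz hk
      · obtain ⟨h1, h2, h3⟩ := of_mem_accepted hz'
        rcases Finset.mem_insert.1 hy with hye | hy'
        · subst hye
          refine sg_cons_self h.1 hyz hk ?_
          exact h.2.2.2 (z, u z) (List.mem_map.2 ⟨z, h1, rfl⟩) h2 h3
        · have hye : y ≠ e := fun hh => hnd'.1 (hh ▸ (of_mem_accepted hy').1)
          rw [sg_cons_of_ne hye]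
          exact ih hnd'.2 hz' hy'
    · have hye : y ≠ e := fun hh => hnd'.1 (hh ▸ (of_mem_accepted hy).1)
      rw [sg_cons_of_ne hye]
      exact ih hnd'.2 hz hy

/-- The accepted set is independent. -/
theorem indep_accepted (hM : M.E = univ) (s : E → ℝ≥0) (h : List (E × ℝ≥0))
    (hnd : (h.map Prod.fst).Nodup) : M.Indep (accepted (acc M act s) h : Set E) := by
  obtain ⟨u, hu⟩ := exists_hs h hnd
  set l := h.map Prod.fst with hl
  rw [hu]
  set A := accepted (acc M act s) (hs u l) with hA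
  have h1 : ∀ e ∈ A, e ∉ M.closure (∅ ∪ {f | f ∈ A ∧ key u e < key u f}) := by
    intro e he hcl
    obtain ⟨h2, h3, h4⟩ := of_mem_accepted he
    refine fresh_sg (act := act) h4 (hs u l) (M.closure_subset_closure ?_ hcl)
    rw [empty_union]
    rintro f ⟨hf, hk⟩
    refine ⟨?_, ?_⟩
    · rintro rfl; exact lt_irrefl _ hk
    · rw [sg_of_accepted hnd he hf hk]
      exact hk
  have h2 := eRk_union_eq hM (key u) (key_inj u) ∅ A h1
  rw [empty_union, M.eRk_empty, zero_add] at h2
  have h3 : M.eRk (A : Set E) = (A : Set E).encard := by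
    rw [h2, Set.encard_coe_eq_coe_finsetCard]
  exact (Matroid.indep_iff_eRk_eq_encard_of_finite A.finite_toSet).2 h3

end Vale.Agent.P331.Osel
end

section

/-!
# One-sample matroid prophet inequality, exchange-symmetric orders: the pathwise inequality
-/

namespace Vale.Agent.P331.Osel

open Set Vale.Agent.P331
open scoped NNReal ENNReal Classical

set_option linter.all false

variable {E : Type*} [Fintype E]

/-- `a` if `P` holds, `0` otherwise. -/
noncomputable def ie (P : Prop) (a : ℝ≥0∞) : ℝ≥0∞ := if P then a else 0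

theorem ie_pos {P : Prop} (h : P) (a : ℝ≥0∞) : ie P a = a := if_pos h

theorem ie_neg {P : Prop} (h : ¬ P) (a : ℝ≥0∞) : ie P a = 0 := if_neg h

theorem ie_mono {P Q : Prop} {a b : ℝ≥0∞} (h : P → Q) (hab : P → a ≤ b) : ie P a ≤ ie Q b := by
  by_cases hP : P
  · rw [ie_pos hP, ie_pos (h hP)]; exact hab hP
  · rw [ie_neg hP]; exact zero_le

theorem ie_congr {P Q : Prop} {a b : ℝ≥0∞} (h : P ↔ Q) (hab : Q → a = b) : ie P a = ie Q b := by
  by_cases hQ : Q
  · rw [ie_pos (h.2 hQ), ie_pos hQ, hab hQ]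
  · rw [ie_neg (fun h' => hQ (h.1 h')), ie_neg hQ]

theorem ie_add_le {P Q R : Prop} {a : ℝ≥0∞} (h1 : P → R) (h2 : Q → R) (h3 : ¬ (P ∧ Q)) :
    ie P a + ie Q a ≤ ie R a := by
  by_cases hP : P
  · have hQ : ¬ Q := fun hQ => h3 ⟨hP, hQ⟩
    rw [ie_pos hP, ie_neg hQ, ie_pos (h1 hP), add_zero]
  · rw [ie_neg hP, zero_add]
    exact ie_mono h2 fun _ => le_rfl

/-- The elements that arrive before `e` (lists of arrivals, most recent first). -/
noncomputable def bef : List E → E → List E
  | [], _ => []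
  | x :: l, e => if x = e then l else bef l e

theorem bef_subset {l : List E} {e y : E} (h : y ∈ bef l e) : y ∈ l := by
  induction l with
  | nil => exact h
  | cons x l ih =>
    rw [bef] at h
    split_ifs at h with hx
    · exact List.mem_cons_of_mem _ h
    · exact List.mem_cons_of_mem _ (ih h)

theorem bef_nodup {l : List E} (hnd : l.Nodup) (e : E) : (bef l e).Nodup := by
  induction l with
  | nil => simp [bef]
  | cons x l ih =>
    rw [bef]
    split_ifs with hx
    · exact (List.nodup_cons.1 hnd).2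
    · exact ih (List.nodup_cons.1 hnd).2

theorem notMem_bef {l : List E} (hnd : l.Nodup) (e : E) : e ∉ bef l e := by
  induction l with
  | nil => simp [bef]
  | cons x l ih =>
    rw [bef]
    split_ifs with hx
    · subst hx; exact (List.nodup_cons.1 hnd).1
    · exact ih (List.nodup_cons.1 hnd).2

theorem bef_bef {l : List E} (hnd : l.Nodup) {e y : E} (h : y ∈ bef l e) :
    bef (bef l e) y = bef l y := by
  induction l with
  | nil => rfl
  | cons x l ih =>
    have hnd' := List.nodup_cons.1 hnd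
    rw [bef] at h
    split_ifs at h with hx
    · have hxy : x ≠ y := fun hh => hnd'.1 (hh ▸ h)
      rw [bef, if_pos hx, bef, if_neg hxy]
    · have hxy : x ≠ y := fun hh => hnd'.1 (hh ▸ bef_subset h)
      rw [bef, if_neg hx, ih hnd'.2 h, bef, if_neg hxy]

theorem bef_asymm {l : List E} (hnd : l.Nodup) {e y : E} (h : y ∈ bef l e) : e ∉ bef l y := by
  intro h'
  rw [← bef_bef hnd h] at h'
  exact notMem_bef hnd e (bef_subset h')

theorem mem_of_mem_accepted {dec : List (E × ℝ≥0) → E × ℝ≥0 → Prop} {u : E → ℝ≥0} {l : List E}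
    {e : E} (he : e ∈ accepted dec (hs u l)) : e ∈ l := by
  induction l with
  | nil => exact absurd he (by simp [hs, accepted])
  | cons x l ih =>
    change e ∈ accepted dec ((x, u x) :: hs u l) at he
    rw [accepted] at he
    split_ifs at he with h
    · rcases Finset.mem_insert.1 he with rfl | he'
      · exact List.mem_cons_self
      · exact List.mem_cons_of_mem _ (ih he')
    · exact List.mem_cons_of_mem _ (ih he)

theorem mem_accepted_iff {dec : List (E × ℝ≥0) → E × ℝ≥0 → Prop} {u : E → ℝ≥0} {l : List E}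
    (hnd : l.Nodup) {e : E} (he : e ∈ l) :
    e ∈ accepted dec (hs u l) ↔ dec (hs u (bef l e)) (e, u e) := by
  induction l with
  | nil => simp at he
  | cons x l ih =>
    have hnd' := List.nodup_cons.1 hnd
    change e ∈ accepted dec ((x, u x) :: hs u l) ↔ _
    rw [accepted, bef]
    by_cases hx : x = e
    · subst hx
      rw [if_pos rfl]
      split_ifs with h
      · simp [h]
      · constructor
        · intro h'; exact absurd (mem_of_mem_accepted h') hnd'.1
        · intro h'; exact absurd h' h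
    · rw [if_neg hx]
      have he' : e ∈ l := by
        rcases List.mem_cons.1 he with h | h
        · exact absurd h.symm hx
        · exact h
      rw [← ih hnd'.2 he']
      split_ifs with h
      · rw [Finset.mem_insert]
        constructor
        · rintro (h' | h')
          · exact absurd h'.symm hx
          · exact h'
        · exact Or.inr
      · rfl

variable {M : Matroid E} {act : E → Prop}

theorem exists_rej_of_not_cln {z : E} {v : ℝ≥0} {s u : E → ℝ≥0} {l : List E} (hnd : l.Nodup)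
    (h : ¬ cln M act z v s (hs u l)) :
    ∃ y ∈ l, rej M act z v s (hs u (bef l y)) (y, u y) := by
  induction l with
  | nil => exact absurd trivial h
  | cons x l ih =>
    have hnd' := List.nodup_cons.1 hnd
    have h' : ¬ (cln M act z v s (hs u l) ∧ ¬ rej M act z v s (hs u l) (x, u x)) := h
    by_cases hc : cln M act z v s (hs u l)
    · have hr : rej M act z v s (hs u l) (x, u x) := by
        by_contra hr; exact h' ⟨hc, hr⟩
      refine ⟨x, List.mem_cons_self, ?_⟩
      rw [bef, if_pos rfl]; exact hr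
    · obtain ⟨y, hy, hr⟩ := ih hnd'.2 hc
      have hxy : x ≠ y := fun hh => hnd'.1 (hh ▸ hy)
      refine ⟨y, List.mem_cons_of_mem _ hy, ?_⟩
      rw [bef, if_neg hxy]; exact hr

/-- The candidate `z` is fresh and rejects `y` when it arrives. -/
def RR (M : Matroid E) (act : E → Prop) (s u : E → ℝ≥0) (l : List E) (z y : E) : Prop :=
  act z ∧ fresh M z (u z) s ∧ rej M act z (u z) s (hs u (bef l y)) (y, u y)

/-- A fresh active element which is not accepted has rejected an earlier arrival or is rejected by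
an earlier arrival. -/
theorem lost {s u : E → ℝ≥0} {l : List E} (hnd : l.Nodup) {e : E} (he : e ∈ l) (ha : act e)
    (hf : fresh M e (u e) s) (hne : e ∉ accepted (acc M act s) (hs u l)) :
    (∃ y, y ∈ bef l e ∧ RR M act s u l e y) ∨ (∃ z, z ∈ bef l e ∧ RR M act s u l z e) := by
  rw [mem_accepted_iff hnd he] at hne
  by_cases hc : cln M act e (u e) s (hs u (bef l e))
  · right
    have h1 : ¬ ∀ y ∈ hs u (bef l e), act y.1 → fresh M y.1 y.2 s →
        ¬ rej M act y.1 y.2 s (hs u (bef l e)) (e, u e) := fun h => hne ⟨ha, hf, hc, h⟩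
    push Not at h1
    obtain ⟨y, hy, hay, hfy, hr⟩ := h1
    obtain ⟨z, hz, rfl⟩ := List.mem_map.1 hy
    exact ⟨z, hz, hay, hfy, hr⟩
  · left
    obtain ⟨y, hy, hr⟩ := exists_rej_of_not_cln (bef_nodup hnd e) hc
    rw [bef_bef hnd hy] at hr
    exact ⟨y, hy, ha, hf, hr⟩

/-- The pathwise inequality. -/
theorem path_ineq {s u : E → ℝ≥0} {l : List E} (hnd : l.Nodup) (hall : ∀ e, e ∈ l) :
    ∑ e, ie (act e ∧ fresh M e (u e) s) (u e) ≤
      ∑ e ∈ accepted (acc M act s) (hs u l), (u e : ℝ≥0∞) +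
        ∑ z, ∑ y, ie (RR M act s u l z y) (u y) := by
  set A := accepted (acc M act s) (hs u l) with hA
  have h1 : ∀ e, ie (act e ∧ fresh M e (u e) s) (u e : ℝ≥0∞) ≤ ie (e ∈ A) (u e) +
      (∑ y, ie (y ∈ bef l e ∧ RR M act s u l e y) (u e) +
        ∑ z, ie (z ∈ bef l e ∧ RR M act s u l z e) (u e)) := by
    intro e
    by_cases h : act e ∧ fresh M e (u e) s
    · rw [ie_pos h]
      by_cases heA : e ∈ A
      · rw [ie_pos heA]; exact le_self_add
      · refine le_trans ?_ le_add_self
        rcases lost hnd (hall e) h.1 h.2 heA with ⟨y, hy⟩ | ⟨z, hz⟩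
        · refine le_trans ?_ le_self_add
          calc (u e : ℝ≥0∞) = ie (y ∈ bef l e ∧ RR M act s u l e y) (u e) := (ie_pos hy _).symm
            _ ≤ _ := Finset.single_le_sum (f := fun y => ie (y ∈ bef l e ∧ RR M act s u l e y)
                (u e : ℝ≥0∞)) (fun _ _ => zero_le) (Finset.mem_univ y)
        · refine le_trans ?_ le_add_self
          calc (u e : ℝ≥0∞) = ie (z ∈ bef l e ∧ RR M act s u l z e) (u e) := (ie_pos hz _).symm
            _ ≤ _ := Finset.single_le_sum (f := fun z => ie (z ∈ bef l e ∧ RR M act s u l z e)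
                (u e : ℝ≥0∞)) (fun _ _ => zero_le) (Finset.mem_univ z)
    · rw [ie_neg h]; exact zero_le
  refine le_trans (Finset.sum_le_sum fun e _ => h1 e) ?_
  rw [Finset.sum_add_distrib, Finset.sum_add_distrib]
  refine add_le_add (le_of_eq ?_) ?_
  · rw [← Finset.sum_subset (Finset.subset_univ A)
      (fun x _ hx => ie_neg hx (u x : ℝ≥0∞))]
    exact Finset.sum_congr rfl fun x hx => ie_pos hx _
  · rw [Finset.sum_comm (f := fun e z => ie (z ∈ bef l e ∧ RR M act s u l z e) (u e : ℝ≥0∞)),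
      ← Finset.sum_add_distrib]
    refine Finset.sum_le_sum fun z _ => ?_
    rw [← Finset.sum_add_distrib]
    refine Finset.sum_le_sum fun y _ => ?_
    have h2 : ie (y ∈ bef l z ∧ RR M act s u l z y) (u z : ℝ≥0∞) ≤
        ie (y ∈ bef l z ∧ RR M act s u l z y) (u y : ℝ≥0∞) := by
      refine ie_mono id fun h => ?_
      exact_mod_cast le_of_kp_lt h.2.2.2.2.2.1
    refine le_trans (add_le_add_left h2 _) ?_
    exact ie_add_le (fun h => h.2) (fun h => h.2) fun h => bef_asymm hnd h.1.1 h.2.1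

end Vale.Agent.P331.Osel
end

section

/-!
# One-sample matroid prophet inequality, exchange-symmetric orders: conditional coin flips
-/

namespace Vale.Agent.P331.Osel

open Set Vale.Agent.P331
open scoped NNReal ENNReal Classical

set_option linter.all false

variable {E : Type*} [Fintype E]

/-- Flip the coin of `e`. -/
noncomputable def flip (e : E) (c : E → Bool) : E → Bool := Function.update c e (!c e)

theorem flip_flip (e : E) (c : E → Bool) : flip e (flip e c) = c := by
  unfold flip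
  funext f
  by_cases h : f = e
  · subst h; simp
  · simp [h]

theorem sel_flip_ne {e f : E} (h : f ≠ e) (c : E → Bool) (x y : E → ℝ≥0) :
    sel (flip e c) x y f = sel c x y f := by
  unfold sel flip
  rw [Function.update_of_ne h]

theorem sel_flip_self (e : E) (c : E → Bool) (x y : E → ℝ≥0) :
    sel (flip e c) x y e = sel c y x e := by
  unfold sel flip
  rw [Function.update_self]
  cases c e <;> simp

theorem sel_flip (e : E) (c : E → Bool) (x y : E → ℝ≥0) :
    sel (flip e c) x y = Function.update (sel c x y) e (sel c y x e) := by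
  funext f
  by_cases h : f = e
  · subst h; rw [sel_flip_self]; simp
  · rw [sel_flip_ne h, Function.update_of_ne h]

theorem sum_invol {A : Type*} [AddCommMonoid A] (Φ : (E → Bool) → E → Bool)
    (h1 : ∀ c, Φ (Φ c) = c) (G : (E → Bool) → A) : ∑ c, G (Φ c) = ∑ c, G c :=
  Equiv.sum_comp (Function.Involutive.toPerm Φ h1) G

theorem sum_flip {A : Type*} [AddCommMonoid A] (e : E) (G : (E → Bool) → A) :
    ∑ c, G (flip e c) = ∑ c, G c := sum_invol (flip e) (flip_flip e) G

theorem HV_congr_self {z : E} {v : ℝ≥0} {s : E → ℝ≥0} {a : ℝ≥0} :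
    HV z v (Function.update s z a) = HV z v s := by
  ext x
  constructor
  · rintro ⟨h1, h2⟩
    rw [Function.update_of_ne h1] at h2
    exact ⟨h1, h2⟩
  · rintro ⟨h1, h2⟩
    refine ⟨h1, ?_⟩
    rwa [Function.update_of_ne h1]

variable (M : Matroid E) (act : E → Prop) (x y : E → ℝ≥0) (z : E)

/-- The condition for the conditional flip of `e`, in the process of `z`. -/
def cnd (e : E) (c : E → Bool) : Prop :=
  act e ∧ e ≠ z ∧ z ∉ M.closure (insert e (HV z (sel c y x z) (sel c x y)))

/-- The conditional flip of `e`. -/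
noncomputable def TT (e : E) (c : E → Bool) : E → Bool := if cnd M act x y z e c then flip e c else c

/-- The composition of the conditional flips along a list (most recent first). -/
noncomputable def FF : List E → (E → Bool) → E → Bool
  | [], c => c
  | e :: l, c => TT M act x y z e (FF l c)

variable {M act x y z}

theorem cnd_flip (e : E) (c : E → Bool) :
    cnd M act x y z e (flip e c) ↔ cnd M act x y z e c := by
  unfold cnd
  refine and_congr_right fun _ => and_congr_right fun h => ?_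
  rw [sel_flip_ne (Ne.symm h), sel_flip, insert_HV_update]

theorem TT_TT (e : E) (c : E → Bool) : TT M act x y z e (TT M act x y z e c) = c := by
  by_cases h : cnd M act x y z e c
  · have h1 : TT M act x y z e c = flip e c := if_pos h
    rw [h1, TT, if_pos ((cnd_flip e c).2 h), flip_flip]
  · have h1 : TT M act x y z e c = c := if_neg h
    rw [h1, h1]

theorem sum_FF {A : Type*} [AddCommMonoid A] (l : List E) (G : (E → Bool) → A) :
    ∑ c, G (FF M act x y z l c) = ∑ c, G c := by
  induction l generalizing G with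
  | nil => rfl
  | cons e l ih =>
    have h1 := ih (fun c => G (TT M act x y z e c))
    rw [sum_invol (TT M act x y z e) (TT_TT e) G] at h1
    exact h1

theorem sel_TT_ne {e f : E} (h : f ≠ e) (c : E → Bool) (a b : E → ℝ≥0) :
    sel (TT M act x y z e c) a b f = sel c a b f := by
  unfold TT
  split_ifs with hc
  · exact sel_flip_ne h c a b
  · rfl

theorem sel_TT_z (e : E) (c : E → Bool) (a b : E → ℝ≥0) :
    sel (TT M act x y z e c) a b z = sel c a b z := by
  unfold TT
  split_ifs with hc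
  · exact sel_flip_ne (Ne.symm hc.2.1) c a b
  · rfl

theorem sel_FF_z (l : List E) (c : E → Bool) (a b : E → ℝ≥0) :
    sel (FF M act x y z l c) a b z = sel c a b z := by
  induction l with
  | nil => rfl
  | cons e l ih => rw [FF, sel_TT_z, ih]

theorem sel_FF_of_notMem {l : List E} {e : E} (he : e ∉ l) (c : E → Bool) (a b : E → ℝ≥0) :
    sel (FF M act x y z l c) a b e = sel c a b e := by
  induction l with
  | nil => rfl
  | cons f l ih =>
    have h1 : e ≠ f := fun h => he (h ▸ List.mem_cons_self)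
    rw [FF, sel_TT_ne h1, ih fun h => he (List.mem_cons_of_mem _ h)]

/-- The virtual sample is the sample of the flipped coins. -/
theorem sg_eq {l : List E} (hnd : l.Nodup) (c : E → Bool) :
    sg M act z (sel c y x z) (sel c x y) (hs (sel c y x) l) = sel (FF M act x y z l c) x y := by
  induction l with
  | nil => rfl
  | cons e l ih =>
    have hnd' := List.nodup_cons.1 hnd
    change sg M act z (sel c y x z) (sel c x y) ((e, sel c y x e) :: hs (sel c y x) l) = _
    rw [sg, ih hnd'.2, FF]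
    unfold TT cnd
    rw [sel_FF_z]
    split_ifs with h
    · rw [sel_flip, sel_FF_of_notMem hnd'.1]
    · rfl

end Vale.Agent.P331.Osel
end

section

/-!
# One-sample matroid prophet inequality, exchange-symmetric orders: the core inequality
-/

namespace Vale.Agent.P331.Osel

open Set Vale.Agent.P331
open scoped NNReal ENNReal Classical

set_option linter.all false

variable {E : Type*} [Fintype E]

section exchange

variable {M : Matroid E}

/-- `z` is knocked out of the greedy basis for the sample `s` if `y` gets the value `b`. -/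
def JS (M : Matroid E) (s : E → ℝ≥0) (b : ℝ≥0) (z y : E) : Prop :=
  y ≠ z ∧ z ∉ M.closure (HV z (s z) s) ∧ kp z (s z) < kp y b ∧
    z ∈ M.closure (insert y (HV z (s z) s))

theorem JS_unique_aux (hM : M.E = univ) {s : E → ℝ≥0} {b : ℝ≥0} {y z z' : E}
    (h : JS M s b z y) (h' : JS M s b z' y) (hlt : kp z' (s z') < kp z (s z)) : False := by
  have hne : z ≠ z' := by rintro rfl; exact lt_irrefl _ hlt
  have h1 : insert z (HV z (s z) s) ⊆ HV z' (s z') s := by
    rintro w (rfl | ⟨hw1, hw2⟩)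
    · exact ⟨hne, hlt⟩
    · refine ⟨?_, hlt.trans hw2⟩
      rintro rfl
      exact lt_irrefl _ (hlt.trans hw2)
  have h2 := M.closure_exchange ⟨h.2.2.2, h.2.1⟩
  have h3 : y ∈ M.closure (HV z' (s z') s) := M.closure_subset_closure h1 h2.1
  have h4 : insert y (HV z' (s z') s) ⊆ M.closure (HV z' (s z') s) :=
    insert_subset h3 (subset_cl hM _)
  exact h'.2.1 (cl_mono_cl h4 h'.2.2.2)

theorem JS_unique (hM : M.E = univ) {s : E → ℝ≥0} {b : ℝ≥0} {y z z' : E}
    (h : JS M s b z y) (h' : JS M s b z' y) : z = z' := by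
  rcases lt_trichotomy (kp z' (s z')) (kp z (s z)) with hlt | heq | hlt
  · exact (JS_unique_aux hM h h' hlt).elim
  · exact (kp_inj heq).symm
  · exact (JS_unique_aux hM h' h hlt).elim

theorem fresh_of_JS (hM : M.E = univ) {s : E → ℝ≥0} {b : ℝ≥0} {y z : E} (h : JS M s b z y) :
    fresh M y b s := by
  intro hy
  have h1 : HV y b s ⊆ HV z (s z) s := by
    rintro w ⟨hw1, hw2⟩
    refine ⟨?_, h.2.2.1.trans hw2⟩
    rintro rfl
    exact lt_irrefl _ (h.2.2.1.trans hw2)
  have h3 : y ∈ M.closure (HV z (s z) s) := M.closure_subset_closure h1 hy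
  have h4 : insert y (HV z (s z) s) ⊆ M.closure (HV z (s z) s) :=
    insert_subset h3 (subset_cl hM _)
  exact h.2.1 (cl_mono_cl h4 h.2.2.2)

theorem sum_JS_le (hM : M.E = univ) (s : E → ℝ≥0) (b : ℝ≥0) (y : E) :
    ∑ z, ie (JS M s b z y) (b : ℝ≥0∞) ≤ ie (fresh M y b s) b := by
  by_cases hex : ∃ z, JS M s b z y
  · obtain ⟨z, hz⟩ := hex
    rw [Finset.sum_eq_single z]
    · exact ie_mono (fun h => fresh_of_JS hM h) fun _ => le_rfl
    · intro w _ hw
      exact ie_neg (fun h => hw (JS_unique hM h hz)) _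
    · intro h; exact absurd (Finset.mem_univ z) h
  · refine le_trans (le_of_eq (Finset.sum_eq_zero fun z _ => ie_neg (fun h => hex ⟨z, h⟩) _)) ?_
    exact zero_le

/-- The value of the greedy basis. -/
noncomputable def Gv (M : Matroid E) (s : E → ℝ≥0) : ℝ≥0∞ := ∑ e, ie (fresh M e (s e) s) (s e)

theorem opt_le_Gv (hM : M.E = univ) (s : E → ℝ≥0) : opt M s ≤ Gv M s := by
  unfold opt
  refine iSup_le fun I => iSup_le fun hI => ?_
  have h1 := sum_le_greedy hM (key s) (v := s) (fun e f h => le_of_key_lt h) I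
    (Finset.univ.filter fun e => fresh M e (s e) s) hI (fun g hg => by
      refine Finset.mem_filter.2 ⟨Finset.mem_univ _, fun hcl => hg ?_⟩
      refine M.closure_subset_closure ?_ hcl
      rintro w ⟨_, hw⟩
      exact hw)
  refine h1.trans (le_of_eq ?_)
  unfold Gv
  rw [← Finset.sum_subset (Finset.filter_subset (fun e => fresh M e (s e) s) Finset.univ)
    (fun e _ he => ie_neg (fun h => he (Finset.mem_filter.2 ⟨Finset.mem_univ _, h⟩))
      (s e : ℝ≥0∞))]
  exact Finset.sum_congr rfl fun e he => (ie_pos (Finset.mem_filter.1 he).2 _).symm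

theorem Gv_ne_top (s : E → ℝ≥0) : Gv M s ≠ ∞ := by
  unfold Gv
  refine (ENNReal.sum_lt_top.2 fun e _ => ?_).ne
  unfold ie
  split_ifs
  · exact ENNReal.coe_lt_top
  · exact ENNReal.zero_lt_top

end exchange

section coins

variable {M : Matroid E} (x y : E → ℝ≥0)

/-- `z` rejects `w` at the beginning. -/
def JC (M : Matroid E) (x y : E → ℝ≥0) (z w : E) (c : E → Bool) : Prop :=
  w ≠ z ∧ fresh M z (sel c y x z) (sel c x y) ∧ kp z (sel c y x z) < kp w (sel c y x w) ∧
    z ∈ M.closure (insert w (HV z (sel c y x z) (sel c x y)))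

/-- Stationarity. -/
theorem sum_RR_le (act : E → Prop) {l : List E} (hnd : l.Nodup) (z w : E) :
    ∑ c, ie (RR M act (sel c x y) (sel c y x) l z w) (sel c y x w : ℝ≥0∞) ≤
      ∑ c, ie (act z ∧ act w ∧ JC M x y z w c) (sel c y x w : ℝ≥0∞) := by
  rw [← sum_FF (M := M) (act := act) (x := x) (y := y) (z := z) (bef l w)
    (fun c => ie (act z ∧ act w ∧ JC M x y z w c) (sel c y x w : ℝ≥0∞))]
  refine Finset.sum_le_sum fun c _ => ?_
  have hw : w ∉ bef l w := notMem_bef hnd w
  have h1 := sg_eq (M := M) (act := act) (x := x) (y := y) (z := z) (bef_nodup hnd w) c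
  refine ie_mono ?_ ?_
  · rintro ⟨ha, hf, hr⟩
    refine ⟨ha, hr.1, hr.2.1, ?_, ?_, ?_⟩
    · unfold fresh
      rw [sel_FF_z, ← h1]
      exact fresh_sg hf _
    · rw [sel_FF_z, sel_FF_of_notMem hw]
      exact hr.2.2.1
    · rw [sel_FF_z, ← h1]
      exact hr.2.2.2
  · intro _
    rw [sel_FF_of_notMem hw]

theorem fresh_flip (z : E) (a : ℝ≥0) (c : E → Bool) :
    fresh M z a (sel (flip z c) x y) ↔ fresh M z a (sel c x y) := by
  unfold fresh
  rw [sel_flip, HV_congr_self]

/-- Flipping the coin of `z`. -/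
theorem sum_JC_eq (z w : E) :
    ∑ c, ie (JC M x y z w c) (sel c y x w : ℝ≥0∞) =
      ∑ c, ie (JS M (sel c x y) (sel c y x w) z w) (sel c y x w : ℝ≥0∞) := by
  rw [← sum_flip z]
  refine Finset.sum_congr rfl fun c _ => ?_
  by_cases hwz : w = z
  · rw [ie_neg (fun h => h.1 hwz), ie_neg (fun h => h.1 hwz)]
  · refine ie_congr ?_ ?_
    · unfold JC JS
      rw [sel_flip_self, fresh_flip, sel_flip_ne hwz, sel_flip, HV_congr_self]
      rfl
    · intro _
      rw [sel_flip_ne hwz]

/-- Flipping the coin of `w`. -/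
theorem sum_fresh_eq (w : E) :
    ∑ c, ie (fresh M w (sel c y x w) (sel c x y)) (sel c y x w : ℝ≥0∞) =
      ∑ c, ie (fresh M w (sel c x y w) (sel c x y)) (sel c x y w : ℝ≥0∞) := by
  rw [← sum_flip w]
  refine Finset.sum_congr rfl fun c _ => ?_
  rw [sel_flip_self, fresh_flip]

end coins

section labels

theorem two_mul_sum_label (e : E) (Q : (E → Bool) → Prop) (hQ : ∀ r, Q (flip e r) ↔ Q r)
    (a : ℝ≥0∞) : 2 * ∑ r : E → Bool, ie (r e = true ∧ Q r) a = ∑ r : E → Bool, ie (Q r) a := by
  have h1 : ∑ r : E → Bool, ie (r e = true ∧ Q r) a = ∑ r : E → Bool, ie (r e = false ∧ Q r) a := by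
    rw [← sum_flip e]
    refine Finset.sum_congr rfl fun r _ => ?_
    refine ie_congr ?_ fun _ => rfl
    rw [hQ]
    unfold flip
    rw [Function.update_self]
    cases r e <;> simp
  rw [two_mul]
  nth_rewrite 2 [h1]
  rw [← Finset.sum_add_distrib]
  refine Finset.sum_congr rfl fun r _ => ?_
  by_cases h : Q r
  · rw [ie_pos h]
    cases hr : r e
    · rw [ie_neg (by simp [hr]), ie_pos ⟨rfl, h⟩, zero_add]
    · rw [ie_pos ⟨rfl, h⟩, ie_neg (by simp [hr]), add_zero]
  · rw [ie_neg h, ie_neg fun h' => h h'.2, ie_neg fun h' => h h'.2, add_zero]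

theorem sum_label_const (Q : Prop) (a : ℝ≥0∞) :
    ∑ _r : E → Bool, ie Q a = Fintype.card (E → Bool) * ie Q a := by
  rw [Finset.sum_const, nsmul_eq_mul, Finset.card_univ]

end labels

variable {M : Matroid E}

theorem sum3 {α β γ : Type*} [Fintype α] [Fintype β] [Fintype γ] (f : α → β → γ → ℝ≥0∞) :
    ∑ a, ∑ b, ∑ c, f a b c = ∑ c, ∑ a, ∑ b, f a b c := by
  calc ∑ a, ∑ b, ∑ c, f a b c = ∑ a, ∑ c, ∑ b, f a b c :=
        Finset.sum_congr rfl fun a _ => Finset.sum_comm
    _ = ∑ c, ∑ a, ∑ b, f a b c := Finset.sum_comm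

theorem sum4 {α β γ : Type*} [Fintype α] [Fintype β] [Fintype γ] (f : α → β → γ → γ → ℝ≥0∞) :
    ∑ a, ∑ b, ∑ z, ∑ w, f a b z w = ∑ z, ∑ w, ∑ a, ∑ b, f a b z w := by
  rw [sum3 (fun a b z => ∑ w, f a b z w)]
  exact Finset.sum_congr rfl fun z _ => sum3 (fun a b w => f a b z w)

/-- The main term. -/
theorem main_term (x y : E → ℝ≥0) :
    2 * ∑ r : E → Bool, ∑ c : E → Bool,
        ∑ e, ie (r e = true ∧ fresh M e (sel c y x e) (sel c x y)) (sel c y x e : ℝ≥0∞) =
      Fintype.card (E → Bool) * ∑ c : E → Bool, Gv M (sel c x y) := by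
  have h1 : ∀ e : E, 2 * ∑ r : E → Bool, ∑ c : E → Bool,
      ie (r e = true ∧ fresh M e (sel c y x e) (sel c x y)) (sel c y x e : ℝ≥0∞) =
      Fintype.card (E → Bool) *
        ∑ c, ie (fresh M e (sel c x y e) (sel c x y)) (sel c x y e : ℝ≥0∞) := by
    intro e
    rw [Finset.sum_comm, Finset.mul_sum, ← sum_fresh_eq, Finset.mul_sum]
    refine Finset.sum_congr rfl fun c _ => ?_
    rw [two_mul_sum_label e (fun _ => fresh M e (sel c y x e) (sel c x y)) (fun _ => Iff.rfl),
      sum_label_const]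
  rw [sum3, Finset.mul_sum, Finset.sum_congr rfl fun e _ => h1 e, ← Finset.mul_sum]
  congr 1
  unfold Gv
  rw [Finset.sum_comm]

theorem label_JC (x y : E → ℝ≥0) (z w : E) :
    4 * ∑ r : E → Bool, ∑ c : E → Bool,
        ie (r z = true ∧ r w = true ∧ JC M x y z w c) (sel c y x w : ℝ≥0∞) =
      Fintype.card (E → Bool) * ∑ c, ie (JC M x y z w c) (sel c y x w : ℝ≥0∞) := by
  rw [Finset.sum_comm, Finset.mul_sum, Finset.mul_sum]
  refine Finset.sum_congr rfl fun c _ => ?_
  by_cases hwz : w = z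
  · have h1 : ¬ JC M x y z w c := fun h => h.1 hwz
    rw [ie_neg h1, mul_zero, Finset.sum_eq_zero, mul_zero]
    intro r _
    exact ie_neg (fun h => h1 h.2.2) _
  · have h4 : (4 : ℝ≥0∞) = 2 * 2 := by norm_num
    rw [h4, mul_assoc, two_mul_sum_label z (fun r => r w = true ∧ JC M x y z w c),
      two_mul_sum_label w (fun _ => JC M x y z w c) (fun _ => Iff.rfl), sum_label_const]
    intro r
    unfold flip
    rw [Function.update_of_ne hwz]

/-- The loss term. -/
theorem loss_term (hM : M.E = univ) (x y : E → ℝ≥0) (l : (E → Bool) → List E)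
    (hnd : ∀ r, (l r).Nodup) :
    4 * ∑ r : E → Bool, ∑ c : E → Bool,
        ∑ z, ∑ w, ie (RR M (fun f => r f = true) (sel c x y) (sel c y x) (l r) z w)
          (sel c y x w : ℝ≥0∞) ≤
      Fintype.card (E → Bool) * ∑ c : E → Bool, Gv M (sel c x y) := by
  have h1 : ∀ z w, 4 * ∑ r : E → Bool, ∑ c : E → Bool,
      ie (RR M (fun f => r f = true) (sel c x y) (sel c y x) (l r) z w) (sel c y x w : ℝ≥0∞) ≤
      Fintype.card (E → Bool) *
        ∑ c, ie (JS M (sel c x y) (sel c y x w) z w) (sel c y x w : ℝ≥0∞) := by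
    intro z w
    rw [← sum_JC_eq, ← label_JC]
    refine mul_le_mul_right (Finset.sum_le_sum fun r _ => ?_) _
    exact sum_RR_le x y (fun f => r f = true) (hnd r) z w
  rw [sum4, Finset.mul_sum]
  simp only [Finset.mul_sum (s := (Finset.univ : Finset E))]
  refine le_trans (Finset.sum_le_sum fun z _ => Finset.sum_le_sum fun w _ => h1 z w) ?_
  simp only [← Finset.mul_sum]
  refine mul_le_mul_right ?_ _
  have h2 : ∑ z, ∑ w, ∑ c, ie (JS M (sel c x y) (sel c y x w) z w) (sel c y x w : ℝ≥0∞) =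
      ∑ w, ∑ c, ∑ z, ie (JS M (sel c x y) (sel c y x w) z w) (sel c y x w : ℝ≥0∞) :=
    (sum3 (fun w c z => ie (JS M (sel c x y) (sel c y x w) z w) (sel c y x w : ℝ≥0∞))).symm
  rw [h2]
  calc ∑ w, ∑ c, ∑ z, ie (JS M (sel c x y) (sel c y x w) z w) (sel c y x w : ℝ≥0∞)
      ≤ ∑ w, ∑ c, ie (fresh M w (sel c y x w) (sel c x y)) (sel c y x w : ℝ≥0∞) :=
        Finset.sum_le_sum fun w _ => Finset.sum_le_sum fun c _ => sum_JS_le hM _ _ _
    _ = ∑ w, ∑ c, ie (fresh M w (sel c x y w) (sel c x y)) (sel c x y w : ℝ≥0∞) :=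
        Finset.sum_congr rfl fun w _ => sum_fresh_eq x y w
    _ = ∑ c, Gv M (sel c x y) := by
        unfold Gv
        rw [Finset.sum_comm]
    _ ≤ _ := le_rfl

theorem sum_not {A : Type*} [AddCommMonoid A] (G : (E → Bool) → A) :
    ∑ c : E → Bool, G (fun e => !c e) = ∑ c, G c :=
  sum_invol (fun c e => !c e) (fun c => by funext e; simp) G

theorem sel_not (c : E → Bool) (x y : E → ℝ≥0) : sel (fun e => !c e) x y = sel c y x := by
  funext e
  unfold sel
  cases h : c e <;> simp [h]

/-- The core inequality. -/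
theorem core (hM : M.E = univ) (x y : E → ℝ≥0) (o : (E → Bool) → Order E) :
    (4 : ℝ≥0∞)⁻¹ * Fintype.card (E → Bool) * ∑ c : E → Bool, opt M (sel c y x) ≤
      ∑ r : E → Bool, ∑ c : E → Bool,
        ∑ e ∈ accepted (acc M (fun f => r f = true) (sel c x y)) (history (sel c y x) (o r)),
          (sel c y x e : ℝ≥0∞) := by
  set N : ℝ≥0∞ := ((Fintype.card (E → Bool) : ℕ) : ℝ≥0∞) with hN
  set X : ℝ≥0∞ := ∑ c : E → Bool, Gv M (sel c x y) with hX
  set G : ℝ≥0∞ := ∑ r : E → Bool, ∑ c : E → Bool,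
        ∑ e ∈ accepted (acc M (fun f => r f = true) (sel c x y)) (history (sel c y x) (o r)),
          (sel c y x e : ℝ≥0∞) with hG
  have hl : ∀ r, (o r).1.reverse.Nodup := fun r => List.nodup_reverse.2 (o r).2.1
  set L : ℝ≥0∞ := ∑ r : E → Bool, ∑ c : E → Bool,
        ∑ z, ∑ w, ie (RR M (fun f => r f = true) (sel c x y) (sel c y x) ((o r).1.reverse) z w)
          (sel c y x w : ℝ≥0∞) with hL
  have h1 : ∑ c : E → Bool, opt M (sel c y x) ≤ X := by
    have h2 : ∑ c : E → Bool, opt M (sel c y x) = ∑ c : E → Bool, opt M (sel c x y) := by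
      rw [← sum_not]
      simp only [sel_not]
    rw [h2]
    exact Finset.sum_le_sum fun c _ => opt_le_Gv hM _
  have h3 : 4 * L ≤ N * X := loss_term hM x y (fun r => (o r).1.reverse) hl
  have h4 : N * X ≤ 2 * (G + L) := by
    rw [hN, hX, ← main_term x y, hG, hL, ← Finset.sum_add_distrib]
    refine mul_le_mul_right (Finset.sum_le_sum fun r _ => ?_) _
    rw [← Finset.sum_add_distrib]
    refine Finset.sum_le_sum fun c _ => ?_
    have h5 := path_ineq (M := M) (act := fun f => r f = true) (s := sel c x y) (u := sel c y x)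
      (hl r) (fun e => List.mem_reverse.2 ((o r).2.2 e))
    have h6 : history (sel c y x) (o r) = hs (sel c y x) ((o r).1.reverse) := by
      unfold history hs
      rw [List.map_reverse]
    rw [h6]
    exact h5
  have hXt : N * X ≠ ∞ := by
    refine ENNReal.mul_ne_top (ENNReal.natCast_ne_top _) ?_
    exact (ENNReal.sum_lt_top.2 fun c _ => (Gv_ne_top _).lt_top).ne
  have h7 : N * X ≤ 4 * G := by
    have h8 : N * X + 4 * L ≤ 4 * G + 4 * L := by
      calc N * X + 4 * L ≤ N * X + N * X := by gcongr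
        _ = 2 * (N * X) := by rw [two_mul]
        _ ≤ 2 * (2 * (G + L)) := by gcongr
        _ = 4 * G + 4 * L := by ring
    exact (ENNReal.add_le_add_iff_right (ne_top_of_le_ne_top hXt h3)).1 h8
  calc (4 : ℝ≥0∞)⁻¹ * N * ∑ c : E → Bool, opt M (sel c y x) ≤ (4 : ℝ≥0∞)⁻¹ * N * X := by gcongr
    _ = (4 : ℝ≥0∞)⁻¹ * (N * X) := by rw [mul_assoc]
    _ ≤ (4 : ℝ≥0∞)⁻¹ * (4 * G) := by gcongr
    _ = G := by
        rw [← mul_assoc, ENNReal.inv_mul_cancel (by norm_num) (by norm_num), one_mul]

end Vale.Agent.P331.Osel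
end

section

/-!
# One-sample matroid prophet inequality, exchange-symmetric orders: measurability and the rule
-/

namespace Vale.Agent.P331.Osel

open MeasureTheory Set Vale.Agent.P331
open scoped NNReal ENNReal Classical

set_option linter.all false

section measurability

variable {E : Type*} [Fintype E] {Ω : Type*} [MeasurableSpace Ω]

theorem kp_lt_kp {e f : E} {a b : ℝ≥0} :
    kp e a < kp f b ↔ a < b ∨ a = b ∧ idx E e < idx E f := by
  unfold kp
  rw [Prod.Lex.toLex_lt_toLex]

theorem measurableSet_kp_lt (e f : E) {a b : Ω → ℝ≥0} (ha : Measurable a) (hb : Measurable b) :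
    MeasurableSet {ω | kp e (a ω) < kp f (b ω)} := by
  have h : {ω | kp e (a ω) < kp f (b ω)} =
      {ω | a ω < b ω} ∪ ({ω | a ω = b ω} ∩ {_ω | idx E e < idx E f}) := by
    ext ω
    exact kp_lt_kp
  rw [h]
  exact (measurableSet_lt ha hb).union ((measurableSet_eq_fun ha hb).inter (MeasurableSet.const _))

theorem measurableSet_mem_HV (z f : E) {a : Ω → ℝ≥0} {s : Ω → E → ℝ≥0} (ha : Measurable a)
    (hs : ∀ y, Measurable fun ω => s ω y) : MeasurableSet {ω | f ∈ HV z (a ω) (s ω)} := by
  have h : {ω | f ∈ HV z (a ω) (s ω)} = {_ω | f ≠ z} ∩ {ω | kp z (a ω) < kp f (s ω f)} := by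
    ext ω
    exact Iff.rfl
  rw [h]
  exact (MeasurableSet.const _).inter (measurableSet_kp_lt z f ha (hs f))

theorem measurableSet_cl_HV (M : Matroid E) (z : E) {a : Ω → ℝ≥0} {s : Ω → E → ℝ≥0}
    (ha : Measurable a) (hs : ∀ y, Measurable fun ω => s ω y) :
    MeasurableSet {ω | z ∈ M.closure (HV z (a ω) (s ω))} :=
  measurableSet_of_mem (fun ω => HV z (a ω) (s ω))
    (fun f => measurableSet_mem_HV z f ha hs) (fun X => z ∈ M.closure X)

theorem measurableSet_cl_insert_HV (M : Matroid E) (z e : E) {a : Ω → ℝ≥0} {s : Ω → E → ℝ≥0}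
    (ha : Measurable a) (hs : ∀ y, Measurable fun ω => s ω y) :
    MeasurableSet {ω | z ∈ M.closure (insert e (HV z (a ω) (s ω)))} := by
  refine measurableSet_of_mem (fun ω => insert e (HV z (a ω) (s ω))) (fun f => ?_)
    (fun X => z ∈ M.closure X)
  have h : {ω | f ∈ insert e (HV z (a ω) (s ω))} = {_ω | f = e} ∪ {ω | f ∈ HV z (a ω) (s ω)} := by
    ext ω
    exact Iff.rfl
  rw [h]
  exact (MeasurableSet.const _).union (measurableSet_mem_HV z f ha hs)

/-- The virtual sample is measurable. -/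
theorem measurable_sg (M : Matroid E) (act : E → Prop) (z : E) {a : Ω → ℝ≥0} {s v : Ω → E → ℝ≥0}
    (ha : Measurable a) (hs' : ∀ y, Measurable fun ω => s ω y)
    (hv : ∀ y, Measurable fun ω => v ω y) (l : List E) :
    ∀ y, Measurable fun ω => sg M act z (a ω) (s ω) (hs (v ω) l) y := by
  induction l with
  | nil => exact hs'
  | cons e l ih =>
    intro y
    have hset : MeasurableSet {ω | act e ∧ e ≠ z ∧
        z ∉ M.closure (insert e (HV z (a ω) (sg M act z (a ω) (s ω) (hs (v ω) l))))} := by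
      have h1 : {ω | act e ∧ e ≠ z ∧
        z ∉ M.closure (insert e (HV z (a ω) (sg M act z (a ω) (s ω) (hs (v ω) l))))} =
          {_ω | act e ∧ e ≠ z} ∩ {ω | z ∈ M.closure (insert e (HV z (a ω)
            (sg M act z (a ω) (s ω) (hs (v ω) l))))}ᶜ := by
        ext ω
        constructor
        · rintro ⟨h1, h2, h3⟩
          exact ⟨⟨h1, h2⟩, h3⟩
        · rintro ⟨⟨h1, h2⟩, h3⟩
          exact ⟨h1, h2, h3⟩
      rw [h1]
      exact (MeasurableSet.const _).inter (measurableSet_cl_insert_HV M z e ha ih).compl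
    have h2 : (fun ω => sg M act z (a ω) (s ω) (hs (v ω) (e :: l)) y) = fun ω =>
        if ω ∈ {ω | act e ∧ e ≠ z ∧
          z ∉ M.closure (insert e (HV z (a ω) (sg M act z (a ω) (s ω) (hs (v ω) l))))} then
          (if y = e then v ω e else sg M act z (a ω) (s ω) (hs (v ω) l) y)
        else sg M act z (a ω) (s ω) (hs (v ω) l) y := by
      funext ω
      change sg M act z (a ω) (s ω) ((e, v ω e) :: hs (v ω) l) y = _
      rw [sg]
      by_cases hc : act e ∧ e ≠ z ∧
          z ∉ M.closure (insert e (HV z (a ω) (sg M act z (a ω) (s ω) (hs (v ω) l))))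
      · rw [if_pos hc]
        rw [if_pos (show ω ∈ {ω | act e ∧ e ≠ z ∧
          z ∉ M.closure (insert e (HV z (a ω) (sg M act z (a ω) (s ω) (hs (v ω) l))))} from hc)]
        by_cases hy : y = e
        · subst hy
          rw [if_pos rfl, Function.update_self]
        · rw [if_neg hy, Function.update_of_ne hy]
      · rw [if_neg hc]
        rw [if_neg (show ω ∉ {ω | act e ∧ e ≠ z ∧
          z ∉ M.closure (insert e (HV z (a ω) (sg M act z (a ω) (s ω) (hs (v ω) l))))} from hc)]
    rw [h2]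
    refine Measurable.ite hset ?_ (ih y)
    by_cases hy : y = e
    · simp only [if_pos hy]
      exact hv e
    · simp only [if_neg hy]
      exact ih y

theorem measurableSet_rej (M : Matroid E) (act : E → Prop) (z : E) {a : Ω → ℝ≥0}
    {s v : Ω → E → ℝ≥0} (ha : Measurable a) (hs' : ∀ y, Measurable fun ω => s ω y)
    (hv : ∀ y, Measurable fun ω => v ω y) (l : List E) (e : E) :
    MeasurableSet {ω | rej M act z (a ω) (s ω) (hs (v ω) l) (e, v ω e)} := by
  have h : {ω | rej M act z (a ω) (s ω) (hs (v ω) l) (e, v ω e)} =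
      {_ω | act e ∧ e ≠ z} ∩ ({ω | kp z (a ω) < kp e (v ω e)} ∩
        {ω | z ∈ M.closure (insert e (HV z (a ω) (sg M act z (a ω) (s ω) (hs (v ω) l))))}) := by
    ext ω
    constructor
    · rintro ⟨h1, h2, h3, h4⟩
      exact ⟨⟨h1, h2⟩, h3, h4⟩
    · rintro ⟨⟨h1, h2⟩, h3, h4⟩
      exact ⟨h1, h2, h3, h4⟩
  rw [h]
  exact (MeasurableSet.const _).inter ((measurableSet_kp_lt z e ha (hv e)).inter
    (measurableSet_cl_insert_HV M z e ha (measurable_sg M act z ha hs' hv l)))

theorem measurableSet_cln (M : Matroid E) (act : E → Prop) (z : E) {a : Ω → ℝ≥0}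
    {s v : Ω → E → ℝ≥0} (ha : Measurable a) (hs' : ∀ y, Measurable fun ω => s ω y)
    (hv : ∀ y, Measurable fun ω => v ω y) (l : List E) :
    MeasurableSet {ω | cln M act z (a ω) (s ω) (hs (v ω) l)} := by
  induction l with
  | nil =>
    have h : {ω | cln M act z (a ω) (s ω) (hs (v ω) [])} = univ := by
      ext ω
      exact ⟨fun _ => trivial, fun _ => trivial⟩
    rw [h]
    exact MeasurableSet.univ
  | cons e l ih =>
    have h : {ω | cln M act z (a ω) (s ω) (hs (v ω) (e :: l))} =
        {ω | cln M act z (a ω) (s ω) (hs (v ω) l)} ∩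
          {ω | rej M act z (a ω) (s ω) (hs (v ω) l) (e, v ω e)}ᶜ := by
      ext ω
      exact Iff.rfl
    rw [h]
    exact ih.inter (measurableSet_rej M act z ha hs' hv l e).compl

theorem measurableSet_fresh (M : Matroid E) (z : E) {a : Ω → ℝ≥0} {s : Ω → E → ℝ≥0}
    (ha : Measurable a) (hs' : ∀ y, Measurable fun ω => s ω y) :
    MeasurableSet {ω | fresh M z (a ω) (s ω)} :=
  (measurableSet_cl_HV M z ha hs').compl

/-- The decisions of the rule are measurable (general form). -/
theorem measurableSet_acc' (M : Matroid E) (act : E → Prop) {s v : Ω → E → ℝ≥0}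
    (hs' : ∀ y, Measurable fun ω => s ω y) (hv : ∀ y, Measurable fun ω => v ω y) (l : List E)
    (e : E) : MeasurableSet {ω | acc M act (s ω) (hs (v ω) l) (e, v ω e)} := by
  have h : {ω | acc M act (s ω) (hs (v ω) l) (e, v ω e)} =
      {_ω | act e} ∩ ({ω | fresh M e (v ω e) (s ω)} ∩
        ({ω | cln M act e (v ω e) (s ω) (hs (v ω) l)} ∩
          ⋂ f : E, ({_ω | f ∈ l → ¬ act f} ∪ ({ω | fresh M f (v ω f) (s ω)}ᶜ ∪
            {ω | rej M act f (v ω f) (s ω) (hs (v ω) l) (e, v ω e)}ᶜ)))) := by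
    ext ω
    constructor
    · rintro ⟨h1, h2, h3, h4⟩
      refine ⟨h1, h2, h3, mem_iInter.2 fun f => ?_⟩
      by_cases hf : f ∈ l → ¬ act f
      · exact Or.inl hf
      · push Not at hf
        by_cases hfr : fresh M f (v ω f) (s ω)
        · exact Or.inr (Or.inr (h4 (f, v ω f) (List.mem_map.2 ⟨f, hf.1, rfl⟩) hf.2 hfr))
        · exact Or.inr (Or.inl hfr)
    · rintro ⟨h1, h2, h3, h4⟩
      refine ⟨h1, h2, h3, ?_⟩
      intro y hy hact hfr
      obtain ⟨f, hf, rfl⟩ := List.mem_map.1 hy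
      rcases mem_iInter.1 h4 f with h5 | h5 | h5
      · exact absurd hact (h5 hf)
      · exact absurd hfr h5
      · exact h5
  rw [h]
  refine (MeasurableSet.const _).inter ((measurableSet_fresh M e (hv e) hs').inter
    ((measurableSet_cln M act e (hv e) hs' hv l).inter (MeasurableSet.iInter fun f => ?_)))
  exact (MeasurableSet.const _).union ((measurableSet_fresh M f (hv f) hs').compl.union
    (measurableSet_rej M act f (hv f) hs' hv l e).compl)

/-- The decisions of the rule are measurable. -/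
theorem measurableSet_acc (M : Matroid E) (l : List E) (e : E) (r : E → Bool) :
    MeasurableSet {p : (E → ℝ≥0) × (E → ℝ≥0) |
      acc M (fun f => r f = true) p.1 (hs p.2 l) (e, p.2 e)} :=
  measurableSet_acc' M (fun f => r f = true)
    (fun y => (measurable_pi_apply y).comp measurable_fst)
    (fun y => (measurable_pi_apply y).comp measurable_snd) l e

end measurability

section general

variable {E : Type*}

/-- If the seed is finite and uniform, competitiveness against the exchange-symmetric adversary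
follows from a finite inequality for all pairs of values and all orders that depend on the seed. -/
theorem isSymCompetitive_of_core [Fintype E] {M : Matroid E} (R : OnlineRule M)
    [Fintype R.Seed] [MeasurableSingletonClass R.Seed]
    (hlaw : ∀ r, R.law {r} = ((Fintype.card R.Seed : ℝ≥0∞))⁻¹) (q : ℝ≥0∞)
    (hcore : ∀ x y : E → ℝ≥0, ∀ o : R.Seed → Order E,
      q * Fintype.card R.Seed * ∑ c : E → Bool, opt M (sel c y x) ≤
        ∑ r, ∑ c : E → Bool, R.gain r (sel c x y) (sel c y x) (o r)) :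
    IsSymCompetitive R q := by
  intro D hD _ π hπ hsym
  set P := Measure.pi D with hP
  set N : ℝ≥0∞ := (Fintype.card R.Seed : ℝ≥0∞) with hN
  have hneS : Nonempty R.Seed := by
    by_contra hne
    rw [not_nonempty_iff] at hne
    have h1 : R.law univ = 1 := measure_univ
    have h2 : (univ : Set R.Seed) = ∅ := univ_eq_empty_iff.2 hne
    rw [h2, measure_empty] at h1
    exact zero_ne_one h1
  have hN0 : N ≠ 0 := by
    rw [hN]
    exact_mod_cast Fintype.card_ne_zero
  have hNt : N ≠ ∞ := ENNReal.natCast_ne_top _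
  set T : ℝ≥0∞ := (Fintype.card (E → Bool) : ℝ≥0∞) with hT
  have hT0 : T ≠ 0 := by
    rw [hT]; exact_mod_cast Fintype.card_ne_zero
  have hTt : T ≠ ∞ := ENNReal.natCast_ne_top _
  -- the gain for the order of the adversary
  set G : R.Seed → (E → ℝ≥0) → (E → ℝ≥0) → ℝ≥0∞ :=
    fun r s v => R.gain r s v (π (r, s, v)) with hG
  have hGm : Measurable fun ω : R.Seed × (E → ℝ≥0) × (E → ℝ≥0) => G ω.1 ω.2.1 ω.2.2 := by
    have _ := Fintype.ofFinite (Order E)
    have h1 : (fun ω : R.Seed × (E → ℝ≥0) × (E → ℝ≥0) => G ω.1 ω.2.1 ω.2.2) = fun ω =>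
        ∑ o : Order E, (π ⁻¹' {o}).indicator (fun ω => R.gain ω.1 ω.2.1 ω.2.2 o) ω := by
      funext ω
      have h0 : ∀ o ∈ (Finset.univ : Finset (Order E)), o ≠ π ω →
          (π ⁻¹' {o}).indicator (fun ω : R.Seed × (E → ℝ≥0) × (E → ℝ≥0) =>
            R.gain ω.1 ω.2.1 ω.2.2 o) ω = 0 := by
        intro o _ ho
        have h3 : ω ∉ π ⁻¹' {o} := fun h => ho (show π ω = o from h).symm
        exact indicator_of_notMem h3 _
      rw [Finset.sum_eq_single (π ω) h0 (fun h => absurd (Finset.mem_univ _) h)]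
      have h4 : (π ⁻¹' {π ω}).indicator (fun ω : R.Seed × (E → ℝ≥0) × (E → ℝ≥0) =>
          R.gain ω.1 ω.2.1 ω.2.2 (π ω)) ω = R.gain ω.1 ω.2.1 ω.2.2 (π ω) :=
        indicator_of_mem (show ω ∈ π ⁻¹' {π ω} from rfl) _
      exact h4.symm
    rw [h1]
    exact Finset.measurable_sum _ fun o _ => (measurable_gain R o).indicator (hπ o)
  have hGm' : ∀ r, Measurable fun p : (E → ℝ≥0) × (E → ℝ≥0) => G r p.1 p.2 := by
    intro r
    exact hGm.comp (measurable_const.prodMk measurable_id)
  -- step 2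
  have h2 : ∫⁻ ω, R.gain ω.1 ω.2.1 ω.2.2 (π ω) ∂(R.law.prod (P.prod P)) =
      N⁻¹ * ∫⁻ p, ∑ r, G r p.1 p.2 ∂(P.prod P) := by
    change ∫⁻ ω : R.Seed × (E → ℝ≥0) × (E → ℝ≥0), G ω.1 ω.2.1 ω.2.2 ∂(R.law.prod (P.prod P)) = _
    rw [lintegral_prod _ hGm.aemeasurable, lintegral_fintype]
    simp only [hlaw]
    rw [← Finset.sum_mul, mul_comm, lintegral_finsetSum]
    intro r _
    exact hGm' r
  rw [h2]
  -- step 3: symmetrization
  have hmeasSum : Measurable fun p : (E → ℝ≥0) × (E → ℝ≥0) => ∑ r, G r p.1 p.2 :=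
    Finset.measurable_sum _ fun r _ => hGm' r
  have hPprob : IsProbabilityMeasure P := by rw [hP]; infer_instance
  have hm : Measurable fun p : (E → ℝ≥0) × (E → ℝ≥0) => opt M p.2 :=
    (measurable_opt M).comp measurable_snd
  have h3 : T * ∫⁻ p, ∑ r, G r p.1 p.2 ∂(P.prod P) =
      ∫⁻ p, ∑ c : E → Bool, ∑ r, G r (sel c p.1 p.2) (sel c p.2 p.1) ∂(P.prod P) :=
    symm_lintegral D (fun s v => ∑ r, G r s v) hmeasSum
  have h4 : T * ∫⁻ v, opt M v ∂P =
      ∫⁻ p, ∑ c : E → Bool, opt M (sel c p.2 p.1) ∂(P.prod P) := by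
    have h4a := symm_lintegral D (fun _ v => opt M v) hm
    rw [← h4a]
    congr 1
    exact (measurePreserving_snd.lintegral_comp (measurable_opt M)).symm
  have hmS : Measurable fun p : (E → ℝ≥0) × (E → ℝ≥0) =>
      ∑ c : E → Bool, opt M (sel c p.2 p.1) := by
    refine Finset.measurable_sum _ fun c _ => ?_
    have hsel : Measurable fun p : (E → ℝ≥0) × (E → ℝ≥0) => sel c p.2 p.1 :=
      measurable_snd.comp (measurePreserving_swap_sel D c).measurable
    exact (measurable_opt M).comp hsel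
  -- step 4: pointwise inequality
  have h5 : ∀ p : (E → ℝ≥0) × (E → ℝ≥0),
      q * N * ∑ c : E → Bool, opt M (sel c p.2 p.1) ≤
        ∑ c : E → Bool, ∑ r, G r (sel c p.1 p.2) (sel c p.2 p.1) := by
    intro p
    have h6 := hcore p.1 p.2 (fun r => π (r, p.1, p.2))
    rw [Finset.sum_comm]
    refine h6.trans (le_of_eq ?_)
    refine Finset.sum_congr rfl fun r _ => Finset.sum_congr rfl fun c _ => ?_
    have h7 : π (r, sel c p.1 p.2, sel c p.2 p.1) = π (r, p.1, p.2) := hsym r p.1 p.2 c
    change _ = R.gain r (sel c p.1 p.2) (sel c p.2 p.1) (π (r, sel c p.1 p.2, sel c p.2 p.1))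
    rw [h7]
  clear_value G P
  have h6 : q * N * (T * ∫⁻ v, opt M v ∂P) ≤ T * ∫⁻ p, ∑ r, G r p.1 p.2 ∂(P.prod P) := by
    rw [h3, h4, ← lintegral_const_mul _ hmS]
    exact lintegral_mono h5
  have h7 : q * N * (T * ∫⁻ v, opt M v ∂P) = T * (N * (q * ∫⁻ v, opt M v ∂P)) := by ring
  rw [h7, ENNReal.mul_le_mul_iff_right hT0 hTt] at h6
  have h8 : N * (N⁻¹ * ∫⁻ p, ∑ r, G r p.1 p.2 ∂(P.prod P)) =
      ∫⁻ p, ∑ r, G r p.1 p.2 ∂(P.prod P) := by
    rw [← mul_assoc, ENNReal.mul_inv_cancel hN0 hNt, one_mul]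
  rw [← ENNReal.mul_le_mul_iff_right hN0 hNt, h8]
  exact h6

end general

section rule

variable {E : Type} [Fintype E] {M : Matroid E}

/-- The rule: the seed is a uniformly random set of active elements. -/
noncomputable def symRule (hM : M.E = univ) : OnlineRule M where
  Seed := E → Bool
  law := unif (E → Bool)
  isProb := unif_prob _
  accept r s := acc M (fun f => r f = true) s
  measurable_accept := by
    intro l e
    have hset : {ω : (E → Bool) × (E → ℝ≥0) × (E → ℝ≥0) |
        acc M (fun f => ω.1 f = true) ω.2.1 (l.map fun f => (f, ω.2.2 f)) (e, ω.2.2 e)} =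
        ⋃ r : E → Bool, {r} ×ˢ {p : (E → ℝ≥0) × (E → ℝ≥0) |
          acc M (fun f => r f = true) p.1 (hs p.2 l) (e, p.2 e)} := by
      ext ⟨r, s, v⟩
      simp only [mem_iUnion, mem_prod, mem_singleton_iff]
      constructor
      · intro h
        exact ⟨r, rfl, h⟩
      · rintro ⟨r', rfl, h⟩
        exact h
    rw [hset]
    exact MeasurableSet.iUnion fun r => (MeasurableSet.singleton r).prod (measurableSet_acc M l e r)
  feasible := by
    intro r s h hnd
    exact indep_accepted hM s h hnd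

/-- The finite core inequality implies that the rule is competitive against the
exchange-symmetric adversary. -/
theorem symRule_of_core (hM : M.E = univ) (q : ℝ≥0∞)
    (hcore : ∀ x y : E → ℝ≥0, ∀ o : (E → Bool) → Order E,
      q * Fintype.card (E → Bool) * ∑ c : E → Bool, opt M (sel c y x) ≤
        ∑ r : E → Bool, ∑ c : E → Bool,
          ∑ e ∈ accepted (acc M (fun f => r f = true) (sel c x y)) (history (sel c y x) (o r)),
            (sel c y x e : ℝ≥0∞)) :
    IsSymCompetitive (symRule hM) q := by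
  let _ : Fintype (symRule hM).Seed := (inferInstance : Fintype (E → Bool))
  have _ : MeasurableSingletonClass (symRule hM).Seed :=
    (inferInstance : MeasurableSingletonClass (E → Bool))
  refine isSymCompetitive_of_core (symRule hM) (fun r => unif_singleton (E → Bool) r) q ?_
  intro x y o
  exact hcore x y o

end rule

end Vale.Agent.P331.Osel
end

section

/-!
# The random-order (secretary) rule obtained from the one-sample rule

The first `T` arrivals are the sample. The sample elements are then inserted, with value `0`, at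
random places of the order of the other arrivals; the resulting virtual order is uniform and
independent of the sample.
-/

namespace Vale.Agent.P331.Osel

open Set Vale.Agent.P331
open scoped NNReal ENNReal Classical

set_option linter.all false

namespace Sec

variable {E : Type*}

/-- The virtual history (first arrival first) for the pattern `b`: at an entry `true` the next
sample element of `A` arrives with value `0`, at an entry `false` the next arrival of `B`. It stops
when the next arrival is not yet known. -/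
def vh : List Bool → List (E × ℝ≥0) → List (E × ℝ≥0) → List (E × ℝ≥0)
  | [], _, _ => []
  | true :: _, [], _ => []
  | true :: b, x :: A, B => (x.1, 0) :: vh b A B
  | false :: _, _, [] => []
  | false :: b, A, y :: B => y :: vh b A B

@[simp] theorem vh_nil (A B : List (E × ℝ≥0)) : vh [] A B = [] := by
  cases A <;> cases B <;> rfl

@[simp] theorem vh_true_nil (b : List Bool) (B : List (E × ℝ≥0)) : vh (true :: b) [] B = [] := by
  cases B <;> rfl

@[simp] theorem vh_true_cons (b : List Bool) (x : E × ℝ≥0) (A B : List (E × ℝ≥0)) :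
    vh (true :: b) (x :: A) B = (x.1, 0) :: vh b A B := by
  cases B <;> rfl

@[simp] theorem vh_false_nil (b : List Bool) (A : List (E × ℝ≥0)) : vh (false :: b) A [] = [] := by
  cases A <;> rfl

@[simp] theorem vh_false_cons (b : List Bool) (y : E × ℝ≥0) (A B : List (E × ℝ≥0)) :
    vh (false :: b) A (y :: B) = y :: vh b A B := by
  cases A <;> rfl

theorem mem_vh (b : List Bool) : ∀ (A B : List (E × ℝ≥0)) (e : E),
    e ∈ (vh b A B).map Prod.fst → e ∈ A.map Prod.fst ∨ e ∈ B.map Prod.fst := by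
  induction b with
  | nil => intro A B e h; simp at h
  | cons t b ih =>
    intro A B e h
    cases t with
    | true =>
      cases A with
      | nil => simp at h
      | cons x A =>
        rw [vh_true_cons, List.map_cons, List.mem_cons] at h
        rcases h with h | h
        · left; rw [h]; exact List.mem_cons_self
        · rcases ih A B e h with h | h
          · left; exact List.mem_cons_of_mem _ h
          · right; exact h
    | false =>
      cases B with
      | nil => simp at h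
      | cons y B =>
        rw [vh_false_cons, List.map_cons, List.mem_cons] at h
        rcases h with h | h
        · right; rw [h]; exact List.mem_cons_self
        · rcases ih A B e h with h | h
          · left; exact h
          · right; exact List.mem_cons_of_mem _ h

theorem nodup_vh (b : List Bool) : ∀ (A B : List (E × ℝ≥0)),
    ((A ++ B).map Prod.fst).Nodup → ((vh b A B).map Prod.fst).Nodup := by
  induction b with
  | nil => intro A B h; simp
  | cons t b ih =>
    intro A B h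
    cases t with
    | true =>
      cases A with
      | nil => simp
      | cons x A =>
        rw [vh_true_cons, List.map_cons, List.nodup_cons]
        rw [List.cons_append, List.map_cons, List.nodup_cons, List.map_append, List.mem_append] at h
        refine ⟨fun hx => h.1 (mem_vh b A B _ hx), ih A B ?_⟩
        rw [List.map_append]; exact h.2
    | false =>
      cases B with
      | nil => simp
      | cons y B =>
        rw [vh_false_cons, List.map_cons, List.nodup_cons]
        have h' : ((y :: (A ++ B)).map Prod.fst).Nodup := by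
          refine (List.Perm.nodup_iff ?_).1 h
          exact (List.perm_middle).map _
        rw [List.map_cons, List.nodup_cons, List.map_append, List.mem_append] at h'
        refine ⟨fun hx => h'.1 (mem_vh b A B _ hx), ih A B ?_⟩
        rw [List.map_append]; exact h'.2

theorem vh_prefix (b : List Bool) : ∀ (A B C : List (E × ℝ≥0)),
    vh b A B <+: vh b A (B ++ C) := by
  induction b with
  | nil => intro A B C; simp
  | cons t b ih =>
    intro A B C
    cases t with
    | true =>
      cases A with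
      | nil => simp
      | cons x A =>
        rw [vh_true_cons, vh_true_cons]
        exact (List.prefix_cons_inj _).2 (ih A B C)
    | false =>
      cases B with
      | nil => simp
      | cons y B =>
        rw [List.cons_append, vh_false_cons, vh_false_cons]
        exact (List.prefix_cons_inj _).2 (ih A B C)

/-- The virtual history of an order `π` with coins `c`. -/
theorem map_prefix_vh (c : E → Bool) (w : E → ℝ≥0) (π₁ : List E) : ∀ π₂ : List E,
    (π₁.map fun e => (e, mix c (0 : E → ℝ≥0) w e)) <+: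
      vh ((π₁ ++ π₂).map c) (((π₁ ++ π₂).filter fun e => c e).map fun e => (e, w e))
        ((π₁.filter fun e => !c e).map fun e => (e, w e)) := by
  induction π₁ with
  | nil => intro π₂; simp
  | cons a π₁ ih =>
    intro π₂
    rcases hc : c a with _ | _
    · have h := ih π₂
      simpa [hc, mix] using h
    · have h := ih π₂
      simpa [hc, mix] using h

theorem accepted_append (dec : List (E × ℝ≥0) → E × ℝ≥0 → Prop) (h1 h0 : List (E × ℝ≥0)) :
    accepted dec h0 ⊆ accepted dec (h1 ++ h0) := by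
  induction h1 with
  | nil => exact Finset.Subset.refl _
  | cons x h1 ih =>
    rw [List.cons_append, accepted]
    split_ifs
    · exact ih.trans (Finset.subset_insert _ _)
    · exact ih

theorem accepted_prefix (dec : List (E × ℝ≥0) → E × ℝ≥0 → Prop) {L0 L : List (E × ℝ≥0)}
    (h : L0 <+: L) : accepted dec L0.reverse ⊆ accepted dec L.reverse := by
  obtain ⟨t, rfl⟩ := h
  rw [List.reverse_append]
  exact accepted_append dec _ _

theorem mem_accepted_of_append (dec : List (E × ℝ≥0) → E × ℝ≥0 → Prop) {h1 h0 : List (E × ℝ≥0)}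
    {e : E} (he : e ∉ h1.map Prod.fst) (h : e ∈ accepted dec (h1 ++ h0)) :
    e ∈ accepted dec h0 := by
  induction h1 with
  | nil => exact h
  | cons x h1 ih =>
    rw [List.map_cons, List.mem_cons, not_or] at he
    rw [List.cons_append, accepted] at h
    split_ifs at h
    · rcases Finset.mem_insert.1 h with h | h
      · exact absurd h he.1
      · exact ih he.2 h
    · exact ih he.2 h

/-- The sample values of a list of arrivals. -/
noncomputable def samp (A : List (E × ℝ≥0)) (e : E) : ℝ≥0 :=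
  (A.map fun p => if p.1 = e then p.2 else 0).sum

theorem samp_map (w : E → ℝ≥0) {L : List E} (hL : L.Nodup) (e : E) :
    samp (L.map fun f => (f, w f)) e = if e ∈ L then w e else 0 := by
  induction L with
  | nil => simp [samp]
  | cons a L ih =>
    have h1 := List.nodup_cons.1 hL
    have h2 := ih h1.2
    unfold samp at h2 ⊢
    rw [List.map_cons, List.map_cons, List.sum_cons, h2]
    by_cases hae : a = e
    · subst hae
      simp [h1.1]
    · have h3 : e ≠ a := fun h => hae h.symm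
      simp [hae, h3]

variable [Fintype E]

/-- The random-order rule: `r` = labels, `b` = pattern. The first `b.count true` arrivals are the
sample. -/
def srule (M : Matroid E) (r : E → Bool) (b : List Bool) (h : List (E × ℝ≥0)) (x : E × ℝ≥0) :
    Prop :=
  b.count true ≤ h.length ∧
    x.1 ∈ accepted (acc M (fun f => r f = true) (samp (h.reverse.take (b.count true))))
      (vh b (h.reverse.take (b.count true)) (h.reverse.drop (b.count true) ++ [x])).reverse

theorem accepted_srule_of_le (M : Matroid E) (r : E → Bool) (b : List Bool)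
    (h : List (E × ℝ≥0)) (hl : h.length ≤ b.count true) : accepted (srule M r b) h = ∅ := by
  induction h with
  | nil => rfl
  | cons x h ih =>
    rw [List.length_cons] at hl
    rw [accepted, if_neg]
    · exact ih (by omega)
    · intro hs
      have := hs.1
      omega

theorem accepted_srule_subset (M : Matroid E) (r : E → Bool) (b : List Bool)
    (h : List (E × ℝ≥0)) : accepted (srule M r b) h ⊆
      accepted (acc M (fun f => r f = true) (samp (h.reverse.take (b.count true))))
        (vh b (h.reverse.take (b.count true)) (h.reverse.drop (b.count true))).reverse := by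
  induction h with
  | nil => intro e he; simp [accepted] at he
  | cons x h ih =>
    by_cases hl : b.count true ≤ h.length
    · have h1 : (x :: h).reverse.take (b.count true) = h.reverse.take (b.count true) := by
        rw [List.reverse_cons, List.take_append_of_le_length]
        rwa [List.length_reverse]
      have h2 : (x :: h).reverse.drop (b.count true) = h.reverse.drop (b.count true) ++ [x] := by
        rw [List.reverse_cons, List.drop_append_of_le_length]
        rwa [List.length_reverse]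
      rw [h1, h2]
      have h3 := ih.trans (accepted_prefix
        (acc M (fun f => r f = true) (samp (h.reverse.take (b.count true))))
        (vh_prefix b (h.reverse.take (b.count true)) (h.reverse.drop (b.count true)) [x]))
      intro e he
      rw [accepted] at he
      split_ifs at he with hs
      · rcases Finset.mem_insert.1 he with he | he
        · rw [he]; exact hs.2
        · exact h3 he
      · exact h3 he
    · rw [accepted_srule_of_le M r b (x :: h) (by rw [List.length_cons]; omega)]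
      exact Finset.empty_subset _

theorem indep_srule {M : Matroid E} (hM : M.E = univ) (r : E → Bool) (b : List Bool)
    (h : List (E × ℝ≥0)) (hnd : (h.map Prod.fst).Nodup) :
    M.Indep (accepted (srule M r b) h : Set E) := by
  refine Matroid.Indep.subset (indep_accepted hM (samp (h.reverse.take (b.count true)))
    (vh b (h.reverse.take (b.count true)) (h.reverse.drop (b.count true))).reverse ?_)
    (Finset.coe_subset.2 (accepted_srule_subset M r b h))
  rw [List.map_reverse, List.nodup_reverse]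
  refine nodup_vh b _ _ ?_
  rw [List.take_append_drop, List.map_reverse, List.nodup_reverse]
  exact hnd

theorem mem_accepted_srule (M : Matroid E) (r : E → Bool) (w : E → ℝ≥0) (c : E → Bool)
    {π : List E} (hπ : π.Nodup) (hall : ∀ e, e ∈ π) {e : E} (hc : c e = false)
    (he : e ∈ accepted (acc M (fun f => r f = true) (mix c w 0))
      (π.map fun f => (f, mix c (0 : E → ℝ≥0) w f)).reverse) :
    e ∈ accepted (srule M r (π.map c))
      (((π.filter fun f => c f) ++ (π.filter fun f => !c f)).map fun f => (f, w f)).reverse := by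
  obtain ⟨π₁, π₂, rfl⟩ := List.append_of_mem (hall e)
  have hnd := List.nodup_append.1 hπ
  have hnd2 := List.nodup_cons.1 hnd.2.1
  -- the decision of the virtual rule
  have h1 : e ∈ accepted (acc M (fun f => r f = true) (mix c w 0))
      ((π₁ ++ [e]).map fun f => (f, mix c (0 : E → ℝ≥0) w f)).reverse := by
    refine mem_accepted_of_append _ (h1 := (π₂.map fun f => (f, mix c (0 : E → ℝ≥0) w f)).reverse)
      ?_ ?_
    · rw [List.map_reverse, List.mem_reverse, List.map_map]
      intro hm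
      obtain ⟨f, hf, hfe⟩ := List.mem_map.1 hm
      exact hnd2.1 (by simpa using (show f = e from hfe) ▸ hf)
    · rw [← List.reverse_append, ← List.map_append, List.append_assoc, List.singleton_append]
      exact he
  have hT : ((π₁ ++ e :: π₂).map c).count true = ((π₁ ++ e :: π₂).filter fun f => c f).length := by
    rw [List.count, List.countP_map, List.countP_eq_length_filter]
    congr 1
    refine List.filter_congr fun f _ => ?_
    simp
  have hs : samp (((π₁ ++ e :: π₂).filter fun f => c f).map fun f => (f, w f)) = mix c w 0 := by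
    funext f
    rw [samp_map w (hπ.filter _)]
    by_cases hcf : c f = true
    · rw [if_pos (List.mem_filter.2 ⟨hall f, hcf⟩)]
      simp [mix, hcf]
    · rw [if_neg (fun hh => hcf (List.mem_filter.1 hh).2)]
      simp [mix, hcf]
  have h2 : srule M r ((π₁ ++ e :: π₂).map c)
      (((((π₁ ++ e :: π₂).filter fun f => c f) ++ (π₁.filter fun f => !c f)).map
        fun f => (f, w f)).reverse) (e, w e) := by
    unfold srule
    rw [hT, List.reverse_reverse, List.map_append]
    have ht : List.take ((π₁ ++ e :: π₂).filter fun f => c f).length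
        ((((π₁ ++ e :: π₂).filter fun f => c f).map fun f => (f, w f)) ++
          ((π₁.filter fun f => !c f).map fun f => (f, w f))) =
        (((π₁ ++ e :: π₂).filter fun f => c f).map fun f => (f, w f)) := by
      rw [List.take_append_of_le_length (by rw [List.length_map]), List.take_of_length_le]
      rw [List.length_map]
    have hd : List.drop ((π₁ ++ e :: π₂).filter fun f => c f).length
        ((((π₁ ++ e :: π₂).filter fun f => c f).map fun f => (f, w f)) ++
          ((π₁.filter fun f => !c f).map fun f => (f, w f))) =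
        ((π₁.filter fun f => !c f).map fun f => (f, w f)) := by
      rw [List.drop_append_of_le_length (by rw [List.length_map]), List.drop_of_length_le,
        List.nil_append]
      rw [List.length_map]
    rw [ht, hd, hs]
    refine ⟨by simp; omega, ?_⟩
    have h3 := map_prefix_vh c w (π₁ ++ [e]) π₂
    have h5 : ((π₁ ++ [e]).filter fun f => !c f).map (fun f => (f, w f)) =
        (π₁.filter fun f => !c f).map (fun f => (f, w f)) ++ [(e, w e)] := by
      rw [List.filter_append]
      simp [hc]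
    rw [List.append_assoc, List.singleton_append, h5] at h3
    exact accepted_prefix (acc M (fun f => r f = true) (mix c w 0)) h3 h1
  have h6 : ((((π₁ ++ e :: π₂).filter fun f => c f) ++
      ((π₁ ++ e :: π₂).filter fun f => !c f)).map fun f => (f, w f)).reverse =
      ((π₂.filter fun f => !c f).map fun f => (f, w f)).reverse ++
        ((e, w e) :: ((((π₁ ++ e :: π₂).filter fun f => c f) ++ (π₁.filter fun f => !c f)).map
        fun f => (f, w f)).reverse) := by
    have h7 : ((π₁ ++ e :: π₂).filter fun f => !c f) =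
        (π₁.filter fun f => !c f) ++ e :: (π₂.filter fun f => !c f) := by
      rw [List.filter_append]
      simp [hc]
    rw [h7]
    simp
  rw [h6]
  refine accepted_append _ _ _ ?_
  rw [accepted, if_pos h2]
  exact Finset.mem_insert_self _ _

/-! ### The sum over all orders -/

instance instFiniteOrder : Finite (Order E) := by
  refine Finite.of_injective (fun o : Order E => (⟨o.1, o.2.1⟩ : {l : List E // l.Nodup})) ?_
  intro o o' h
  exact Subtype.ext (congrArg (fun x : {l : List E // l.Nodup} => x.1) h)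

noncomputable instance instFintypeOrder : Fintype (Order E) := Fintype.ofFinite _

theorem length_order (o : Order E) : o.1.length = Fintype.card E := by
  rw [← List.toFinset_card_of_nodup o.2.1]
  have : o.1.toFinset = Finset.univ := by
    ext e; simp [o.2.2 e]
  rw [this, Finset.card_univ]

/-- From the virtual order and the coins to the real order and the pattern. -/
noncomputable def phi (p : Order E × (E → Bool)) : List.Vector Bool (Fintype.card E) × Order E :=
  (⟨p.1.1.map p.2, by rw [List.length_map, length_order]⟩,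
    ⟨(p.1.1.filter fun f => p.2 f) ++ (p.1.1.filter fun f => !p.2 f), by
      refine List.nodup_append.2 ⟨p.1.2.1.filter _, p.1.2.1.filter _, ?_⟩
      intro a ha b hb hab
      subst hab
      have h1 := (List.mem_filter.1 ha).2
      have h2 := (List.mem_filter.1 hb).2
      simp_all, fun e => by
      rw [List.mem_append, List.mem_filter, List.mem_filter]
      have h1 := p.1.2.2 e
      rcases h : p.2 e <;> simp [h, h1]⟩)

theorem eq_of_map_filter {c c' : E → Bool} : ∀ {l l' : List E}, l.map c = l'.map c' →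
    (l.filter fun f => c f) = (l'.filter fun f => c' f) →
    (l.filter fun f => !c f) = (l'.filter fun f => !c' f) → l = l'
  | [], [], _, _, _ => rfl
  | [], b :: l', h, _, _ => by simp at h
  | a :: l, [], h, _, _ => by simp at h
  | a :: l, b :: l', h, h1, h2 => by
    rw [List.map_cons, List.map_cons, List.cons.injEq] at h
    rcases hc : c a with _ | _
    · have hc' : c' b = false := by rw [← h.1, hc]
      simp only [List.filter_cons, hc, hc', Bool.not_false, if_true, if_false,
        Bool.false_eq_true] at h1 h2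
      rw [List.cons.injEq] at h2
      rw [h2.1, eq_of_map_filter h.2 h1 h2.2]
    · have hc' : c' b = true := by rw [← h.1, hc]
      simp only [List.filter_cons, hc, hc', Bool.not_true, if_true, if_false,
        Bool.false_eq_true] at h1 h2
      rw [List.cons.injEq] at h1
      rw [h1.1, eq_of_map_filter h.2 h1.2 h2]

theorem phi_injective : Function.Injective (phi (E := E)) := by
  rintro ⟨π, c⟩ ⟨π', c'⟩ h
  have h1 : π.1.map c = π'.1.map c' := congrArg (fun x => x.1.1) h
  have h2 : (π.1.filter fun f => c f) ++ (π.1.filter fun f => !c f) =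
      (π'.1.filter fun f => c' f) ++ (π'.1.filter fun f => !c' f) :=
    congrArg (fun x => x.2.1) h
  have h3 : (π.1.filter fun f => c f).length = (π'.1.filter fun f => c' f).length := by
    have h4 := congrArg (List.countP (fun t : Bool => t)) h1
    rw [List.countP_map, List.countP_map, List.countP_eq_length_filter,
      List.countP_eq_length_filter] at h4
    exact h4
  obtain ⟨h5, h6⟩ := List.append_inj h2 h3
  have h7 := eq_of_map_filter h1 h5 h6
  have h8 : π = π' := Subtype.ext h7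
  subst h8
  congr 1
  funext e
  exact List.map_inj_left.1 h1 e (π.2.2 e)

theorem sum_phi_le (F : List.Vector Bool (Fintype.card E) → Order E → ℝ≥0∞) :
    ∑ p : Order E × (E → Bool), F (phi p).1 (phi p).2 ≤
      ∑ b : List.Vector Bool (Fintype.card E), ∑ o : Order E, F b o := by
  rw [← Fintype.sum_prod_type' (f := F)]
  rw [← Finset.sum_image (f := fun q : List.Vector Bool (Fintype.card E) × Order E => F q.1 q.2)
    (g := phi) (s := Finset.univ) (fun _ _ _ _ h => phi_injective h)]
  exact Finset.sum_le_sum_of_subset (Finset.subset_univ _)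

theorem opt_le_add (M : Matroid E) (w : E → ℝ≥0) (c : E → Bool) :
    opt M w ≤ opt M (mix c 0 w) + opt M (mix (fun e => !c e) 0 w) := by
  refine iSup₂_le fun I hI => ?_
  calc ∑ e ∈ I, (w e : ℝ≥0∞) = ∑ e ∈ I, (mix c 0 w e : ℝ≥0∞) +
        ∑ e ∈ I, (mix (fun e => !c e) 0 w e : ℝ≥0∞) := by
        rw [← Finset.sum_add_distrib]
        refine Finset.sum_congr rfl fun e _ => ?_
        rcases h : c e <;> simp [mix, h]
    _ ≤ _ := add_le_add (le_iSup₂_of_le I hI le_rfl) (le_iSup₂_of_le I hI le_rfl)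

theorem card_mul_opt_le (M : Matroid E) (w : E → ℝ≥0) :
    (Fintype.card (E → Bool) : ℝ≥0∞) * opt M w ≤ 2 * ∑ c : E → Bool, opt M (mix c 0 w) := by
  have hinv : Function.Involutive (fun (c : E → Bool) (e : E) => !c e) := by
    intro c; funext e; simp
  have h1 : ∑ c : E → Bool, opt M (mix (fun e => !c e) 0 w) =
      ∑ c : E → Bool, opt M (mix c 0 w) :=
    Equiv.sum_comp hinv.toPerm (fun c : E → Bool => opt M (mix c 0 w))
  calc (Fintype.card (E → Bool) : ℝ≥0∞) * opt M w = ∑ c : E → Bool, opt M w := by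
        rw [Finset.sum_const, Finset.card_univ, nsmul_eq_mul]
    _ ≤ ∑ c : E → Bool, (opt M (mix c 0 w) + opt M (mix (fun e => !c e) 0 w)) :=
        Finset.sum_le_sum fun c _ => opt_le_add M w c
    _ = 2 * ∑ c : E → Bool, opt M (mix c 0 w) := by
        rw [Finset.sum_add_distrib, h1, two_mul]

/-- The gain of the random-order rule is at least that of the virtual rule. -/
theorem gain_le (M : Matroid E) (r : E → Bool) (w : E → ℝ≥0) (p : Order E × (E → Bool)) :
    ∑ e ∈ accepted (acc M (fun f => r f = true) (mix p.2 w 0)) (history (mix p.2 0 w) p.1),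
      (mix p.2 0 w e : ℝ≥0∞) ≤
    ∑ e ∈ accepted (srule M r (phi p).1.1) (history w (phi p).2), (w e : ℝ≥0∞) := by
  obtain ⟨π, c⟩ := p
  set A := accepted (acc M (fun f => r f = true) (mix c w 0)) (history (mix c 0 w) π) with hA
  calc ∑ e ∈ A, (mix c 0 w e : ℝ≥0∞) = ∑ e ∈ A.filter (fun e => c e = false),
        (mix c 0 w e : ℝ≥0∞) := by
        rw [Finset.sum_filter]
        refine Finset.sum_congr rfl fun e _ => ?_
        rcases h : c e <;> simp [mix, h]
    _ = ∑ e ∈ A.filter (fun e => c e = false), (w e : ℝ≥0∞) := by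
        refine Finset.sum_congr rfl fun e he => ?_
        simp [mix, (Finset.mem_filter.1 he).2]
    _ ≤ _ := by
        refine Finset.sum_le_sum_of_subset fun e he => ?_
        obtain ⟨h1, h2⟩ := Finset.mem_filter.1 he
        exact mem_accepted_srule M r w c π.2.1 π.2.2 h2 h1

end Sec

open Sec in
/-- **The random-order corollary.** If the one-sample rule gains a quarter of the optimum against
every fixed order, in the coin model, then there is a rule for the random-order (secretary) problem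
which gains one eighth of the optimum. -/
theorem secretary {E : Type*} [Fintype E] {M : Matroid E} (hM : M.E = univ)
    (hcore : ∀ (x y : E → ℝ≥0) (o : (E → Bool) → Order E),
      (1 / 4 : ℝ≥0∞) * Fintype.card (E → Bool) * ∑ c : E → Bool, opt M (mix c y x) ≤
        ∑ r : E → Bool, ∑ c : E → Bool,
          ∑ e ∈ accepted (acc M (fun f => r f = true) (mix c x y)) (history (mix c y x) (o r)),
            (mix c y x e : ℝ≥0∞)) :
    ∃ (Seed : Type) (_ : Fintype Seed) (_ : Nonempty Seed)
      (accept : Seed → List (E × ℝ≥0) → E × ℝ≥0 → Prop),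
      (∀ (r : Seed) (h : List (E × ℝ≥0)), (h.map Prod.fst).Nodup →
        M.Indep (accepted (accept r) h : Set E)) ∧
      ∀ w : E → ℝ≥0,
        (1 / 8 : ℝ≥0∞) * Fintype.card Seed * Fintype.card (Order E) * opt M w ≤
          ∑ r : Seed, ∑ o : Order E, ∑ e ∈ accepted (accept r) (history w o), (w e : ℝ≥0∞) := by
  refine ⟨(Fin (Fintype.card E) → Bool) × List.Vector Bool (Fintype.card E), inferInstance,
    ⟨(fun _ => true, List.Vector.replicate _ true)⟩,
    fun s => srule M (fun e => s.1 (Fintype.equivFin E e)) s.2.1,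
    fun s h hnd => indep_srule hM _ _ h hnd, fun w => ?_⟩
  have hcard : Fintype.card ((Fin (Fintype.card E) → Bool) × List.Vector Bool (Fintype.card E)) =
      Fintype.card (E → Bool) * Fintype.card (E → Bool) := by
    rw [Fintype.card_prod, card_vector, Fintype.card_fun, Fintype.card_fun, Fintype.card_fin]
  set N : ℝ≥0∞ := (Fintype.card (E → Bool) : ℝ≥0∞) with hN
  have h1 : ∀ π : Order E, (1 / 8 : ℝ≥0∞) * N * (N * opt M w) ≤
      ∑ r : E → Bool, ∑ c : E → Bool,
        ∑ e ∈ accepted (acc M (fun f => r f = true) (mix c w 0)) (history (mix c 0 w) π),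
          (mix c 0 w e : ℝ≥0∞) := by
    intro π
    calc (1 / 8 : ℝ≥0∞) * N * (N * opt M w) ≤
        (1 / 8 : ℝ≥0∞) * N * (2 * ∑ c : E → Bool, opt M (mix c 0 w)) := by
          exact mul_le_mul_right (card_mul_opt_le M w) _
      _ = (1 / 4 : ℝ≥0∞) * N * ∑ c : E → Bool, opt M (mix c 0 w) := by
          have h2 : (1 / 8 : ℝ≥0∞) * 2 = 1 / 4 := by
            rw [one_div, one_div, show (8 : ℝ≥0∞) = 4 * 2 by norm_num,
              ENNReal.mul_inv (by norm_num) (by norm_num), mul_assoc,
              ENNReal.inv_mul_cancel (by norm_num) (by norm_num), mul_one]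
          rw [← h2]; ring
      _ ≤ _ := hcore w 0 fun _ => π
  set F : (E → Bool) → List.Vector Bool (Fintype.card E) → Order E → ℝ≥0∞ := fun r b o =>
    ∑ e ∈ accepted (srule M r b.1) (history w o), (w e : ℝ≥0∞) with hF
  have h2 : ∑ s : (Fin (Fintype.card E) → Bool) × List.Vector Bool (Fintype.card E),
      ∑ o : Order E, F (fun e => s.1 (Fintype.equivFin E e)) s.2 o =
      ∑ r : E → Bool, ∑ b, ∑ o, F r b o := by
    rw [Fintype.sum_prod_type]
    exact Equiv.sum_comp (Equiv.arrowCongr (Fintype.equivFin E).symm (Equiv.refl Bool))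
      (fun r : E → Bool => ∑ b, ∑ o, F r b o)
  calc (1 / 8 : ℝ≥0∞) * Fintype.card ((Fin (Fintype.card E) → Bool) ×
        List.Vector Bool (Fintype.card E)) * Fintype.card (Order E) * opt M w =
        ∑ π : Order E, (1 / 8 : ℝ≥0∞) * N * (N * opt M w) := by
        rw [Finset.sum_const, Finset.card_univ, nsmul_eq_mul, hcard, Nat.cast_mul]
        ring
    _ ≤ ∑ π : Order E, ∑ r : E → Bool, ∑ c : E → Bool,
        ∑ e ∈ accepted (acc M (fun f => r f = true) (mix c w 0)) (history (mix c 0 w) π),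
          (mix c 0 w e : ℝ≥0∞) := Finset.sum_le_sum fun π _ => h1 π
    _ = ∑ r : E → Bool, ∑ p : Order E × (E → Bool),
        ∑ e ∈ accepted (acc M (fun f => r f = true) (mix p.2 w 0)) (history (mix p.2 0 w) p.1),
          (mix p.2 0 w e : ℝ≥0∞) := by
        rw [Finset.sum_comm]
        refine Finset.sum_congr rfl fun r _ => ?_
        rw [Fintype.sum_prod_type]
    _ ≤ ∑ r : E → Bool, ∑ p : Order E × (E → Bool), F r (phi p).1 (phi p).2 :=
        Finset.sum_le_sum fun r _ => Finset.sum_le_sum fun p _ => gain_le M r w p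
    _ ≤ ∑ r : E → Bool, ∑ b, ∑ o, F r b o :=
        Finset.sum_le_sum fun r _ => sum_phi_le (F r)
    _ = _ := h2.symm

end Vale.Agent.P331.Osel
end

section

/-!
# The random-order (secretary) theorem
-/

namespace Vale.Agent.P331.Osel

open Set Vale.Agent.P331
open scoped NNReal ENNReal Classical

set_option linter.all false

open Sec in
/-- Every finite matroid has a rule for the random-order (secretary) problem with fixed unknown
weights which gains at least one eighth of the optimum. -/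
theorem secretary_main {E : Type*} [Fintype E] {M : Matroid E} (hM : M.E = univ) :
    ∃ (Seed : Type) (_ : Fintype Seed) (_ : Nonempty Seed)
      (accept : Seed → List (E × ℝ≥0) → E × ℝ≥0 → Prop),
      (∀ (r : Seed) (h : List (E × ℝ≥0)), (h.map Prod.fst).Nodup →
        M.Indep (accepted (accept r) h : Set E)) ∧
      ∀ w : E → ℝ≥0,
        (1 / 8 : ℝ≥0∞) * Fintype.card Seed * Fintype.card (Order E) * opt M w ≤
          ∑ r : Seed, ∑ o : Order E, ∑ e ∈ accepted (accept r) (history w o), (w e : ℝ≥0∞) := by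
  refine secretary hM fun x y o => ?_
  rw [one_div]
  exact core hM x y o

end Vale.Agent.P331.Osel
end

section

/-!
# The matroid secretary problem: from the explicit form to `SecretaryRule`
-/

namespace Vale.Agent.P331

open scoped ENNReal NNReal Classical

variable {E : Type*}

/-- The explicit form of the secretary theorem gives a competitive `SecretaryRule`. -/
theorem secretary_of_explicit [Fintype E] (fO : Fintype (Order E)) {M : Matroid E} {c : ℝ≥0∞}
    (H : ∃ (Seed : Type) (fS : Fintype Seed) (_ : Nonempty Seed)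
      (accept : Seed → List (E × ℝ≥0) → E × ℝ≥0 → Prop),
      (∀ (r : Seed) (h : List (E × ℝ≥0)), (h.map Prod.fst).Nodup →
        M.Indep (accepted (accept r) h : Set E)) ∧
      ∀ w : E → ℝ≥0, c * (@Fintype.card Seed fS : ℝ≥0∞) *
          (@Fintype.card (Order E) fO : ℝ≥0∞) * opt M w ≤
        ∑ r : Seed, (@Finset.univ (Order E) fO).sum fun o =>
          ∑ e ∈ accepted (accept r) (history w o), (w e : ℝ≥0∞)) :
    ∃ R : SecretaryRule M, R.IsCompetitive c := by
  have hfO : fO = Order.instFintype := Subsingleton.elim _ _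
  subst hfO
  obtain ⟨Seed, fS, nS, accept, hf, hw⟩ := H
  refine ⟨{ Seed := Seed, accept := accept, feasible := hf }, fun w => ?_⟩
  have h1 := hw w
  have hS : (Fintype.card Seed : ℝ≥0∞) ≠ 0 := by
    exact_mod_cast Fintype.card_ne_zero
  have hO : (@Fintype.card (Order E) Order.instFintype : ℝ≥0∞) ≠ 0 := by
    have : Nonempty (Order E) := by
      refine ⟨⟨(Finset.univ : Finset E).toList, Finset.nodup_toList _, fun e => ?_⟩⟩
      exact Finset.mem_toList.2 (Finset.mem_univ e)
    exact Nat.cast_ne_zero.2 (@Fintype.card_ne_zero (Order E) Order.instFintype this)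
  rw [ENNReal.le_div_iff_mul_le (Or.inl (mul_ne_zero hS hO))
    (Or.inl (ENNReal.mul_ne_top (ENNReal.natCast_ne_top _) (ENNReal.natCast_ne_top _)))]
  refine le_trans (le_of_eq ?_) h1
  ring

/-- The matroid secretary theorem: every finite matroid has a `1/8`-competitive secretary rule. -/
theorem exists_secretaryRule {E : Type} [Fintype E] {M : Matroid E} (hM : M.E = Set.univ) :
    ∃ R : SecretaryRule M, R.IsCompetitive (1 / 8) := by
  obtain ⟨Seed, fS, nS, accept, hf, hw⟩ := Osel.secretary_main hM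
  exact secretary_of_explicit _ ⟨Seed, fS, nS, accept, hf, hw⟩

end Vale.Agent.P331
end
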